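import Mathlib
import Vale.Agent.Lib.P193.Mach.Defs

/-!
# P193, part I: the finitely presented algebra `A 𝔇` of a counter machine (definitions)

See `PART_I.md`.
-/

namespace P193.One

open P193.Mach

/-- the four objects -/
inductive Obj | O | B | C | Z
  deriving DecidableEq

instance : Fintype Obj := ⟨{.O, .B, .C, .Z}, by intro x; cases x <;> simp⟩

/-- internal states of the tape machine: `rest p`, `st i` read to the right, `lft p`, `H` to the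
left -/
inductive QS (m : ℕ)
  | rest (p : Fin m) | st (i : Fin 3) | lft (p : Fin m) | H
  deriving DecidableEq, Fintype

/-- right reading states -/
def QS.isR {m : ℕ} : QS m → Bool
  | .rest _ => true
  | .st _ => true
  | .lft _ => false
  | .H => false

/-- tape letters: counter letters `a j`, the monitor `mon`, records `rc q` -/
inductive D (r m : ℕ)
  | a (j : Fin r) | mon | rc (q : QS m)
  deriving DecidableEq, Fintype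

/-- generators of the algebra. `sg (inl s)`: letters of the group, `sg (inr y)`: the six free
letters `0 = beg, 1 = fin, 2 = t, 3 = b, 4 = o, 5 = i`. -/
inductive Gen (c r m : ℕ)
  | e (X : Obj)
  | sg (σ : Fin c ⊕ Fin 6)
  | lt | kap
  | ld (d : D r m) | rd (d : D r m)
  | q (q : QS m) | qD | qE | qs (i : Fin 3)
  | sw | sV | az | ez | T | Ts
  deriving DecidableEq, Fintype

/-- the data: number `c` of group letters, a counter machine with `r > 0` counters, `m` states and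
output letters `Fin (c + 6)`, and three start states -/
structure Data where
  c : ℕ
  r : ℕ
  m : ℕ
  hr : 0 < r
  M : Fin m → Instr r m (c + 6)
  start : Fin 3 → Fin m

namespace Data

variable (𝔇 : Data)

/-- letters `S ⊔ Y` -/
abbrev Sg : Type := Fin 𝔇.c ⊕ Fin 6
abbrev Dt : Type := D 𝔇.r 𝔇.m
abbrev Qt : Type := QS 𝔇.m
abbrev Gt : Type := Gen 𝔇.c 𝔇.r 𝔇.m
/-- the input letter -/
def a0 : 𝔇.Dt := .a ⟨0, 𝔇.hr⟩
/-- output letter of the machine as letter in `S ⊔ Y` -/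
def sgOf (x : Fin (𝔇.c + 6)) : 𝔇.Sg := finSumFinEquiv.symm x

/-- the free algebra -/
abbrev FA : Type := FreeAlgebra (ZMod 2) 𝔇.Gt

/-- generator -/
abbrev γ (g : 𝔇.Gt) : 𝔇.FA := FreeAlgebra.ι (ZMod 2) g

/-- source of a generator -/
def src : 𝔇.Gt → Option Obj
  | .e _ => none | .sg _ => some .O | .lt => some .O | .kap => some .C | .ld _ => some .B
  | .rd _ => some .C | .q _ => some .B | .qD => some .B | .qE => some .B | .qs _ => some .B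
  | .sw => some .B | .sV => some .B | .az => some .Z | .ez => some .Z | .T => some .O | .Ts => none

/-- target of a generator -/
def tgt : 𝔇.Gt → Option Obj
  | .e _ => none | .sg _ => some .O | .lt => some .B | .kap => some .O | .ld _ => some .B
  | .rd _ => some .C | .q _ => some .C | .qD => some .C | .qE => some .C | .qs _ => some .C
  | .sw => some .Z | .sV => some .Z | .az => some .Z | .ez => none | .T => none | .Ts => some .O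

/-- code of a tape letter: `i o^{idx} i` (prefix code and suffix code) -/
noncomputable def code (d : 𝔇.Dt) : List (Fin 6) :=
  5 :: (List.replicate (Fintype.equivFin 𝔇.Dt d : ℕ) 4 ++ [5])

/-- product of `Y`-letters in the free algebra -/
def yw (w : List (Fin 6)) : 𝔇.FA := (w.map fun y => 𝔇.γ (.sg (.inr y))).prod

/-- indices of the relations -/
inductive RI (c r m : ℕ)
  | idem (X Y : Obj) | sum1 | src (g : Gen c r m) | tgt (g : Gen c r m)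
  | comm (s : Fin c) (y : Fin 6)
  | restA (p : Fin m) (j : Fin r) | restK (p : Fin m)
  | lftA (p : Fin m) (j : Fin r) | lftL (p : Fin m)
  | HA (j : Fin r) | HK | HD (d : D r m)
  | stA (i : Fin 3) (j : Fin r) | stK (i : Fin 3)
  | monR (q : QS m) | rcR (q q' : QS m) | monL (q : QS m) | rcL (q q' : QS m)
  | DA (d : D r m) | DL | EA (d : D r m) | EL (d : D r m) | EK
  | qsA (i : Fin 3) (d : D r m) | qsR (i : Fin 3) (d : D r m) | qsL (i : Fin 3) | rho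
  | swA (d : D r m) | sVA (d : D r m) | swE | sVE | sVL | TT
  deriving DecidableEq, Fintype

/-- the relations (left side, right side) -/
noncomputable def relOf : RI 𝔇.c 𝔇.r 𝔇.m → 𝔇.FA × 𝔇.FA
  | .idem X Y => (𝔇.γ (.e X) * 𝔇.γ (.e Y), if X = Y then 𝔇.γ (.e X) else 0)
  | .sum1 => (𝔇.γ (.e .O) + 𝔇.γ (.e .B) + 𝔇.γ (.e .C) + 𝔇.γ (.e .Z), 1)
  | .src g => match 𝔇.src g with
    | some X => (𝔇.γ (.e X) * 𝔇.γ g, 𝔇.γ g)
    | none => (0, 0)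
  | .tgt g => match 𝔇.tgt g with
    | some X => (𝔇.γ g * 𝔇.γ (.e X), 𝔇.γ g)
    | none => (0, 0)
  | .comm s y => (𝔇.γ (.sg (.inl s)) * 𝔇.γ (.sg (.inr y)), 𝔇.γ (.sg (.inr y)) * 𝔇.γ (.sg (.inl s)))
  -- rest states absorb counter letters to the left
  | .restA p j => (𝔇.γ (.q (.rest p)) * 𝔇.γ (.rd (.a j)), 𝔇.γ (.ld (.a j)) * 𝔇.γ (.q (.rest p)))
  -- at the right end they execute their instruction
  | .restK p => (𝔇.γ (.q (.rest p)) * 𝔇.γ .kap,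
      match 𝔇.M p with
      | .inc i q' => 𝔇.γ (.ld (.a i)) * 𝔇.γ (.q (.rest q')) * 𝔇.γ .kap
      | .dec _ _ _ => 𝔇.γ (.q (.lft p)) * 𝔇.γ .kap
      | .emit _ _ => 𝔇.γ (.q (.lft p)) * 𝔇.γ .kap
      | .halt => 𝔇.γ (.q .H) * 𝔇.γ .kap
      | .fail => 0)
  | .lftA p j => (𝔇.γ (.ld (.a j)) * 𝔇.γ (.q (.lft p)),
      match 𝔇.M p with
      | .dec i q' _ => if j = i then 𝔇.γ (.q (.rest q')) else 𝔇.γ (.q (.lft p)) * 𝔇.γ (.rd (.a j))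
      | .emit _ _ => 𝔇.γ (.q (.lft p)) * 𝔇.γ (.rd (.a j))
      | _ => 0)
  | .lftL p => (𝔇.γ .lt * 𝔇.γ (.q (.lft p)),
      match 𝔇.M p with
      | .dec _ _ q'' => 𝔇.γ .lt * 𝔇.γ (.q (.rest q''))
      | .emit x q' => 𝔇.γ (.sg (𝔇.sgOf x)) * 𝔇.γ .lt * 𝔇.γ (.q (.rest q'))
      | _ => 0)
  | .HA j => (𝔇.γ (.ld (.a j)) * 𝔇.γ (.q .H), 𝔇.γ (.q .H))
  | .HK => (𝔇.γ .lt * 𝔇.γ (.q .H) * 𝔇.γ .kap, 𝔇.γ (.e .O))
  | .HD d => (𝔇.γ .lt * 𝔇.γ (.q .H) * 𝔇.γ (.rd d), 0)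
  | .stA i j => (𝔇.γ (.q (.st i)) * 𝔇.γ (.rd (.a j)),
      if (j : ℕ) = 0 then 𝔇.γ (.ld (.a j)) * 𝔇.γ (.q (.st i)) else 0)
  | .stK i => (𝔇.γ (.q (.st i)) * 𝔇.γ .kap, 𝔇.γ (.q (.rest (𝔇.start i))) * 𝔇.γ .kap)
  | .monR q => if q.isR then (𝔇.γ (.q q) * 𝔇.γ (.rd .mon), 𝔇.γ .qD * 𝔇.γ (.rd (.rc q))) else (0, 0)
  | .rcR q q' => if q.isR then (𝔇.γ (.q q) * 𝔇.γ (.rd (.rc q')), 0) else (0, 0)
  | .monL q => if q.isR then (0, 0) else (𝔇.γ (.ld .mon) * 𝔇.γ (.q q), 𝔇.γ .qD * 𝔇.γ (.rd (.rc q)))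
  | .rcL q q' => if q.isR then (0, 0) else (𝔇.γ (.ld (.rc q')) * 𝔇.γ (.q q), 0)
  | .DA d => (𝔇.γ (.ld d) * 𝔇.γ .qD, 𝔇.γ .qD * 𝔇.γ (.rd d))
  | .DL => (𝔇.γ .lt * 𝔇.γ .qD, 𝔇.γ (.sg (.inr 0)) * 𝔇.γ .lt * 𝔇.γ .qE)
  | .EA d => (𝔇.γ (.ld d) * 𝔇.γ .qE, 0)
  | .EL d => (𝔇.γ .lt * 𝔇.γ .qE * 𝔇.γ (.rd d), 𝔇.yw (𝔇.code d) * 𝔇.γ .lt * 𝔇.γ .qE)
  | .EK => (𝔇.γ .lt * 𝔇.γ .qE * 𝔇.γ .kap, 𝔇.γ (.sg (.inr 1)))
  | .qsA i d => (𝔇.γ (.ld d) * 𝔇.γ (.qs i), if d = 𝔇.a0 then 𝔇.γ (.qs i) * 𝔇.γ (.rd d) else 0)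
  | .qsR i d => if d = 𝔇.a0 ∨ d = .mon then (0, 0) else (𝔇.γ (.qs i) * 𝔇.γ (.rd d), 0)
  | .qsL i => (𝔇.γ .lt * 𝔇.γ (.qs i), 𝔇.γ .lt * 𝔇.γ (.q (.st i)))
  | .rho => (𝔇.γ (.qs 0) * 𝔇.γ (.rd 𝔇.a0) * 𝔇.γ .kap, 𝔇.γ (.qs 0) * 𝔇.γ .kap)
  | .swA d => (𝔇.γ (.ld d) * 𝔇.γ .sw, if d = 𝔇.a0 then 𝔇.γ .sw * 𝔇.γ .az else 0)
  | .sVA d => (𝔇.γ (.ld d) * 𝔇.γ .sV, if d = 𝔇.a0 then 𝔇.γ .sV * 𝔇.γ .az else 0)
  | .swE => (𝔇.γ .sw * 𝔇.γ .ez, 𝔇.γ (.qs 1) * 𝔇.γ .kap * 𝔇.γ .T)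
  | .sVE => (𝔇.γ .sV * 𝔇.γ .ez, 𝔇.γ (.qs 2) * 𝔇.γ .kap * 𝔇.γ .T)
  | .sVL => (𝔇.γ .lt * 𝔇.γ .sV, 𝔇.γ .T * 𝔇.γ .Ts * 𝔇.γ .lt * 𝔇.γ .sw)
  | .TT => (𝔇.γ .Ts * 𝔇.γ .T, 1)

/-- the defining relation -/
def Rel (x y : 𝔇.FA) : Prop := ∃ i, 𝔇.relOf i = (x, y)

/-- the algebra -/
abbrev A : Type := RingQuot 𝔇.Rel

/-- the quotient map -/
noncomputable def qt : 𝔇.FA →ₐ[ZMod 2] 𝔇.A := RingQuot.mkAlgHom (ZMod 2) 𝔇.Rel

/-- generators in the algebra -/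
noncomputable def g (x : 𝔇.Gt) : 𝔇.A := 𝔇.qt (𝔇.γ x)

theorem rel (i : RI 𝔇.c 𝔇.r 𝔇.m) : 𝔇.qt (𝔇.relOf i).1 = 𝔇.qt (𝔇.relOf i).2 :=
  RingQuot.mkAlgHom_rel (ZMod 2) ⟨i, rfl⟩

end Data

end P193.One
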