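import Mathlib
import Vale.Agent.Lib.P193.One.Defs

/-!
# P193, part I: the hypotheses on tables and machine (`Tab`, `Spec`)

See `PART_I.md`, sections 0 and 2.
-/

namespace P193.One

open P193.Mach

/-- `N = G × Y*` -/
abbrev NN (G : Type) : Type := G × FreeMonoid (Fin 6)

section
variable {c : ℕ} {G : Type} [Group G]

/-- value in `N` of a letter -/
def lv (xs : Fin c → G) : Fin c ⊕ Fin 6 → NN G
  | .inl s => (xs s, 1)
  | .inr y => (1, FreeMonoid.of y)

/-- value in `N` of a word -/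
def wv (xs : Fin c → G) (w : List (Fin c ⊕ Fin 6)) : NN G := (w.map (lv xs)).prod

/-- the element of `N` given by a word over `Y` -/
def yv (w : List (Fin 6)) : NN G := (1, FreeMonoid.ofList w)

end

/-- The tables: a group `G` with letters `xs`, the list `F0` of all relators, the words `W k`
(`k : ℕ`) and the test function `V` on `N = G × Y*`, with the properties used in part I. -/
structure Tab (c : ℕ) (G : Type) [Group G] where
  xs : Fin c → G
  /-- `xs` generates `G` as a monoid -/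
  gen : ∀ g : G, ∃ w : List (Fin c), (w.map xs).prod = g
  F0 : ℕ → List (Fin c)
  F0_zero : F0 0 = []
  F0_val : ∀ k, ((F0 k).map xs).prod = 1
  F0_surj : ∀ w : List (Fin c), (w.map xs).prod = 1 → ∃ k, F0 k = w
  W : ℕ → List (Fin c ⊕ Fin 6)
  V : NN G → Bool
  V_one : V 1 = true
  /-- powers of `b` (letter 3) -/
  V_b : ∀ L : ℕ, V (yv (List.replicate (L + 1) 3)) = false
  /-- generic right factors -/
  Vr : ∀ (n₁ : NN G) (F : Finset (NN G)), n₁ ∉ F →
    ∃ m' : NN G, V (n₁ * m') = true ∧ ∀ n ∈ F, V (n * m') = false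
  /-- generic left factors -/
  Vl : ∀ (n₁ : NN G) (F : Finset (NN G)), n₁ ∉ F →
    ∃ m : NN G, V (m * n₁) = true ∧ ∀ n ∈ F, V (m * n) = false
  /-- multiplication by a large power of `b` from the left kills a finite set -/
  Vm : ∀ F : Finset (NN G), ∃ L₀ : ℕ, ∀ L ≥ L₀, ∀ n ∈ F, V (yv (List.replicate L 3) * n) = false
  /-- every word occurs sparsely and arbitrarily late -/
  Wspec : ∀ (K : Finset ℕ) (k₁ : ℕ), k₁ ∉ K → ∀ (w : List (Fin c ⊕ Fin 6)) (B : ℕ),
    ∃ i ≥ B, W (k₁ + i) = w ∧ ∀ k ∈ K, W (k + i) = []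
  /-- the empty word occurs at arbitrarily late translates of every finite set -/
  Wnon : ∀ (K : Finset ℕ) (B : ℕ), ∃ i ≥ B, ∀ k ∈ K, W (k + i) = []

/-- Tables together with the fact that the machine of `𝔇` is mortal and computes them. -/
structure Spec (𝔇 : Data) (G : Type) [Group G] extends Tab 𝔇.c G where
  mortal : Mortal 𝔇.M
  run0 : ∀ k, Run 𝔇.M (𝔇.start 0) (Pi.single ⟨0, 𝔇.hr⟩ k)
    (some ((F0 k).map fun s => finSumFinEquiv (.inl s)))
  run1 : ∀ k, Run 𝔇.M (𝔇.start 1) (Pi.single ⟨0, 𝔇.hr⟩ k) (some ((W k).map finSumFinEquiv))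
  run2 : ∀ k, Run 𝔇.M (𝔇.start 2) (Pi.single ⟨0, 𝔇.hr⟩ k)
    (if V (wv xs (W k)) = true then some [] else none)

end P193.One
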