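import Mathlib
import Vale.Agent.Lib.P193.One.Spec

/-!
# P193, part I: the tables (definitions and combinatorial properties)

`V (g, ω) = 1` iff `(g, ω) = 1` or: `|ω| = l²`, `tri l = (side, h, ω₀)`, `|ω₀| < l`, `ω` is `ω₀` padded by
letters `t` (letter 2) on the right (`side = true`) or on the left (`side = false`) and `h` has the value `g`.
`W k` is `[]` unless `k = l²`, and `W (l²) = dec l`.
-/

namespace P193.One

open P193.Mach

/-! ### Squares -/

theorem sqrt_sq (l : ℕ) : Nat.sqrt (l * l) = l := Nat.sqrt_eq l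

/-- numbers near to a large square are not squares -/
theorem not_sq_near {l a b l' : ℕ} (h : l * l + a = l' * l' + b) (ha : a < l) (hb : b < l)
    (hne : a ≠ b) : False := by
  rcases lt_trichotomy l l' with h1 | h1 | h1
  · have h2 : (l + 1) * (l + 1) ≤ l' * l' := Nat.mul_self_le_mul_self h1
    have h3 : (l + 1) * (l + 1) = l * l + 2 * l + 1 := by ring
    omega
  · subst h1
    omega
  · obtain ⟨e, rfl⟩ : ∃ e, l = e + 1 := ⟨l - 1, by omega⟩
    have h2 : l' * l' ≤ e * e := Nat.mul_self_le_mul_self (by omega)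
    have h3 : (e + 1) * (e + 1) = e * e + 2 * e + 1 := by ring
    omega

/-! ### Coding -/

/-- the data for `V` -/
abbrev Tr (c : ℕ) : Type := Bool × List (Fin c) × List (Fin 6)

/-- every element of `Tr c` occurs infinitely often -/
def tri (c : ℕ) (l : ℕ) : Tr c := (Encodable.decode l.unpair.1).getD (false, [], [])

theorem tri_surj {c : ℕ} (x : Tr c) (B : ℕ) : ∃ l ≥ B, tri c l = x :=
  ⟨Nat.pair (Encodable.encode x) B, Nat.right_le_pair _ _, by
    simp [tri, Nat.unpair_pair, Encodable.encodek]⟩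

/-- every word occurs infinitely often -/
def dec (c : ℕ) (l : ℕ) : List (Fin c ⊕ Fin 6) := (Encodable.decode l.unpair.1).getD []

theorem dec_surj {c : ℕ} (x : List (Fin c ⊕ Fin 6)) (B : ℕ) : ∃ l ≥ B, dec c l = x :=
  ⟨Nat.pair (Encodable.encode x) B, Nat.right_le_pair _ _, by
    simp [dec, Nat.unpair_pair, Encodable.encodek]⟩

/-- the words `W` -/
def WW (c : ℕ) (k : ℕ) : List (Fin c ⊕ Fin 6) := if k.sqrt * k.sqrt = k then dec c k.sqrt else []

theorem WW_sq (c l : ℕ) : WW c (l * l) = dec c l := by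
  unfold WW
  rw [sqrt_sq, if_pos rfl]

theorem WW_non {c k : ℕ} (h : ∀ l, l * l ≠ k) : WW c k = [] := if_neg (h _)

theorem WW_spec {c : ℕ} (K : Finset ℕ) (k₁ : ℕ) (hk : k₁ ∉ K) (w : List (Fin c ⊕ Fin 6)) (B : ℕ) :
    ∃ i ≥ B, WW c (k₁ + i) = w ∧ ∀ k ∈ K, WW c (k + i) = [] := by
  obtain ⟨S, hS⟩ : ∃ S, S = k₁ + B + K.sup id + 1 := ⟨_, rfl⟩
  obtain ⟨l, hl, hw⟩ := dec_surj w S
  have hl2 : l ≤ l * l := Nat.le_mul_self l
  have e : k₁ + (l * l - k₁) = l * l := by omega
  refine ⟨l * l - k₁, by omega, by rw [e, WW_sq, hw], ?_⟩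
  intro k hkK
  have h1 : k ≤ K.sup id := Finset.le_sup (f := id) hkK
  refine WW_non fun l' h => ?_
  refine not_sq_near (l := l) (l' := l') (a := k) (b := k₁) ?_ (by omega) (by omega) ?_
  · omega
  · rintro rfl
    exact hk hkK

theorem WW_none {c : ℕ} (K : Finset ℕ) (B : ℕ) : ∃ i ≥ B, ∀ k ∈ K, WW c (k + i) = [] := by
  obtain ⟨k₁, hk₁⟩ := Infinite.exists_notMem_finset K
  obtain ⟨i, h1, -, h2⟩ := WW_spec K k₁ hk₁ [] B
  exact ⟨i, h1, h2⟩

/-! ### Padding -/

/-- padding of a word to length `l²` by letters `2` -/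
def pad (side : Bool) (ω : List (Fin 6)) (l : ℕ) : List (Fin 6) :=
  if side then ω ++ List.replicate (l * l - ω.length) 2 else List.replicate (l * l - ω.length) 2 ++ ω

section
variable {c : ℕ} {G : Type} [Group G]

/-- the condition for `V = 1` -/
def VP (xs : Fin c → G) (n : NN G) : Prop :=
  n = 1 ∨ ∃ (y : List (Fin 6)) (l : ℕ) (side : Bool) (h : List (Fin c)) (ω : List (Fin 6)),
    n = yv y * ((h.map xs).prod, 1) ∧ y.length = l * l ∧ tri c l = (side, h, ω) ∧ ω.length < l ∧
    y = pad side ω l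

theorem yv_mul (v w : List (Fin 6)) : (yv v : NN G) * yv w = yv (v ++ w) := by
  simp [yv]

theorem nn_eq (n : NN G) : n = yv (FreeMonoid.toList n.2) * (n.1, 1) := by
  simp [yv]

theorem yv_mul_g (v : List (Fin 6)) (g : G) : (yv v : NN G) * (g, 1) = (g, FreeMonoid.ofList v) := by
  simp [yv]

theorem yv_g_inj {v w : List (Fin 6)} {g h : G} (e : (yv v : NN G) * (g, 1) = yv w * (h, 1)) :
    v = w ∧ g = h := by
  rw [yv_mul_g, yv_mul_g, Prod.mk.injEq] at e
  exact ⟨e.2, e.1⟩

theorem yv_g_comm (v : List (Fin 6)) (g : G) : (yv v : NN G) * (g, 1) = (g, 1) * yv v := by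
  simp [yv]

theorem yv_eq_one {v : List (Fin 6)} {g : G} (e : (yv v : NN G) * (g, 1) = 1) : v = [] := by
  rw [yv_mul_g] at e
  exact (Prod.mk.inj e).2

theorem mem_pad {side : Bool} {ω : List (Fin 6)} {l : ℕ} (h : ω.length < l) :
    (2 : Fin 6) ∈ pad side ω l := by
  have h1 : l * l - ω.length ≠ 0 := by
    have : l ≤ l * l := Nat.le_mul_self l
    omega
  unfold pad
  split
  · rw [List.mem_append, List.mem_replicate]
    exact Or.inr ⟨h1, rfl⟩
  · rw [List.mem_append, List.mem_replicate]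
    exact Or.inl ⟨h1, rfl⟩

theorem VP_one (xs : Fin c → G) : VP xs 1 := Or.inl rfl

theorem VP_b (xs : Fin c → G) (L : ℕ) : ¬ VP xs (yv (List.replicate (L + 1) 3)) := by
  have e1 : (yv (List.replicate (L + 1) 3) : NN G) = yv (List.replicate (L + 1) 3) * (1, 1) := by
    rw [show ((1 : G), (1 : FreeMonoid (Fin 6))) = 1 from rfl, mul_one]
  rintro (h | ⟨y, l, side, h, ω, h1, -, -, h4, h5⟩)
  · rw [e1] at h
    have := yv_eq_one h
    simp at this
  · rw [e1] at h1
    obtain ⟨rfl, -⟩ := yv_g_inj h1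
    have h6 := mem_pad (side := side) h4
    rw [← h5, List.mem_replicate] at h6
    exact absurd h6.2 (by decide)

theorem VP_r (xs : Fin c → G) (gen : ∀ g : G, ∃ w : List (Fin c), (w.map xs).prod = g)
    (n₁ : NN G) (F : Finset (NN G)) (hn : n₁ ∉ F) :
    ∃ m' : NN G, VP xs (n₁ * m') ∧ ∀ n ∈ F, ¬ VP xs (n * m') := by
  obtain ⟨h₁, hh⟩ := gen n₁.1
  obtain ⟨ω₁, hω⟩ : ∃ ω₁, ω₁ = FreeMonoid.toList n₁.2 := ⟨_, rfl⟩
  have e₁ : n₁ = yv ω₁ * (n₁.1, 1) := by rw [hω]; exact nn_eq n₁
  obtain ⟨B, hB⟩ : ∃ B, B = ω₁.length + F.sup (fun n => (FreeMonoid.toList n.2).length) + 1 :=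
    ⟨_, rfl⟩
  obtain ⟨l, hl, ht⟩ := tri_surj ((true, h₁, ω₁) : Tr c) B
  have hl2 : l ≤ l * l := Nat.le_mul_self l
  refine ⟨yv (List.replicate (l * l - ω₁.length) 2), Or.inr ⟨pad true ω₁ l, l, true, h₁, ω₁,
    ?_, ?_, ht, by omega, rfl⟩, ?_⟩
  · rw [e₁, mul_assoc, ← yv_g_comm, ← mul_assoc, yv_mul, hh, yv_mul_g, yv_mul_g]
    simp [pad]
  · simp [pad]
    omega
  · intro n hnF
    obtain ⟨ω, hω'⟩ : ∃ ω, ω = FreeMonoid.toList n.2 := ⟨_, rfl⟩
    have e : n = yv ω * (n.1, 1) := by rw [hω']; exact nn_eq n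
    have hlen : ω.length ≤ F.sup (fun n => (FreeMonoid.toList n.2).length) := by
      rw [hω']
      exact Finset.le_sup (f := fun n : NN G => (FreeMonoid.toList n.2).length) hnF
    have e' : n * yv (List.replicate (l * l - ω₁.length) 2) =
        yv (ω ++ List.replicate (l * l - ω₁.length) 2) * (n.1, 1) := by
      conv_lhs => rw [e]
      rw [mul_assoc, ← yv_g_comm, ← mul_assoc, yv_mul]
    rw [e']
    rintro (h | ⟨y, l', side, h, ω', h1, h2, h3, h4, h5⟩)
    · have h6 := yv_eq_one h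
      rw [List.append_eq_nil_iff, List.replicate_eq_nil_iff] at h6
      omega
    · obtain ⟨rfl, hg⟩ := yv_g_inj h1
      have h6 : l * l + ω.length = l' * l' + ω₁.length := by
        rw [List.length_append, List.length_replicate] at h2
        omega
      have h7 : ω.length = ω₁.length := by
        by_contra hc
        exact not_sq_near h6 (by omega) (by omega) hc
      have h8 : l = l' := Nat.mul_self_inj.1 (by omega)
      subst h8
      rw [ht, Prod.mk.injEq, Prod.mk.injEq] at h3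
      obtain ⟨rfl, rfl, rfl⟩ := h3
      have h9 : ω = ω₁ := List.append_cancel_right h5
      refine hn ?_
      rw [e₁, ← h9, ← hh, ← hg, ← e]
      exact hnF

theorem VP_l (xs : Fin c → G) (gen : ∀ g : G, ∃ w : List (Fin c), (w.map xs).prod = g)
    (n₁ : NN G) (F : Finset (NN G)) (hn : n₁ ∉ F) :
    ∃ m : NN G, VP xs (m * n₁) ∧ ∀ n ∈ F, ¬ VP xs (m * n) := by
  obtain ⟨h₁, hh⟩ := gen n₁.1
  obtain ⟨ω₁, hω⟩ : ∃ ω₁, ω₁ = FreeMonoid.toList n₁.2 := ⟨_, rfl⟩
  have e₁ : n₁ = yv ω₁ * (n₁.1, 1) := by rw [hω]; exact nn_eq n₁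
  obtain ⟨B, hB⟩ : ∃ B, B = ω₁.length + F.sup (fun n => (FreeMonoid.toList n.2).length) + 1 :=
    ⟨_, rfl⟩
  obtain ⟨l, hl, ht⟩ := tri_surj ((false, h₁, ω₁) : Tr c) B
  have hl2 : l ≤ l * l := Nat.le_mul_self l
  refine ⟨yv (List.replicate (l * l - ω₁.length) 2), Or.inr ⟨pad false ω₁ l, l, false, h₁, ω₁,
    ?_, ?_, ht, by omega, rfl⟩, ?_⟩
  · rw [e₁, ← mul_assoc, yv_mul, hh, yv_mul_g, yv_mul_g]
    simp [pad]
  · simp [pad]
    omega
  · intro n hnF
    obtain ⟨ω, hω'⟩ : ∃ ω, ω = FreeMonoid.toList n.2 := ⟨_, rfl⟩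
    have e : n = yv ω * (n.1, 1) := by rw [hω']; exact nn_eq n
    have hlen : ω.length ≤ F.sup (fun n => (FreeMonoid.toList n.2).length) := by
      rw [hω']
      exact Finset.le_sup (f := fun n : NN G => (FreeMonoid.toList n.2).length) hnF
    have e' : yv (List.replicate (l * l - ω₁.length) 2) * n =
        yv (List.replicate (l * l - ω₁.length) 2 ++ ω) * (n.1, 1) := by
      conv_lhs => rw [e]
      rw [← mul_assoc, yv_mul]
    rw [e']
    rintro (h | ⟨y, l', side, h, ω', h1, h2, h3, h4, h5⟩)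
    · have h6 := yv_eq_one h
      rw [List.append_eq_nil_iff, List.replicate_eq_nil_iff] at h6
      omega
    · obtain ⟨rfl, hg⟩ := yv_g_inj h1
      have h6 : l * l + ω.length = l' * l' + ω₁.length := by
        rw [List.length_append, List.length_replicate] at h2
        omega
      have h7 : ω.length = ω₁.length := by
        by_contra hc
        exact not_sq_near h6 (by omega) (by omega) hc
      have h8 : l = l' := Nat.mul_self_inj.1 (by omega)
      subst h8
      rw [ht, Prod.mk.injEq, Prod.mk.injEq] at h3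
      obtain ⟨rfl, rfl, rfl⟩ := h3
      have h9 : ω = ω₁ := List.append_cancel_left h5
      refine hn ?_
      rw [e₁, ← h9, ← hh, ← hg, ← e]
      exact hnF

theorem VP_m (xs : Fin c → G) (F : Finset (NN G)) :
    ∃ L₀ : ℕ, ∀ L ≥ L₀, ∀ n ∈ F, ¬ VP xs (yv (List.replicate L 3) * n) := by
  refine ⟨F.sup (fun n => (FreeMonoid.toList n.2).length) + 2, ?_⟩
  intro L hL n hnF
  obtain ⟨ω, hω'⟩ : ∃ ω, ω = FreeMonoid.toList n.2 := ⟨_, rfl⟩
  have e : n = yv ω * (n.1, 1) := by rw [hω']; exact nn_eq n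
  have hlen : ω.length ≤ F.sup (fun n => (FreeMonoid.toList n.2).length) := by
    rw [hω']
    exact Finset.le_sup (f := fun n : NN G => (FreeMonoid.toList n.2).length) hnF
  have e' : yv (List.replicate L 3) * n = yv (List.replicate L 3 ++ ω) * (n.1, 1) := by
    conv_lhs => rw [e]
    rw [← mul_assoc, yv_mul]
  rw [e']
  rintro (h | ⟨y, l, side, h, ω', h1, h2, h3, h4, h5⟩)
  · have h6 := yv_eq_one h
    rw [List.append_eq_nil_iff, List.replicate_eq_nil_iff] at h6
    omega
  · obtain ⟨rfl, hg⟩ := yv_g_inj h1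
    have hl2 : l ≤ l * l := Nat.le_mul_self l
    rw [List.length_append, List.length_replicate] at h2
    have hlt : ω'.length < L := by
      by_contra hc
      have h7 : L + 1 ≤ l := by omega
      have h8 : (L + 1) * (L + 1) ≤ l * l := Nat.mul_self_le_mul_self h7
      have h9 : (L + 1) * (L + 1) = L * L + 2 * L + 1 := by ring
      have h10 : L ≤ L * L := Nat.le_mul_self L
      omega
    have h6 := congrArg (fun z : List (Fin 6) => z[ω'.length]?) h5
    have h7 := congrArg (fun z : List (Fin 6) => z[0]?) h5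
    cases side
    · simp only [pad, Bool.false_eq_true, if_false] at h7
      rw [List.getElem?_append_left (by rw [List.length_replicate]; omega),
        List.getElem?_append_left (by rw [List.length_replicate]; omega),
        List.getElem?_replicate, List.getElem?_replicate, if_pos (by omega), if_pos (by omega)] at h7
      exact absurd h7 (by decide)
    · simp only [pad, if_true] at h6
      rw [List.getElem?_append_left (by rw [List.length_replicate]; omega),
        List.getElem?_append_right (by omega),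
        List.getElem?_replicate, List.getElem?_replicate, if_pos (by omega), if_pos (by omega)] at h6
      exact absurd h6 (by decide)

end

end P193.One
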