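import Mathlib
import Vale.Agent.Lib.P193.One.TabDef
import Vale.Agent.Lib.P193.Mach.Main

/-!
# P193, part I: the tables are computable; existence of `Spec`
-/

namespace P193.One

open P193.Mach

section
variable {c : ℕ}

/-- letters of `S` in a word over `S ⊔ Y` -/
def sL (w : List (Fin c ⊕ Fin 6)) : List (Fin c) :=
  w.flatMap fun x => x.elim (fun s => [s]) fun _ => []

/-- letters of `Y` in a word over `S ⊔ Y` -/
def yL (w : List (Fin c ⊕ Fin 6)) : List (Fin 6) :=
  w.flatMap fun x => x.elim (fun _ => []) fun y => [y]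

theorem sL_primrec : Primrec (sL : List (Fin c ⊕ Fin 6) → _) :=
  Primrec.list_flatMap Primrec.id
    ((Primrec.dom_finite (fun x : Fin c ⊕ Fin 6 => x.elim (fun s => [s]) fun _ => [])).comp
      Primrec.snd).to₂

theorem yL_primrec : Primrec (yL : List (Fin c ⊕ Fin 6) → _) :=
  Primrec.list_flatMap Primrec.id
    ((Primrec.dom_finite (fun x : Fin c ⊕ Fin 6 => x.elim (fun _ => []) fun y => [y])).comp
      Primrec.snd).to₂

theorem wv_eq {G : Type} [Group G] (xs : Fin c → G) (w : List (Fin c ⊕ Fin 6)) :
    wv xs w = yv (yL w) * (((sL w).map xs).prod, 1) := by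
  induction w with
  | nil =>
    simp only [wv, yL, sL, List.map_nil, List.prod_nil, List.flatMap_nil]
    rw [yv_mul_g]
    rfl
  | cons x w ih =>
    rw [wv, List.map_cons, List.prod_cons, ← wv, ih, yv_mul_g, yv_mul_g]
    rcases x with s | y
    · simp [lv, sL, yL]
    · simp [lv, sL, yL]

theorem tri_primrec : Primrec (tri c) :=
  Primrec.option_getD.comp (Primrec.decode.comp (Primrec.fst.comp Primrec.unpair))
    (Primrec.const _)

theorem dec_primrec : Primrec (dec c) :=
  Primrec.option_getD.comp (Primrec.decode.comp (Primrec.fst.comp Primrec.unpair))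
    (Primrec.const _)

theorem WW_primrec : Primrec (WW c) := by
  unfold WW
  refine Primrec.ite ?_ (dec_primrec.comp Primrec.nat_sqrt) (Primrec.const _)
  exact Primrec.eq.comp (Primrec.nat_mul.comp Primrec.nat_sqrt Primrec.nat_sqrt) Primrec.id

theorem pad_primrec : Primrec fun x : Bool × List (Fin 6) × ℕ => pad x.1 x.2.1 x.2.2 := by
  have h1 : Primrec fun x : Bool × List (Fin 6) × ℕ =>
      List.replicate (x.2.2 * x.2.2 - x.2.1.length) (2 : Fin 6) := by
    have h2 : Primrec fun n : ℕ => List.replicate n (2 : Fin 6) :=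
      (Primrec.list_map Primrec.list_range (Primrec.const (2 : Fin 6)).to₂).of_eq fun n => by
        simp
    refine h2.comp (Primrec.nat_sub.comp (Primrec.nat_mul.comp ?_ ?_) ?_)
    · exact Primrec.snd.comp Primrec.snd
    · exact Primrec.snd.comp Primrec.snd
    · exact Primrec.list_length.comp (Primrec.fst.comp Primrec.snd)
  have h3 : Primrec fun x : Bool × List (Fin 6) × ℕ => x.2.1 := Primrec.fst.comp Primrec.snd
  refine (Primrec.cond Primrec.fst (Primrec.list_append.comp h3 h1)
    (Primrec.list_append.comp h1 h3)).of_eq ?_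
  rintro ⟨b, w, l⟩
  cases b <;> rfl

/-- computable version of `VP` on words -/
def vb (wp : List (Fin c) → Bool) (inv : Fin c → List (Fin c)) (w : List (Fin c ⊕ Fin 6)) : Bool :=
  (wp (sL w) && decide (yL w = [])) ||
    (decide ((yL w).length.sqrt * (yL w).length.sqrt = (yL w).length) &&
      (decide ((tri c (yL w).length.sqrt).2.2.length < (yL w).length.sqrt)) &&
      decide (yL w =
        pad (tri c (yL w).length.sqrt).1 (tri c (yL w).length.sqrt).2.2 (yL w).length.sqrt)
      && wp (sL w ++ (tri c (yL w).length.sqrt).2.1.reverse.flatMap inv))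

theorem vb_computable {wp : List (Fin c) → Bool} (hwp : Computable wp)
    (inv : Fin c → List (Fin c)) : Computable (vb wp inv) := by
  have h1 : Primrec fun w : List (Fin c ⊕ Fin 6) => (yL w).length.sqrt :=
    Primrec.nat_sqrt.comp (Primrec.list_length.comp yL_primrec)
  have h2 : Primrec fun w : List (Fin c ⊕ Fin 6) => tri c (yL w).length.sqrt :=
    tri_primrec.comp h1
  have h3 : Computable fun w : List (Fin c ⊕ Fin 6) => wp (sL w) :=
    hwp.comp sL_primrec.to_comp
  have h4 : Primrec fun w : List (Fin c ⊕ Fin 6) =>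
      sL w ++ (tri c (yL w).length.sqrt).2.1.reverse.flatMap inv :=
    Primrec.list_append.comp sL_primrec (Primrec.list_flatMap
      (Primrec.list_reverse.comp (Primrec.fst.comp (Primrec.snd.comp h2)))
      ((Primrec.dom_finite inv).comp Primrec.snd).to₂)
  have h5 : Computable fun w : List (Fin c ⊕ Fin 6) =>
      wp (sL w ++ (tri c (yL w).length.sqrt).2.1.reverse.flatMap inv) := hwp.comp h4.to_comp
  have h6 : Primrec fun w : List (Fin c ⊕ Fin 6) => decide (yL w = []) :=
    (Primrec.eq.comp yL_primrec (Primrec.const _)).decide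
  have h7 : Primrec fun w : List (Fin c ⊕ Fin 6) =>
      decide ((yL w).length.sqrt * (yL w).length.sqrt = (yL w).length) :=
    (Primrec.eq.comp (Primrec.nat_mul.comp h1 h1) (Primrec.list_length.comp yL_primrec)).decide
  have h8 : Primrec fun w : List (Fin c ⊕ Fin 6) =>
      (decide ((tri c (yL w).length.sqrt).2.2.length < (yL w).length.sqrt)) :=
    (Primrec.nat_lt.comp (Primrec.list_length.comp (Primrec.snd.comp (Primrec.snd.comp h2)))
      h1).decide
  have h9 : Primrec fun w : List (Fin c ⊕ Fin 6) => decide (yL w =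
      pad (tri c (yL w).length.sqrt).1 (tri c (yL w).length.sqrt).2.2 (yL w).length.sqrt) :=
    (Primrec.eq.comp yL_primrec (pad_primrec.comp (Primrec.pair (Primrec.fst.comp h2)
      (Primrec.pair (Primrec.snd.comp (Primrec.snd.comp h2)) h1)))).decide
  exact Primrec.or.to_comp.comp (Primrec.and.to_comp.comp h3 h6.to_comp)
    (Primrec.and.to_comp.comp (Primrec.and.comp (Primrec.and.comp h7 h8) h9).to_comp h5)

theorem vb_iff {G : Type} [Group G] (xs : Fin c → G) {wp : List (Fin c) → Bool}
    (hwp : ∀ w, wp w = true ↔ (w.map xs).prod = 1) {inv : Fin c → List (Fin c)}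
    (hinv : ∀ s, ((inv s).map xs).prod = (xs s)⁻¹) (w : List (Fin c ⊕ Fin 6)) :
    vb wp inv w = true ↔ VP xs (wv xs w) := by
  have hI : ∀ h : List (Fin c), ((h.reverse.flatMap inv).map xs).prod = ((h.map xs).prod)⁻¹ := by
    intro h
    induction h with
    | nil => simp
    | cons a h ih =>
      rw [List.reverse_cons, List.flatMap_append, List.map_append, List.prod_append, ih,
        List.map_cons, List.prod_cons, mul_inv_rev]
      simp [hinv]
  rw [wv_eq]
  unfold vb
  rw [Bool.or_eq_true, Bool.and_eq_true, Bool.and_eq_true, Bool.and_eq_true, Bool.and_eq_true,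
    hwp, hwp, decide_eq_true_iff, decide_eq_true_iff, decide_eq_true_iff, decide_eq_true_iff,
    List.map_append, List.prod_append, hI, mul_inv_eq_one]
  constructor
  · rintro (⟨h1, h2⟩ | ⟨⟨⟨h1, h2⟩, h3⟩, h4⟩)
    · refine Or.inl ?_
      rw [h1, h2, yv_mul_g]
      rfl
    · exact Or.inr ⟨yL w, (yL w).length.sqrt, (tri c (yL w).length.sqrt).1,
        (tri c (yL w).length.sqrt).2.1, (tri c (yL w).length.sqrt).2.2, by rw [h4], h1.symm, rfl,
        h2, h3⟩
  · rintro (h | ⟨y, l, side, h, ω, h1, h2, h3, h4, h5⟩)
    · have h1 := yv_eq_one h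
      refine Or.inl ⟨?_, h1⟩
      rw [h1, yv_mul_g] at h
      exact (Prod.mk.inj h).1
    · obtain ⟨h6, h7⟩ := yv_g_inj h1
      rw [h6]
      have h8 : y.length.sqrt = l := by rw [h2, sqrt_sq]
      rw [h8, h3]
      exact Or.inr ⟨⟨⟨h2.symm, h4⟩, h5⟩, h7⟩

end

/-- existence of the data -/
theorem exists_spec {c : ℕ} {G : Type} [Group G] (xs : Fin c → G)
    (gen : ∀ g : G, ∃ w : List (Fin c), (w.map xs).prod = g)
    (hwp : ComputablePred fun w : List (Fin c) => (w.map xs).prod = 1) :
    ∃ 𝔇 : Data, Nonempty (Spec 𝔇 G) := by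
  obtain ⟨hdec, hwp⟩ := hwp
  obtain ⟨wp, hwpd⟩ : ∃ wp : List (Fin c) → Bool, wp = fun w => decide ((w.map xs).prod = 1) :=
    ⟨_, rfl⟩
  have hwpc : Computable wp := by rw [hwpd]; exact hwp
  have hwpi : ∀ w, wp w = true ↔ (w.map xs).prod = 1 := by
    intro w
    rw [hwpd, decide_eq_true_iff]
  choose inv hinv using fun s => gen (xs s)⁻¹
  classical
  -- the relators
  obtain ⟨F0, hF0⟩ : ∃ F0 : ℕ → List (Fin c), F0 = fun k => Nat.casesOn k []
    fun k => bif wp ((Encodable.decode k).getD []) then (Encodable.decode k).getD [] else [] :=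
      ⟨_, rfl⟩
  have hF0c : Computable F0 := by
    rw [hF0]
    have h1 : Primrec fun k : ℕ => ((Encodable.decode k : Option (List (Fin c))).getD []) :=
      Primrec.option_getD.comp Primrec.decode (Primrec.const _)
    refine Computable.nat_casesOn Computable.id (Computable.const _) ?_
    exact (Computable.cond (hwpc.comp h1.to_comp) h1.to_comp (Computable.const _)).comp
      Computable.snd
  have F0_zero : F0 0 = [] := by
    rw [hF0]
    rfl
  have F0_val : ∀ k, ((F0 k).map xs).prod = 1 := by
    intro k
    rcases k with _ | k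
    · rw [F0_zero]
      simp
    · rw [hF0]
      show ((bif wp ((Encodable.decode k).getD []) then
        (Encodable.decode k).getD [] else []).map xs).prod = 1
      cases h : wp ((Encodable.decode k).getD [])
      · simp
      · rw [hwpi] at h
        exact h
  have F0_surj : ∀ w : List (Fin c), (w.map xs).prod = 1 → ∃ k, F0 k = w := by
    intro w hw
    refine ⟨Encodable.encode w + 1, ?_⟩
    rw [hF0]
    show (bif wp ((Encodable.decode (Encodable.encode w)).getD []) then
        (Encodable.decode (Encodable.encode w)).getD [] else []) = w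
    rw [Encodable.encodek, Option.getD_some, (hwpi w).2 hw]
    rfl
  let T : Tab c G :=
    { xs := xs
      gen := gen
      F0 := F0
      F0_zero := F0_zero
      F0_val := F0_val
      F0_surj := F0_surj
      W := WW c
      V := fun n => decide (VP xs n)
      V_one := decide_eq_true (VP_one xs)
      V_b := fun L => decide_eq_false (VP_b xs L)
      Vr := by
        intro n₁ F h
        obtain ⟨m', h1, h2⟩ := VP_r xs gen n₁ F h
        exact ⟨m', decide_eq_true h1, fun n hn => decide_eq_false (h2 n hn)⟩
      Vl := by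
        intro n₁ F h
        obtain ⟨m', h1, h2⟩ := VP_l xs gen n₁ F h
        exact ⟨m', decide_eq_true h1, fun n hn => decide_eq_false (h2 n hn)⟩
      Vm := by
        intro F
        obtain ⟨L₀, h⟩ := VP_m xs F
        exact ⟨L₀, fun L hL n hn => decide_eq_false (h L hL n hn)⟩
      Wspec := WW_spec
      Wnon := WW_none }
  have hf1 : Primrec fun s : Fin c => (finSumFinEquiv (.inl s) : Fin (c + 6)) :=
    Primrec.dom_finite _
  have hf2 : Primrec fun s : Fin c ⊕ Fin 6 => (finSumFinEquiv s : Fin (c + 6)) :=
    Primrec.dom_finite _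
  obtain ⟨FF, hFF⟩ : ∃ FF : Fin 3 → ℕ → Option (List (Fin (c + 6))),
      FF = ![fun k => some ((F0 k).map fun s => finSumFinEquiv (.inl s)),
        fun k => some ((WW c k).map finSumFinEquiv),
        fun k => bif vb wp inv (WW c k) then some [] else none] := ⟨_, rfl⟩
  have hFc : ∀ i, Computable (FF i) := by
    intro i
    rw [hFF]
    fin_cases i
    · exact Computable.option_some.comp
        ((Primrec.list_map Primrec.id (hf1.comp Primrec.snd).to₂).to_comp.comp hF0c)
    · exact Computable.option_some.comp
        ((Primrec.list_map Primrec.id (hf2.comp Primrec.snd).to₂).comp WW_primrec).to_comp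
    · exact Computable.cond ((vb_computable hwpc inv).comp WW_primrec.to_comp)
        (Computable.const _) (Computable.const _)
  obtain ⟨r, m, hr, M, start, hM, hrun⟩ := mach (c + 6) FF hFc
  let 𝔇 : Data := ⟨c, r, m, hr, M, start⟩
  refine ⟨𝔇, ⟨{ toTab := T, mortal := hM, run0 := ?_, run1 := ?_, run2 := ?_ }⟩⟩
  · intro k
    have h := hrun 0 k
    rw [hFF] at h
    exact h
  · intro k
    have h := hrun 1 k
    rw [hFF] at h
    exact h
  · intro k
    have h := hrun 2 k
    rw [hFF] at h
    show Run M (start 2) (Pi.single ⟨0, hr⟩ k)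
      (if decide (VP xs (wv xs (WW c k))) = true then some [] else none)
    have e : (if decide (VP xs (wv xs (WW c k))) = true then some [] else none) =
        (bif vb wp inv (WW c k) then some [] else none : Option (List (Fin (c + 6)))) := by
      by_cases h1 : VP xs (wv xs (WW c k))
      · rw [(vb_iff xs hwpi hinv _).2 h1, decide_eq_true h1]
        rfl
      · have h2 : vb wp inv (WW c k) = false := by
          rw [← Bool.not_eq_true, vb_iff xs hwpi hinv]
          exact h1
        rw [h2, decide_eq_false h1]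
        rfl
    rw [e]
    exact h

end P193.One
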