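import Mathlib
import Vale.Agent.Lib.P193.One.Spec

/-!
# P193, part I: the relations of the algebra `A`, words `lw`, `rw`, `wA`
-/

namespace P193.One

open P193.Mach

namespace Data

variable (𝔇 : Data)

theorem rel_g (i : RI 𝔇.c 𝔇.r 𝔇.m) {x y : 𝔇.FA} (h : 𝔇.relOf i = (x, y)) : 𝔇.qt x = 𝔇.qt y := by
  have := 𝔇.rel i
  rw [h] at this
  exact this

theorem e_mul (X Y : Obj) : 𝔇.g (.e X) * 𝔇.g (.e Y) = if X = Y then 𝔇.g (.e X) else 0 := by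
  have := 𝔇.rel (.idem X Y)
  simp only [relOf, map_mul] at this
  rw [show 𝔇.g (.e X) * 𝔇.g (.e Y) = _ from this]
  split_ifs <;> simp [g]

theorem e_self (X : Obj) : 𝔇.g (.e X) * 𝔇.g (.e X) = 𝔇.g (.e X) := by
  rw [e_mul, if_pos rfl]

theorem e_ne {X Y : Obj} (h : X ≠ Y) : 𝔇.g (.e X) * 𝔇.g (.e Y) = 0 := by
  rw [e_mul, if_neg h]

theorem e_sum : 𝔇.g (.e .O) + 𝔇.g (.e .B) + 𝔇.g (.e .C) + 𝔇.g (.e .Z) = 1 := by
  have := 𝔇.rel .sum1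
  simp only [relOf, map_add, map_one] at this
  exact this

theorem src_mul {x : 𝔇.Gt} {X : Obj} (h : 𝔇.src x = some X) : 𝔇.g (.e X) * 𝔇.g x = 𝔇.g x := by
  have := 𝔇.rel (.src x)
  simp only [relOf, h, map_mul] at this
  exact this

theorem tgt_mul {x : 𝔇.Gt} {X : Obj} (h : 𝔇.tgt x = some X) : 𝔇.g x * 𝔇.g (.e X) = 𝔇.g x := by
  have := 𝔇.rel (.tgt x)
  simp only [relOf, h, map_mul] at this
  exact this

theorem mul_e_ne {x : 𝔇.Gt} {X Y : Obj} (h : 𝔇.tgt x = some X) (hne : X ≠ Y) :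
    𝔇.g x * 𝔇.g (.e Y) = 0 := by
  rw [← 𝔇.tgt_mul h, mul_assoc, 𝔇.e_ne hne, mul_zero]

theorem e_mul_ne {x : 𝔇.Gt} {X Y : Obj} (h : 𝔇.src x = some Y) (hne : X ≠ Y) :
    𝔇.g (.e X) * 𝔇.g x = 0 := by
  rw [← 𝔇.src_mul h, ← mul_assoc, 𝔇.e_ne hne, zero_mul]

theorem mul_ne {x y : 𝔇.Gt} {X Y : Obj} (hx : 𝔇.tgt x = some X) (hy : 𝔇.src y = some Y)
    (hne : X ≠ Y) : 𝔇.g x * 𝔇.g y = 0 := by
  rw [← 𝔇.tgt_mul hx, mul_assoc, 𝔇.e_mul_ne hy hne, mul_zero]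

theorem comm (s : Fin 𝔇.c) (y : Fin 6) :
    𝔇.g (.sg (.inl s)) * 𝔇.g (.sg (.inr y)) = 𝔇.g (.sg (.inr y)) * 𝔇.g (.sg (.inl s)) := by
  have := 𝔇.rel (.comm s y)
  simp only [relOf, map_mul] at this
  exact this

theorem restA (p : Fin 𝔇.m) (j : Fin 𝔇.r) :
    𝔇.g (.q (.rest p)) * 𝔇.g (.rd (.a j)) = 𝔇.g (.ld (.a j)) * 𝔇.g (.q (.rest p)) := by
  have := 𝔇.rel (.restA p j)
  simp only [relOf, map_mul] at this
  exact this

theorem restK_inc {p : Fin 𝔇.m} {i q'} (h : 𝔇.M p = .inc i q') :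
    𝔇.g (.q (.rest p)) * 𝔇.g .kap = 𝔇.g (.ld (.a i)) * 𝔇.g (.q (.rest q')) * 𝔇.g .kap := by
  have := 𝔇.rel (.restK p)
  simp only [relOf, h, map_mul] at this
  exact this

theorem restK_dec {p : Fin 𝔇.m} {i q' q''} (h : 𝔇.M p = .dec i q' q'') :
    𝔇.g (.q (.rest p)) * 𝔇.g .kap = 𝔇.g (.q (.lft p)) * 𝔇.g .kap := by
  have := 𝔇.rel (.restK p)
  simp only [relOf, h, map_mul] at this
  exact this

theorem restK_emit {p : Fin 𝔇.m} {x q'} (h : 𝔇.M p = .emit x q') :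
    𝔇.g (.q (.rest p)) * 𝔇.g .kap = 𝔇.g (.q (.lft p)) * 𝔇.g .kap := by
  have := 𝔇.rel (.restK p)
  simp only [relOf, h, map_mul] at this
  exact this

theorem restK_halt {p : Fin 𝔇.m} (h : 𝔇.M p = .halt) :
    𝔇.g (.q (.rest p)) * 𝔇.g .kap = 𝔇.g (.q .H) * 𝔇.g .kap := by
  have := 𝔇.rel (.restK p)
  simp only [relOf, h, map_mul] at this
  exact this

theorem restK_fail {p : Fin 𝔇.m} (h : 𝔇.M p = .fail) :
    𝔇.g (.q (.rest p)) * 𝔇.g .kap = 0 := by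
  have := 𝔇.rel (.restK p)
  simp only [relOf, h, map_mul, map_zero] at this
  exact this

theorem lftA_dec_eq {p : Fin 𝔇.m} {i q' q''} (h : 𝔇.M p = .dec i q' q'') :
    𝔇.g (.ld (.a i)) * 𝔇.g (.q (.lft p)) = 𝔇.g (.q (.rest q')) := by
  have := 𝔇.rel (.lftA p i)
  simp only [relOf, h, map_mul, if_true] at this
  exact this

theorem lftA_dec_ne {p : Fin 𝔇.m} {i q' q''} (h : 𝔇.M p = .dec i q' q'') {j : Fin 𝔇.r}
    (hj : j ≠ i) :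
    𝔇.g (.ld (.a j)) * 𝔇.g (.q (.lft p)) = 𝔇.g (.q (.lft p)) * 𝔇.g (.rd (.a j)) := by
  have := 𝔇.rel (.lftA p j)
  simp only [relOf, h, map_mul, if_neg hj] at this
  exact this

theorem lftA_emit {p : Fin 𝔇.m} {x q'} (h : 𝔇.M p = .emit x q') (j : Fin 𝔇.r) :
    𝔇.g (.ld (.a j)) * 𝔇.g (.q (.lft p)) = 𝔇.g (.q (.lft p)) * 𝔇.g (.rd (.a j)) := by
  have := 𝔇.rel (.lftA p j)
  simp only [relOf, h, map_mul] at this
  exact this

theorem lftA_inc {p : Fin 𝔇.m} {i q'} (h : 𝔇.M p = .inc i q') (j : Fin 𝔇.r) :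
    𝔇.g (.ld (.a j)) * 𝔇.g (.q (.lft p)) = 0 := by
  have := 𝔇.rel (.lftA p j)
  simp only [relOf, h, map_mul, map_zero] at this
  exact this

theorem lftA_halt {p : Fin 𝔇.m} (h : 𝔇.M p = .halt) (j : Fin 𝔇.r) :
    𝔇.g (.ld (.a j)) * 𝔇.g (.q (.lft p)) = 0 := by
  have := 𝔇.rel (.lftA p j)
  simp only [relOf, h, map_mul, map_zero] at this
  exact this

theorem lftA_fail {p : Fin 𝔇.m} (h : 𝔇.M p = .fail) (j : Fin 𝔇.r) :
    𝔇.g (.ld (.a j)) * 𝔇.g (.q (.lft p)) = 0 := by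
  have := 𝔇.rel (.lftA p j)
  simp only [relOf, h, map_mul, map_zero] at this
  exact this

theorem lftL_dec {p : Fin 𝔇.m} {i q' q''} (h : 𝔇.M p = .dec i q' q'') :
    𝔇.g .lt * 𝔇.g (.q (.lft p)) = 𝔇.g .lt * 𝔇.g (.q (.rest q'')) := by
  have := 𝔇.rel (.lftL p)
  simp only [relOf, h, map_mul] at this
  exact this

theorem lftL_emit {p : Fin 𝔇.m} {x q'} (h : 𝔇.M p = .emit x q') :
    𝔇.g .lt * 𝔇.g (.q (.lft p)) = 𝔇.g (.sg (𝔇.sgOf x)) * 𝔇.g .lt * 𝔇.g (.q (.rest q')) := by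
  have := 𝔇.rel (.lftL p)
  simp only [relOf, h, map_mul] at this
  exact this

theorem lftL_inc {p : Fin 𝔇.m} {i q'} (h : 𝔇.M p = .inc i q') :
    𝔇.g .lt * 𝔇.g (.q (.lft p)) = 0 := by
  have := 𝔇.rel (.lftL p)
  simp only [relOf, h, map_mul, map_zero] at this
  exact this

theorem lftL_halt {p : Fin 𝔇.m} (h : 𝔇.M p = .halt) :
    𝔇.g .lt * 𝔇.g (.q (.lft p)) = 0 := by
  have := 𝔇.rel (.lftL p)
  simp only [relOf, h, map_mul, map_zero] at this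
  exact this

theorem lftL_fail {p : Fin 𝔇.m} (h : 𝔇.M p = .fail) :
    𝔇.g .lt * 𝔇.g (.q (.lft p)) = 0 := by
  have := 𝔇.rel (.lftL p)
  simp only [relOf, h, map_mul, map_zero] at this
  exact this

theorem HA (j : Fin 𝔇.r) : 𝔇.g (.ld (.a j)) * 𝔇.g (.q .H) = 𝔇.g (.q .H) := by
  have := 𝔇.rel (.HA j)
  simp only [relOf, map_mul] at this
  exact this

theorem HK : 𝔇.g .lt * 𝔇.g (.q .H) * 𝔇.g .kap = 𝔇.g (.e .O) := by
  have := 𝔇.rel .HK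
  simp only [relOf, map_mul] at this
  exact this

theorem HD (d : 𝔇.Dt) : 𝔇.g .lt * 𝔇.g (.q .H) * 𝔇.g (.rd d) = 0 := by
  have := 𝔇.rel (.HD d)
  simp only [relOf, map_mul, map_zero] at this
  exact this

theorem stA_zero (i : Fin 3) {j : Fin 𝔇.r} (hj : (j : ℕ) = 0) :
    𝔇.g (.q (.st i)) * 𝔇.g (.rd (.a j)) = 𝔇.g (.ld (.a j)) * 𝔇.g (.q (.st i)) := by
  have := 𝔇.rel (.stA i j)
  simp only [relOf, if_pos hj, map_mul] at this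
  exact this

theorem stA_ne (i : Fin 3) {j : Fin 𝔇.r} (hj : (j : ℕ) ≠ 0) :
    𝔇.g (.q (.st i)) * 𝔇.g (.rd (.a j)) = 0 := by
  have := 𝔇.rel (.stA i j)
  simp only [relOf, if_neg hj, map_mul, map_zero] at this
  exact this

theorem stK (i : Fin 3) :
    𝔇.g (.q (.st i)) * 𝔇.g .kap = 𝔇.g (.q (.rest (𝔇.start i))) * 𝔇.g .kap := by
  have := 𝔇.rel (.stK i)
  simp only [relOf, map_mul] at this
  exact this

theorem monR {q : 𝔇.Qt} (hq : q.isR = true) :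
    𝔇.g (.q q) * 𝔇.g (.rd .mon) = 𝔇.g .qD * 𝔇.g (.rd (.rc q)) := by
  have := 𝔇.rel (.monR q)
  simp only [relOf, if_pos hq, map_mul] at this
  exact this

theorem rcR {q : 𝔇.Qt} (hq : q.isR = true) (q' : 𝔇.Qt) :
    𝔇.g (.q q) * 𝔇.g (.rd (.rc q')) = 0 := by
  have := 𝔇.rel (.rcR q q')
  simp only [relOf, if_pos hq, map_mul, map_zero] at this
  exact this

theorem monL {q : 𝔇.Qt} (hq : q.isR = false) :
    𝔇.g (.ld .mon) * 𝔇.g (.q q) = 𝔇.g .qD * 𝔇.g (.rd (.rc q)) := by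
  have := 𝔇.rel (.monL q)
  simp only [relOf, hq, Bool.false_eq_true, if_false, map_mul] at this
  exact this

theorem rcL {q : 𝔇.Qt} (hq : q.isR = false) (q' : 𝔇.Qt) :
    𝔇.g (.ld (.rc q')) * 𝔇.g (.q q) = 0 := by
  have := 𝔇.rel (.rcL q q')
  simp only [relOf, hq, Bool.false_eq_true, if_false, map_mul, map_zero] at this
  exact this

theorem DA (d : 𝔇.Dt) : 𝔇.g (.ld d) * 𝔇.g .qD = 𝔇.g .qD * 𝔇.g (.rd d) := by
  have := 𝔇.rel (.DA d)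
  simp only [relOf, map_mul] at this
  exact this

theorem DL : 𝔇.g .lt * 𝔇.g .qD = 𝔇.g (.sg (.inr 0)) * 𝔇.g .lt * 𝔇.g .qE := by
  have := 𝔇.rel .DL
  simp only [relOf, map_mul] at this
  exact this

theorem EA (d : 𝔇.Dt) : 𝔇.g (.ld d) * 𝔇.g .qE = 0 := by
  have := 𝔇.rel (.EA d)
  simp only [relOf, map_mul, map_zero] at this
  exact this

theorem EK : 𝔇.g .lt * 𝔇.g .qE * 𝔇.g .kap = 𝔇.g (.sg (.inr 1)) := by
  have := 𝔇.rel .EK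
  simp only [relOf, map_mul] at this
  exact this

theorem qsA_eq (i : Fin 3) :
    𝔇.g (.ld 𝔇.a0) * 𝔇.g (.qs i) = 𝔇.g (.qs i) * 𝔇.g (.rd 𝔇.a0) := by
  have := 𝔇.rel (.qsA i 𝔇.a0)
  simp only [relOf, if_true, map_mul] at this
  exact this

theorem qsA_ne (i : Fin 3) {d : 𝔇.Dt} (h : d ≠ 𝔇.a0) :
    𝔇.g (.ld d) * 𝔇.g (.qs i) = 0 := by
  have := 𝔇.rel (.qsA i d)
  simp only [relOf, if_neg h, map_mul, map_zero] at this
  exact this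

theorem qsR (i : Fin 3) {d : 𝔇.Dt} (h : d ≠ 𝔇.a0) (h' : d ≠ .mon) :
    𝔇.g (.qs i) * 𝔇.g (.rd d) = 0 := by
  have := 𝔇.rel (.qsR i d)
  simp only [relOf, h, h', or_self, if_false, map_mul, map_zero] at this
  exact this

theorem qsL (i : Fin 3) : 𝔇.g .lt * 𝔇.g (.qs i) = 𝔇.g .lt * 𝔇.g (.q (.st i)) := by
  have := 𝔇.rel (.qsL i)
  simp only [relOf, map_mul] at this
  exact this

theorem rho : 𝔇.g (.qs 0) * 𝔇.g (.rd 𝔇.a0) * 𝔇.g .kap = 𝔇.g (.qs 0) * 𝔇.g .kap := by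
  have := 𝔇.rel .rho
  simp only [relOf, map_mul] at this
  exact this

theorem swA_eq : 𝔇.g (.ld 𝔇.a0) * 𝔇.g .sw = 𝔇.g .sw * 𝔇.g .az := by
  have := 𝔇.rel (.swA 𝔇.a0)
  simp only [relOf, if_true, map_mul] at this
  exact this

theorem swA_ne {d : 𝔇.Dt} (h : d ≠ 𝔇.a0) : 𝔇.g (.ld d) * 𝔇.g .sw = 0 := by
  have := 𝔇.rel (.swA d)
  simp only [relOf, if_neg h, map_mul, map_zero] at this
  exact this

theorem sVA_eq : 𝔇.g (.ld 𝔇.a0) * 𝔇.g .sV = 𝔇.g .sV * 𝔇.g .az := by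
  have := 𝔇.rel (.sVA 𝔇.a0)
  simp only [relOf, if_true, map_mul] at this
  exact this

theorem sVA_ne {d : 𝔇.Dt} (h : d ≠ 𝔇.a0) : 𝔇.g (.ld d) * 𝔇.g .sV = 0 := by
  have := 𝔇.rel (.sVA d)
  simp only [relOf, if_neg h, map_mul, map_zero] at this
  exact this

theorem swE : 𝔇.g .sw * 𝔇.g .ez = 𝔇.g (.qs 1) * 𝔇.g .kap * 𝔇.g .T := by
  have := 𝔇.rel .swE
  simp only [relOf, map_mul] at this
  exact this

theorem sVE : 𝔇.g .sV * 𝔇.g .ez = 𝔇.g (.qs 2) * 𝔇.g .kap * 𝔇.g .T := by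
  have := 𝔇.rel .sVE
  simp only [relOf, map_mul] at this
  exact this

theorem sVL : 𝔇.g .lt * 𝔇.g .sV = 𝔇.g .T * 𝔇.g .Ts * 𝔇.g .lt * 𝔇.g .sw := by
  have := 𝔇.rel .sVL
  simp only [relOf, map_mul] at this
  exact this

theorem TT : 𝔇.g .Ts * 𝔇.g .T = 1 := by
  have := 𝔇.rel .TT
  simp only [relOf, map_mul, map_one] at this
  exact this

/-! ### words -/

/-- left words; the head of the list is adjacent to the state: `lw (d :: u) = lw u * d` -/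
noncomputable def lw : List 𝔇.Dt → 𝔇.A
  | [] => 𝔇.g (.e .B)
  | d :: u => lw u * 𝔇.g (.ld d)

/-- right words: `rw (d :: v) = d * rw v` -/
noncomputable def rw : List 𝔇.Dt → 𝔇.A
  | [] => 𝔇.g (.e .C)
  | d :: v => 𝔇.g (.rd d) * rw v

/-- words in `S ⊔ Y` -/
noncomputable def wA : List 𝔇.Sg → 𝔇.A
  | [] => 𝔇.g (.e .O)
  | σ :: w => 𝔇.g (.sg σ) * wA w

/-- words in `Y` -/
noncomputable def yA (w : List (Fin 6)) : 𝔇.A := 𝔇.wA (w.map .inr)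

/-- code of a list of tape letters -/
noncomputable def codes (v : List 𝔇.Dt) : List (Fin 6) := v.flatMap 𝔇.code

@[simp] theorem codes_nil : 𝔇.codes [] = [] := rfl
@[simp] theorem codes_cons (d : 𝔇.Dt) (v : List 𝔇.Dt) :
    𝔇.codes (d :: v) = 𝔇.code d ++ 𝔇.codes v := by simp [codes]
@[simp] theorem codes_append (v w : List 𝔇.Dt) :
    𝔇.codes (v ++ w) = 𝔇.codes v ++ 𝔇.codes w := by simp [codes]

@[simp] theorem lw_nil : 𝔇.lw [] = 𝔇.g (.e .B) := rfl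
theorem lw_cons (d : 𝔇.Dt) (u : List 𝔇.Dt) : 𝔇.lw (d :: u) = 𝔇.lw u * 𝔇.g (.ld d) := rfl
@[simp] theorem rw_nil : 𝔇.rw [] = 𝔇.g (.e .C) := rfl
theorem rw_cons (d : 𝔇.Dt) (u : List 𝔇.Dt) : 𝔇.rw (d :: u) = 𝔇.g (.rd d) * 𝔇.rw u := rfl
@[simp] theorem wA_nil : 𝔇.wA [] = 𝔇.g (.e .O) := rfl
theorem wA_cons (d : 𝔇.Sg) (u : List 𝔇.Sg) : 𝔇.wA (d :: u) = 𝔇.g (.sg d) * 𝔇.wA u := rfl

theorem eB_lw (u : List 𝔇.Dt) : 𝔇.g (.e .B) * 𝔇.lw u = 𝔇.lw u := by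
  induction u with
  | nil => exact 𝔇.e_self _
  | cons d u ih => rw [lw_cons, ← mul_assoc, ih]

theorem lw_eB (u : List 𝔇.Dt) : 𝔇.lw u * 𝔇.g (.e .B) = 𝔇.lw u := by
  cases u with
  | nil => exact 𝔇.e_self _
  | cons d u => rw [lw_cons, mul_assoc, 𝔇.tgt_mul (x := .ld d) rfl]

theorem eC_rw (u : List 𝔇.Dt) : 𝔇.g (.e .C) * 𝔇.rw u = 𝔇.rw u := by
  cases u with
  | nil => exact 𝔇.e_self _
  | cons d u => rw [rw_cons, ← mul_assoc, 𝔇.src_mul (x := .rd d) rfl]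

theorem rw_eC (u : List 𝔇.Dt) : 𝔇.rw u * 𝔇.g (.e .C) = 𝔇.rw u := by
  induction u with
  | nil => exact 𝔇.e_self _
  | cons d u ih => rw [rw_cons, mul_assoc, ih]

theorem eO_wA (u : List 𝔇.Sg) : 𝔇.g (.e .O) * 𝔇.wA u = 𝔇.wA u := by
  cases u with
  | nil => exact 𝔇.e_self _
  | cons d u => rw [wA_cons, ← mul_assoc, 𝔇.src_mul (x := .sg d) rfl]

theorem wA_eO (u : List 𝔇.Sg) : 𝔇.wA u * 𝔇.g (.e .O) = 𝔇.wA u := by
  induction u with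
  | nil => exact 𝔇.e_self _
  | cons d u ih => rw [wA_cons, mul_assoc, ih]

theorem wA_append (u w : List 𝔇.Sg) : 𝔇.wA (u ++ w) = 𝔇.wA u * 𝔇.wA w := by
  induction u with
  | nil => rw [List.nil_append, wA_nil, eO_wA]
  | cons d u ih => rw [List.cons_append, wA_cons, ih, wA_cons, mul_assoc]

theorem rw_append (u w : List 𝔇.Dt) : 𝔇.rw (u ++ w) = 𝔇.rw u * 𝔇.rw w := by
  induction u with
  | nil => rw [List.nil_append, rw_nil, eC_rw]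
  | cons d u ih => rw [List.cons_append, rw_cons, ih, rw_cons, mul_assoc]

theorem lw_append (u w : List 𝔇.Dt) : 𝔇.lw (u ++ w) = 𝔇.lw w * 𝔇.lw u := by
  induction u with
  | nil => rw [List.nil_append, lw_nil, lw_eB]
  | cons d u ih => rw [List.cons_append, lw_cons, ih, lw_cons, mul_assoc]

theorem yA_append (u w : List (Fin 6)) : 𝔇.yA (u ++ w) = 𝔇.yA u * 𝔇.yA w := by
  simp only [yA, List.map_append, wA_append]

theorem yA_single (y : Fin 6) : 𝔇.yA [y] = 𝔇.g (.sg (.inr y)) := by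
  simp only [yA, List.map_cons, List.map_nil, wA_cons, wA_nil]
  exact 𝔇.tgt_mul (x := .sg (.inr y)) rfl

/-- the product of `Y`-letters, in `A` -/
theorem qt_yw_mul_eO (w : List (Fin 6)) : 𝔇.qt (𝔇.yw w) * 𝔇.g (.e .O) = 𝔇.yA w := by
  induction w with
  | nil => simp [yw, yA]
  | cons y w ih =>
    have : 𝔇.qt (𝔇.yw (y :: w)) = 𝔇.g (.sg (.inr y)) * 𝔇.qt (𝔇.yw w) := by
      simp [yw, g]
    rw [this, mul_assoc, ih]
    simp only [yA, List.map_cons, wA_cons]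

theorem EL (d : 𝔇.Dt) : 𝔇.g .lt * 𝔇.g .qE * 𝔇.g (.rd d)
    = 𝔇.yA (𝔇.code d) * 𝔇.g .lt * 𝔇.g .qE := by
  have := 𝔇.rel (.EL d)
  simp only [relOf, map_mul] at this
  rw [← qt_yw_mul_eO, mul_assoc (𝔇.qt _), 𝔇.src_mul (x := .lt) rfl]
  exact this

theorem DL' : 𝔇.g .lt * 𝔇.g .qD = 𝔇.yA [0] * 𝔇.g .lt * 𝔇.g .qE := by
  rw [yA_single, DL]

theorem EK' : 𝔇.g .lt * 𝔇.g .qE * 𝔇.g .kap = 𝔇.yA [1] := by
  rw [yA_single, EK]

end Data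

end P193.One
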