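import Mathlib
import Vale.Agent.Lib.P193.One.Alg

/-!
# P193, part I: index types (rows, columns, `𝓑`) and their values in `A`

See `PART_I.md`, section 6. Left tape words `u` are stored reversed (head adjacent to the state).
-/

namespace P193.One

open P193.Mach

/-- right reading states -/
abbrev QR (m : ℕ) : Type := {q : QS m // q.isR = true}
/-- left reading states -/
abbrev QL (m : ℕ) : Type := {q : QS m // q.isR = false}

/-- O-rows: `n`, `n lt u`, `n lt u q` (`q` right reading), `n lt H`, `n lt qE`, `n lt sw az^k` -/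
inductive Row (G : Type) (r m : ℕ)
  | O (n : NN G)
  | B (n : NN G) (u : List (D r m))
  | C (n : NN G) (u : List (D r m)) (q : QR m)
  | H (n : NN G)
  | E (n : NN G)
  | Z (n : NN G) (k : ℕ)

/-- elements of `Λ_B` -/
inductive LB (r m : ℕ)
  | q (q : QL m) (v : List (D r m))
  | D (v : List (D r m))
  | E (v : List (D r m))
  | s0
  | s1 (k : ℕ)
  | s2 (k : ℕ)
  | sm (i : Fin 3) (k : ℕ) (w : List (D r m))

/-- elements of `Λ` -/
inductive Lam (r m : ℕ)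
  | O
  | C (v : List (D r m))
  | B (x : LB r m)

/-- the set `𝓑` -/
inductive BI (G : Type) (r m : ℕ)
  | al (α : Lam r m) (R : Row G r m)
  | u (u : List (D r m))
  | v (v : List (D r m))
  | zz (k : ℕ)
  | sw (k : ℕ)
  | sV (k : ℕ)
  | uq (u : List (D r m)) (q : QR m)
  | qv (q : QL m) (v : List (D r m))
  | Dv (v : List (D r m))
  | Ev (v : List (D r m))
  | s (i : Fin 3) (k : ℕ)
  | sm (i : Fin 3) (k : ℕ) (w : List (D r m))

/-- columns: `α n T`, `az^k ez` -/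
inductive PI (G : Type) (r m : ℕ)
  | c (α : Lam r m) (n : NN G)
  | z (k : ℕ)

/-- source object of `α` -/
def Lam.src {r m : ℕ} : Lam r m → Obj
  | .O => .O | .C _ => .C | .B _ => .B

/-- target object of a row -/
def Row.tgt {G : Type} {r m : ℕ} : Row G r m → Obj
  | .O _ => .O | .B _ _ => .B | .C _ _ _ => .C | .H _ => .C | .E _ => .C | .Z _ _ => .Z

/-- source object of an element of `𝓑` -/
def BI.src {G : Type} {r m : ℕ} : BI G r m → Obj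
  | .al α _ => α.src | .u _ => .B | .v _ => .C | .zz _ => .Z | .sw _ => .B | .sV _ => .B
  | .uq _ _ => .B | .qv _ _ => .B | .Dv _ => .B | .Ev _ => .B | .s _ _ => .B | .sm _ _ _ => .B

/-- target object of an element of `𝓑` -/
def BI.tgt {G : Type} {r m : ℕ} : BI G r m → Obj
  | .al _ R => R.tgt | .u _ => .B | .v _ => .C | .zz _ => .Z | .sw _ => .Z | .sV _ => .Z
  | .uq _ _ => .C | .qv _ _ => .C | .Dv _ => .C | .Ev _ => .C | .s _ _ => .C | .sm _ _ _ => .C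

namespace Spec

variable {𝔇 : Data} {G : Type} [Group G] (S : Spec 𝔇 G)

/-- a word over `S` with a given value -/
noncomputable def gw (g : G) : List (Fin 𝔇.c) := (S.gen g).choose

theorem gw_val (g : G) : ((S.gw g).map S.xs).prod = g := (S.gen g).choose_spec

/-- a word over `S ⊔ Y` with a given value -/
noncomputable def nw (n : NN G) : List 𝔇.Sg :=
  (S.gw n.1).map .inl ++ (FreeMonoid.toList n.2).map .inr

/-- the element of `A` belonging to `n ∈ N` -/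
noncomputable def ν (n : NN G) : 𝔇.A := 𝔇.wA (S.nw n)

/-- value in `A` of an O-row -/
noncomputable def rowA : Row G 𝔇.r 𝔇.m → 𝔇.A
  | .O n => S.ν n
  | .B n u => S.ν n * 𝔇.g .lt * 𝔇.lw u
  | .C n u q => S.ν n * 𝔇.g .lt * 𝔇.lw u * 𝔇.g (.q q)
  | .H n => S.ν n * 𝔇.g .lt * 𝔇.g (.q .H)
  | .E n => S.ν n * 𝔇.g .lt * 𝔇.g .qE
  | .Z n k => S.ν n * 𝔇.g .lt * 𝔇.g .sw * 𝔇.g .az ^ k

end Spec

namespace Data

variable (𝔇 : Data)

/-- value in `A` of an element of `Λ_B` -/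
noncomputable def lbA : LB 𝔇.r 𝔇.m → 𝔇.A
  | .q q v => 𝔇.g (.q q) * 𝔇.rw v * 𝔇.g .kap
  | .D v => 𝔇.g .qD * 𝔇.rw v * 𝔇.g .kap
  | .E v => 𝔇.g .qE * 𝔇.rw v * 𝔇.g .kap
  | .s0 => 𝔇.g (.qs 0) * 𝔇.g .kap
  | .s1 k => 𝔇.g (.qs 1) * 𝔇.rw (List.replicate k 𝔇.a0) * 𝔇.g .kap
  | .s2 k => 𝔇.g (.qs 2) * 𝔇.rw (List.replicate k 𝔇.a0) * 𝔇.g .kap
  | .sm i k w => 𝔇.g (.qs i) * 𝔇.rw (List.replicate k 𝔇.a0 ++ .mon :: w) * 𝔇.g .kap

/-- value in `A` of an element of `Λ` -/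
noncomputable def lamA : Lam 𝔇.r 𝔇.m → 𝔇.A
  | .O => 𝔇.g (.e .O)
  | .C v => 𝔇.rw v * 𝔇.g .kap
  | .B x => 𝔇.lbA x

end Data

namespace Spec

variable {𝔇 : Data} {G : Type} [Group G] (S : Spec 𝔇 G)

/-- value in `A` of an element of `𝓑` -/
noncomputable def biA : BI G 𝔇.r 𝔇.m → 𝔇.A
  | .al α R => 𝔇.lamA α * S.rowA R
  | .u u => 𝔇.lw u
  | .v v => 𝔇.rw v
  | .zz k => 𝔇.g (.e .Z) * 𝔇.g .az ^ k
  | .sw k => 𝔇.g .sw * 𝔇.g .az ^ k
  | .sV k => 𝔇.g .sV * 𝔇.g .az ^ k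
  | .uq u q => 𝔇.lw u * 𝔇.g (.q q)
  | .qv q v => 𝔇.g (.q q) * 𝔇.rw v
  | .Dv v => 𝔇.g .qD * 𝔇.rw v
  | .Ev v => 𝔇.g .qE * 𝔇.rw v
  | .s i k => 𝔇.g (.qs i) * 𝔇.rw (List.replicate k 𝔇.a0)
  | .sm i k w => 𝔇.g (.qs i) * 𝔇.rw (List.replicate k 𝔇.a0 ++ .mon :: w)

/-- value in `A` of a column -/
noncomputable def colA : PI G 𝔇.r 𝔇.m → 𝔇.A
  | .c α n => 𝔇.lamA α * S.ν n * 𝔇.g .T
  | .z k => 𝔇.g (.e .Z) * 𝔇.g .az ^ k * 𝔇.g .ez

/-- value in `A` of a row -/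
noncomputable def rA (R : Row G 𝔇.r 𝔇.m) : 𝔇.A := 𝔇.g .Ts * S.rowA R

end Spec

end P193.One
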