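import Mathlib
import Vale.Agent.Lib.P193.One.Idx

/-!
# P193, part I: big-step semantics `Ev` of the tape machine

See `PART_I.md`, section 3. `lc`/`rc`: the left/right end mark is present.
`Ev 𝔇 lc rc u q v o`: the configuration with left letters `u` (head adjacent to the state), state
`q`, right letters `v` (head adjacent to the state) ends with outcome `o`.
-/

namespace P193.One

open P193.Mach

/-- outcomes -/
inductive Out (s : Type) (r m : ℕ)
  /-- value zero -/
  | zero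
  /-- stuck at the open right end; emitted word, left letters, (right reading) state -/
  | stR (w : List s) (u : List (D r m)) (q : QS m)
  /-- stuck at the open left end; (left reading) state, right letters -/
  | stL (q : QS m) (v : List (D r m))
  /-- `lt · H` with open right end -/
  | stH (w : List s)
  /-- both ends closed: the emitted word -/
  | fin (w : List s)
  /-- dump, open left end: `qD · rd x` -/
  | dmpL (x : List (D r m))
  /-- dump, closed left end: `w · beg · code x · lt · qE` -/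
  | dmpC (w : List s) (x : List (D r m))

namespace Out

variable {s : Type} {r m : ℕ}

/-- emission of a letter -/
def cons (σ : s) : Out s r m → Out s r m
  | .zero => .zero
  | .stR w u q => .stR (σ :: w) u q
  | .stL q v => .stL q v
  | .stH w => .stH (σ :: w)
  | .fin w => .fin (σ :: w)
  | .dmpL x => .dmpL x
  | .dmpC w x => .dmpC (σ :: w) x

/-- emission of a word -/
def app (w : List s) (o : Out s r m) : Out s r m := w.foldr cons o

@[simp] theorem app_nil (o : Out s r m) : o.app [] = o := rfl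
theorem app_cons (σ : s) (w : List s) (o : Out s r m) : o.app (σ :: w) = (o.app w).cons σ := rfl

/-- dump outcome -/
def dmp (lc : Bool) (x : List (D r m)) : Out s r m := if lc then .dmpC [] x else .dmpL x

/-- admissible outcomes -/
def ok (lc rc : Bool) : Out s r m → Prop
  | .zero => True
  | .stR w _ q => rc = false ∧ q.isR = true ∧ (lc = false → w = [])
  | .stL q _ => lc = false ∧ q.isR = false
  | .stH _ => lc = true ∧ rc = false
  | .fin _ => lc = true ∧ rc = true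
  | .dmpL _ => lc = false
  | .dmpC _ _ => lc = true

end Out

/-- big-step semantics of the tape machine -/
inductive Ev (𝔇 : Data) (lc rc : Bool) :
    List 𝔇.Dt → 𝔇.Qt → List 𝔇.Dt → Out 𝔇.Sg 𝔇.r 𝔇.m → Prop
  | restA {p j u v o} : Ev 𝔇 lc rc (.a j :: u) (.rest p) v o →
      Ev 𝔇 lc rc u (.rest p) (.a j :: v) o
  | stA {i u v o} {j : Fin 𝔇.r} : (j : ℕ) = 0 → Ev 𝔇 lc rc (.a j :: u) (.st i) v o →
      Ev 𝔇 lc rc u (.st i) (.a j :: v) o
  | stAz {i u v} {j : Fin 𝔇.r} : (j : ℕ) ≠ 0 → Ev 𝔇 lc rc u (.st i) (.a j :: v) .zero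
  | monR {q u v} : q.isR = true → Ev 𝔇 lc rc u q (.mon :: v) (.dmp lc (u.reverse ++ .rc q :: v))
  | rcR {q q' u v} : q.isR = true → Ev 𝔇 lc rc u q (.rc q' :: v) .zero
  | openR {q u} : q.isR = true → rc = false → Ev 𝔇 lc rc u q [] (.stR [] u q)
  | kInc {p i q' u o} : rc = true → 𝔇.M p = .inc i q' → Ev 𝔇 lc rc (.a i :: u) (.rest q') [] o →
      Ev 𝔇 lc rc u (.rest p) [] o
  | kDec {p i q' q'' u o} : rc = true → 𝔇.M p = .dec i q' q'' → Ev 𝔇 lc rc u (.lft p) [] o →
      Ev 𝔇 lc rc u (.rest p) [] o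
  | kEmit {p x q' u o} : rc = true → 𝔇.M p = .emit x q' → Ev 𝔇 lc rc u (.lft p) [] o →
      Ev 𝔇 lc rc u (.rest p) [] o
  | kHalt {p u o} : rc = true → 𝔇.M p = .halt → Ev 𝔇 lc rc u .H [] o →
      Ev 𝔇 lc rc u (.rest p) [] o
  | kFail {p u} : rc = true → 𝔇.M p = .fail → Ev 𝔇 lc rc u (.rest p) [] .zero
  | kSt {i u o} : rc = true → Ev 𝔇 lc rc u (.rest (𝔇.start i)) [] o → Ev 𝔇 lc rc u (.st i) [] o
  | lDecEq {p i q' q'' u v o} : 𝔇.M p = .dec i q' q'' → Ev 𝔇 lc rc u (.rest q') v o →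
      Ev 𝔇 lc rc (.a i :: u) (.lft p) v o
  | lDecNe {p i q' q'' j u v o} : 𝔇.M p = .dec i q' q'' → j ≠ i →
      Ev 𝔇 lc rc u (.lft p) (.a j :: v) o → Ev 𝔇 lc rc (.a j :: u) (.lft p) v o
  | lEmit {p x q' j u v o} : 𝔇.M p = .emit x q' →
      Ev 𝔇 lc rc u (.lft p) (.a j :: v) o → Ev 𝔇 lc rc (.a j :: u) (.lft p) v o
  | lBad {p j u v} : (∀ i q' q'', 𝔇.M p ≠ .dec i q' q'') → (∀ x q', 𝔇.M p ≠ .emit x q') →
      Ev 𝔇 lc rc (.a j :: u) (.lft p) v .zero
  | HA {j u v o} : Ev 𝔇 lc rc u .H v o → Ev 𝔇 lc rc (.a j :: u) .H v o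
  | monL {q u v} : q.isR = false →
      Ev 𝔇 lc rc (.mon :: u) q v (.dmp lc (u.reverse ++ .rc q :: v))
  | rcL {q q' u v} : q.isR = false → Ev 𝔇 lc rc (.rc q' :: u) q v .zero
  | openL {q v} : q.isR = false → lc = false → Ev 𝔇 lc rc [] q v (.stL q v)
  | tDec {p i q' q'' v o} : lc = true → 𝔇.M p = .dec i q' q'' → Ev 𝔇 lc rc [] (.rest q'') v o →
      Ev 𝔇 lc rc [] (.lft p) v o
  | tEmit {p x q' v o} : lc = true → 𝔇.M p = .emit x q' → Ev 𝔇 lc rc [] (.rest q') v o →
      Ev 𝔇 lc rc [] (.lft p) v (o.cons (𝔇.sgOf x))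
  | tBad {p v} : lc = true → (∀ i q' q'', 𝔇.M p ≠ .dec i q' q'') → (∀ x q', 𝔇.M p ≠ .emit x q') →
      Ev 𝔇 lc rc [] (.lft p) v .zero
  | tHfin : lc = true → rc = true → Ev 𝔇 lc rc [] .H [] (.fin [])
  | tHst : lc = true → rc = false → Ev 𝔇 lc rc [] .H [] (.stH [])
  | tHD {d v} : lc = true → Ev 𝔇 lc rc [] .H (d :: v) .zero

/-- the outcome of a machine run -/
def toOut (𝔇 : Data) : Option (List (Fin (𝔇.c + 6))) → Out 𝔇.Sg 𝔇.r 𝔇.m
  | none => .zero
  | some w => .fin (w.map 𝔇.sgOf)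

end P193.One
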