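import Mathlib
import Vale.Agent.Lib.P193.One.Sem

/-!
# P193, part I: (M3) appending letters at the right (or the right end mark)
-/

namespace P193.One

open P193.Mach

variable {𝔇 : Data}

/-- continuation of a run with open right end and outcome `o` by the letters `y` and the new right
end `rc'` -/
def Cont (𝔇 : Data) (lc rc' : Bool) (y : List 𝔇.Dt) (u : List 𝔇.Dt) (q : 𝔇.Qt) (v : List 𝔇.Dt) :
    Out 𝔇.Sg 𝔇.r 𝔇.m → Prop
  | .zero => Ev 𝔇 lc rc' u q (v ++ y) .zero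
  | .stR w u' q' => ∀ o', Ev 𝔇 lc rc' u' q' y o' → Ev 𝔇 lc rc' u q (v ++ y) (o'.app w)
  | .stL q' v' => Ev 𝔇 lc rc' u q (v ++ y) (.stL q' (v' ++ y))
  | .stH w => Ev 𝔇 lc rc' u q (v ++ y)
      (if y = [] then (if rc' = true then .fin w else .stH w) else .zero)
  | .fin _ => True
  | .dmpL x => Ev 𝔇 lc rc' u q (v ++ y) (.dmpL (x ++ y))
  | .dmpC w x => Ev 𝔇 lc rc' u q (v ++ y) (.dmpC w (x ++ y))

private theorem SemApp_step {lc rc' : Bool} {y : List 𝔇.Dt} {u₁ u₂ : List 𝔇.Dt} {q₁ q₂ : 𝔇.Qt}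
    {v₁ v₂ : List 𝔇.Dt} {o : Out 𝔇.Sg 𝔇.r 𝔇.m}
    (h : ∀ o, Ev 𝔇 lc rc' u₁ q₁ (v₁ ++ y) o → Ev 𝔇 lc rc' u₂ q₂ (v₂ ++ y) o)
    (hc : Cont 𝔇 lc rc' y u₁ q₁ v₁ o) : Cont 𝔇 lc rc' y u₂ q₂ v₂ o := by
  cases o with
  | zero => exact h _ hc
  | stR w u' q' => exact fun o' ho' => h _ (hc o' ho')
  | stL q' v' => exact h _ hc
  | stH w => exact h _ hc
  | fin w => exact trivial
  | dmpL x => exact h _ hc
  | dmpC w x => exact h _ hc

private theorem SemApp_emit {lc rc' : Bool} {y : List 𝔇.Dt} {u₁ u₂ : List 𝔇.Dt} {q₁ q₂ : 𝔇.Qt}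
    {v₁ v₂ : List 𝔇.Dt} {o : Out 𝔇.Sg 𝔇.r 𝔇.m} (σ : 𝔇.Sg)
    (h : ∀ o, Ev 𝔇 lc rc' u₁ q₁ (v₁ ++ y) o → Ev 𝔇 lc rc' u₂ q₂ (v₂ ++ y) (o.cons σ))
    (hc : Cont 𝔇 lc rc' y u₁ q₁ v₁ o) : Cont 𝔇 lc rc' y u₂ q₂ v₂ (o.cons σ) := by
  cases o with
  | zero => exact h _ hc
  | stR w u' q' => exact fun o' ho' => h _ (hc o' ho')
  | stL q' v' => exact h _ hc
  | stH w =>
    have h1 := h _ hc
    show Ev 𝔇 lc rc' u₂ q₂ (v₂ ++ y)
      (if y = [] then (if rc' = true then .fin (σ :: w) else .stH (σ :: w)) else .zero)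
    have h2 : ((if y = [] then (if rc' = true then .fin w else .stH w) else .zero :
        Out 𝔇.Sg 𝔇.r 𝔇.m)).cons σ =
        (if y = [] then (if rc' = true then .fin (σ :: w) else .stH (σ :: w)) else .zero) := by
      split_ifs <;> rfl
    rw [← h2]
    exact h1
  | fin w => exact trivial
  | dmpL x => exact h _ hc
  | dmpC w x => exact h _ hc

private theorem SemApp_dmp {lc rc' : Bool} {y : List 𝔇.Dt} {u : List 𝔇.Dt} {q : 𝔇.Qt}
    {v : List 𝔇.Dt} {x : List 𝔇.Dt} (h : Ev 𝔇 lc rc' u q (v ++ y) (.dmp lc (x ++ y))) :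
    Cont 𝔇 lc rc' y u q v (.dmp lc x) := by
  cases lc
  · exact h
  · exact h

/-- (M3) -/
theorem Ev.cont {lc : Bool} {u : List 𝔇.Dt} {q : 𝔇.Qt} {v : List 𝔇.Dt}
    {o : Out 𝔇.Sg 𝔇.r 𝔇.m} (h : Ev 𝔇 lc false u q v o) (rc' : Bool) (y : List 𝔇.Dt) :
    Cont 𝔇 lc rc' y u q v o := by
  induction h with
  | restA _ ih => exact SemApp_step (fun o ho => Ev.restA ho) ih
  | stA hj _ ih => exact SemApp_step (fun o ho => Ev.stA hj ho) ih
  | stAz hj => exact Ev.stAz hj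
  | monR hq =>
    refine SemApp_dmp ?_
    rw [List.append_assoc]
    exact Ev.monR hq
  | rcR hq => exact Ev.rcR hq
  | openR hq _ => exact fun o' ho' => ho'
  | kInc h _ _ _ => exact absurd h (by decide)
  | kDec h _ _ _ => exact absurd h (by decide)
  | kEmit h _ _ _ => exact absurd h (by decide)
  | kHalt h _ _ _ => exact absurd h (by decide)
  | kFail h _ => exact absurd h (by decide)
  | kSt h _ _ => exact absurd h (by decide)
  | lDecEq hM _ ih => exact SemApp_step (fun o ho => Ev.lDecEq hM ho) ih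
  | lDecNe hM hj _ ih => exact SemApp_step (fun o ho => Ev.lDecNe hM hj ho) ih
  | lEmit hM _ ih => exact SemApp_step (fun o ho => Ev.lEmit hM ho) ih
  | lBad h1 h2 => exact Ev.lBad h1 h2
  | HA _ ih => exact SemApp_step (fun o ho => Ev.HA ho) ih
  | monL hq =>
    refine SemApp_dmp ?_
    rw [List.append_assoc]
    exact Ev.monL hq
  | rcL hq => exact Ev.rcL hq
  | openL hq hl => exact Ev.openL hq hl
  | tDec hl hM _ ih => exact SemApp_step (fun o ho => Ev.tDec hl hM ho) ih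
  | tEmit hl hM _ ih => exact SemApp_emit _ (fun o ho => Ev.tEmit hl hM ho) ih
  | tBad hl h1 h2 => exact Ev.tBad hl h1 h2
  | tHfin _ h => exact absurd h (by decide)
  | tHst hl _ =>
    cases y with
    | nil =>
      cases rc' with
      | false => exact Ev.tHst hl rfl
      | true => exact Ev.tHfin hl rfl
    | cons d v => exact Ev.tHD hl
  | tHD hl => exact Ev.tHD hl

end P193.One
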