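import Mathlib
import Vale.Agent.Lib.P193.One.Sem

/-!
# P193, part I: every configuration has an outcome; runs of the counter machine

Hint: prove by induction on `Run` the combined statement `ev_run_aux`: the counters are the numbers
of letters `a j` in the part of `u` before the first non-counter letter (`mon`, `rc`).
-/

namespace P193.One

open P193.Mach

variable {𝔇 : Data}

/-- a counter letter -/
def isA {r m : ℕ} : D r m → Bool
  | .a _ => true
  | _ => false

/-- counters: number of letters `a j` in the top part of `u` without `mon` and `rc` -/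
def cnt {r m : ℕ} (u : List (D r m)) (j : Fin r) : ℕ := (u.takeWhile isA).count (.a j)

private theorem cnt_nil {r m : ℕ} (j : Fin r) : cnt ([] : List (D r m)) j = 0 := rfl

private theorem cnt_cons {r m : ℕ} (i : Fin r) (u : List (D r m)) (j : Fin r) :
    cnt (.a i :: u) j = cnt u j + if j = i then 1 else 0 := by
  have h : (D.a i :: u).takeWhile isA = D.a i :: u.takeWhile isA := rfl
  unfold cnt
  rw [h, List.count_cons]
  congr 1
  by_cases hij : j = i
  · subst hij
    simp
  · have h1 : ¬ (D.a i : D r m) = D.a j := by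
      intro h2
      injection h2 with h3
      exact hij h3.symm
    simp [hij, h1]

private theorem cnt_mon {r m : ℕ} (u : List (D r m)) (j : Fin r) : cnt (.mon :: u) j = 0 := rfl

private theorem cnt_rc {r m : ℕ} (q : QS m) (u : List (D r m)) (j : Fin r) :
    cnt (.rc q :: u) j = 0 := rfl

private theorem cnt_append {r m : ℕ} (i : Fin r) (u1 u2 : List (D r m))
    (h : ∀ d ∈ u1, ∃ j, j ≠ i ∧ d = .a j) (j : Fin r) :
    cnt (u1 ++ .a i :: u2) j = cnt (u1 ++ u2) j + if j = i then 1 else 0 := by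
  induction u1 with
  | nil => exact cnt_cons i u2 j
  | cons d u1 ih =>
    obtain ⟨k, -, rfl⟩ := h d List.mem_cons_self
    have h1 := ih fun d hd => h d (List.mem_cons_of_mem _ hd)
    rw [List.cons_append, List.cons_append, cnt_cons, cnt_cons, h1]
    omega

private theorem exists_split {r m : ℕ} (i : Fin r) (u : List (D r m)) (h : cnt u i ≠ 0) :
    ∃ u1 u2, u = u1 ++ .a i :: u2 ∧ ∀ d ∈ u1, ∃ j, j ≠ i ∧ d = .a j := by
  induction u with
  | nil => exact absurd (cnt_nil i) h
  | cons d u ih =>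
    cases d with
    | a j =>
      by_cases hij : j = i
      · subst hij
        exact ⟨[], u, rfl, by simp⟩
      · have h1 : cnt u i ≠ 0 := by
          rw [cnt_cons, if_neg (Ne.symm hij), add_zero] at h
          exact h
        obtain ⟨u1, u2, rfl, h2⟩ := ih h1
        refine ⟨.a j :: u1, u2, rfl, ?_⟩
        intro d hd
        rcases List.mem_cons.1 hd with rfl | hd
        · exact ⟨j, hij, rfl⟩
        · exact h2 d hd
    | mon => exact absurd (cnt_mon u i) h
    | rc q => exact absurd (cnt_rc q u i) h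

private theorem rest_scan {lc rc : Bool} {p : Fin 𝔇.m} {o : Out 𝔇.Sg 𝔇.r 𝔇.m}
    (v1 : List 𝔇.Dt) (h : ∀ d ∈ v1, isA d = true) (u v : List 𝔇.Dt)
    (he : Ev 𝔇 lc rc (v1.reverse ++ u) (.rest p) v o) :
    Ev 𝔇 lc rc u (.rest p) (v1 ++ v) o := by
  induction v1 generalizing u with
  | nil => exact he
  | cons d v1 ih =>
    have h1 := h d List.mem_cons_self
    cases d with
    | a j =>
      refine Ev.restA (ih (fun d hd => h d (List.mem_cons_of_mem _ hd)) _ ?_)
      rw [List.reverse_cons, List.append_assoc] at he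
      exact he
    | mon => exact absurd h1 (by simp [isA])
    | rc q => exact absurd h1 (by simp [isA])

private theorem lft_scan {lc rc : Bool} {p q' q'' : Fin 𝔇.m} {i : Fin 𝔇.r}
    {o : Out 𝔇.Sg 𝔇.r 𝔇.m} (hp : 𝔇.M p = .dec i q' q'')
    (u1 : List 𝔇.Dt) (h : ∀ d ∈ u1, ∃ j, j ≠ i ∧ d = .a j) (u v : List 𝔇.Dt)
    (he : Ev 𝔇 lc rc u (.lft p) (u1.reverse ++ v) o) :
    Ev 𝔇 lc rc (u1 ++ u) (.lft p) v o := by
  induction u1 generalizing v with
  | nil => exact he
  | cons d u1 ih =>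
    obtain ⟨j, hj, rfl⟩ := h d List.mem_cons_self
    refine Ev.lDecNe hp hj (ih (fun d hd => h d (List.mem_cons_of_mem _ hd)) _ ?_)
    rw [List.reverse_cons, List.append_assoc] at he
    exact he

private theorem lft_dec_zero {lc rc : Bool} {p q' q'' : Fin 𝔇.m} {i : Fin 𝔇.r}
    {o : Out 𝔇.Sg 𝔇.r 𝔇.m} (hp : 𝔇.M p = .dec i q' q'') (u v : List 𝔇.Dt) (hu : cnt u i = 0)
    (hv : ∀ d ∈ v, isA d = true) (he : Ev 𝔇 lc rc (v.reverse ++ u) (.rest q'') [] o) :
    ∃ o', Ev 𝔇 lc rc u (.lft p) v o' ∧ (lc = true → (∀ d ∈ u, isA d = true) → o' = o) := by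
  induction u generalizing v with
  | nil =>
    cases lc with
    | true =>
      refine ⟨o, Ev.tDec rfl hp ?_, fun _ _ => rfl⟩
      have h1 := rest_scan v hv [] [] he
      rwa [List.append_nil] at h1
    | false => exact ⟨_, Ev.openL rfl rfl, fun h => absurd h (by simp)⟩
  | cons d u ih =>
    cases d with
    | a j =>
      have hj : j ≠ i := by
        rintro rfl
        rw [cnt_cons, if_pos rfl] at hu
        omega
      have hu' : cnt u i = 0 := by
        rw [cnt_cons] at hu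
        omega
      have hv' : ∀ d ∈ (.a j :: v : List 𝔇.Dt), isA d = true := by
        intro d hd
        rcases List.mem_cons.1 hd with rfl | hd
        · rfl
        · exact hv d hd
      obtain ⟨o', h1, h2⟩ := ih (.a j :: v) hu' hv' (by
        rw [List.reverse_cons, List.append_assoc]
        exact he)
      exact ⟨o', Ev.lDecNe hp hj h1, fun hl ha => h2 hl fun d hd =>
        ha d (List.mem_cons_of_mem _ hd)⟩
    | mon => exact ⟨_, Ev.monL rfl, fun _ ha => absurd (ha _ List.mem_cons_self) (by simp [isA])⟩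
    | rc q => exact ⟨_, Ev.rcL rfl, fun _ ha => absurd (ha _ List.mem_cons_self) (by simp [isA])⟩

private theorem lft_emit {lc rc : Bool} {p q' : Fin 𝔇.m} {x : Fin (𝔇.c + 6)}
    {o : Out 𝔇.Sg 𝔇.r 𝔇.m} (hp : 𝔇.M p = .emit x q') (u v : List 𝔇.Dt)
    (hv : ∀ d ∈ v, isA d = true) (he : Ev 𝔇 lc rc (v.reverse ++ u) (.rest q') [] o) :
    ∃ o', Ev 𝔇 lc rc u (.lft p) v o' ∧
      (lc = true → (∀ d ∈ u, isA d = true) → o' = o.cons (𝔇.sgOf x)) := by
  induction u generalizing v with
  | nil =>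
    cases lc with
    | true =>
      refine ⟨o.cons (𝔇.sgOf x), Ev.tEmit rfl hp ?_, fun _ _ => rfl⟩
      have h1 := rest_scan v hv [] [] he
      rwa [List.append_nil] at h1
    | false => exact ⟨_, Ev.openL rfl rfl, fun h => absurd h (by simp)⟩
  | cons d u ih =>
    cases d with
    | a j =>
      have hv' : ∀ d ∈ (.a j :: v : List 𝔇.Dt), isA d = true := by
        intro d hd
        rcases List.mem_cons.1 hd with rfl | hd
        · rfl
        · exact hv d hd
      obtain ⟨o', h1, h2⟩ := ih (.a j :: v) hv' (by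
        rw [List.reverse_cons, List.append_assoc]
        exact he)
      exact ⟨o', Ev.lEmit hp h1, fun hl ha => h2 hl fun d hd =>
        ha d (List.mem_cons_of_mem _ hd)⟩
    | mon => exact ⟨_, Ev.monL rfl, fun _ ha => absurd (ha _ List.mem_cons_self) (by simp [isA])⟩
    | rc q => exact ⟨_, Ev.rcL rfl, fun _ ha => absurd (ha _ List.mem_cons_self) (by simp [isA])⟩

private theorem H_scan {lc : Bool} (u : List 𝔇.Dt) :
    ∃ o', Ev 𝔇 lc true u .H [] o' ∧ (lc = true → (∀ d ∈ u, isA d = true) → o' = .fin []) := by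
  induction u with
  | nil =>
    cases lc with
    | true => exact ⟨_, Ev.tHfin rfl rfl, fun _ _ => rfl⟩
    | false => exact ⟨_, Ev.openL rfl rfl, fun h => absurd h (by simp)⟩
  | cons d u ih =>
    cases d with
    | a j =>
      obtain ⟨o', h1, h2⟩ := ih
      exact ⟨o', Ev.HA h1, fun hl ha => h2 hl fun d hd => ha d (List.mem_cons_of_mem _ hd)⟩
    | mon => exact ⟨_, Ev.monL rfl, fun _ ha => absurd (ha _ List.mem_cons_self) (by simp [isA])⟩
    | rc q => exact ⟨_, Ev.rcL rfl, fun _ ha => absurd (ha _ List.mem_cons_self) (by simp [isA])⟩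

theorem ev_run_aux {p : Fin 𝔇.m} {x : Fin 𝔇.r → ℕ} {o : Option (List (Fin (𝔇.c + 6)))}
    (h : Run 𝔇.M p x o) (lc : Bool) (u : List 𝔇.Dt) (hu : ∀ j, cnt u j = x j) :
    ∃ o', Ev 𝔇 lc true u (.rest p) [] o' ∧ (lc = true → (∀ d ∈ u, isA d = true) → o' = toOut 𝔇 o) := by
  induction h generalizing u with
  | halt q x hq =>
    obtain ⟨o', h1, h2⟩ := H_scan (lc := lc) u
    exact ⟨o', Ev.kHalt rfl hq h1, h2⟩
  | fail q x hq => exact ⟨_, Ev.kFail rfl hq, fun _ _ => rfl⟩
  | inc q q' x i o hq _ ih =>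
    obtain ⟨o', h1, h2⟩ := ih (.a i :: u) (by
      intro j
      rw [cnt_cons, hu]
      by_cases hij : j = i
      · subst hij
        simp
      · simp [hij])
    refine ⟨o', Ev.kInc rfl hq h1, fun hl ha => h2 hl ?_⟩
    intro d hd
    rcases List.mem_cons.1 hd with rfl | hd
    · rfl
    · exact ha d hd
  | dec_pos q q' q'' x i n o hq hx _ ih =>
    obtain ⟨u1, u2, rfl, h3⟩ := exists_split i u (by rw [hu, hx]; omega)
    obtain ⟨o', h1, h2⟩ := ih (u1 ++ u2) (by
      intro j
      have h4 := cnt_append i u1 u2 h3 j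
      rw [hu] at h4
      by_cases hij : j = i
      · subst hij
        rw [if_pos rfl, hx] at h4
        rw [Function.update_self]
        omega
      · rw [if_neg hij, add_zero] at h4
        rw [Function.update_of_ne hij, h4])
    refine ⟨o', Ev.kDec rfl hq (lft_scan hq u1 h3 _ _ (Ev.lDecEq hq ?_)), fun hl ha => h2 hl ?_⟩
    · refine rest_scan u1.reverse ?_ u2 [] ?_
      · intro d hd
        obtain ⟨j, -, rfl⟩ := h3 d (List.mem_reverse.1 hd)
        rfl
      · rw [List.reverse_reverse]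
        exact h1
    · intro d hd
      refine ha d ?_
      rcases List.mem_append.1 hd with hd | hd
      · exact List.mem_append_left _ hd
      · exact List.mem_append_right _ (List.mem_cons_of_mem _ hd)
  | dec_zero q q' q'' x i o hq hx _ ih =>
    obtain ⟨o', h1, h2⟩ := ih u hu
    obtain ⟨o'', h3, h4⟩ := lft_dec_zero hq u [] (by rw [hu, hx]) (by simp) h1
    exact ⟨o'', Ev.kDec rfl hq h3, fun hl ha => (h4 hl ha).trans (h2 hl ha)⟩
  | emit q q' x a o hq _ ih =>
    obtain ⟨o', h1, h2⟩ := ih u hu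
    obtain ⟨o'', h3, h4⟩ := lft_emit hq u [] (by simp) h1
    refine ⟨o'', Ev.kEmit rfl hq h3, fun hl ha => ?_⟩
    rw [h4 hl ha, h2 hl ha]
    cases o <;> rfl

private theorem total_rest (hM : Mortal 𝔇.M) (lc rc : Bool) (p : Fin 𝔇.m) (v : List 𝔇.Dt) :
    ∀ u : List 𝔇.Dt, ∃ o, Ev 𝔇 lc rc u (.rest p) v o := by
  induction v with
  | nil =>
    intro u
    cases rc with
    | false => exact ⟨_, Ev.openR rfl rfl⟩
    | true =>
      obtain ⟨o, ho⟩ := hM p (cnt u)
      obtain ⟨o', h1, -⟩ := ev_run_aux ho lc u fun _ => rfl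
      exact ⟨o', h1⟩
  | cons d v ih =>
    intro u
    cases d with
    | a j =>
      obtain ⟨o, ho⟩ := ih (.a j :: u)
      exact ⟨o, Ev.restA ho⟩
    | mon => exact ⟨_, Ev.monR rfl⟩
    | rc q => exact ⟨_, Ev.rcR rfl⟩

private theorem total_st (hM : Mortal 𝔇.M) (lc rc : Bool) (i : Fin 3) (v : List 𝔇.Dt) :
    ∀ u : List 𝔇.Dt, ∃ o, Ev 𝔇 lc rc u (.st i) v o := by
  induction v with
  | nil =>
    intro u
    cases rc with
    | false => exact ⟨_, Ev.openR rfl rfl⟩
    | true =>
      obtain ⟨o, ho⟩ := total_rest hM lc true (𝔇.start i) [] u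
      exact ⟨o, Ev.kSt rfl ho⟩
  | cons d v ih =>
    intro u
    cases d with
    | a j =>
      by_cases hj : (j : ℕ) = 0
      · obtain ⟨o, ho⟩ := ih (.a j :: u)
        exact ⟨o, Ev.stA hj ho⟩
      · exact ⟨_, Ev.stAz hj⟩
    | mon => exact ⟨_, Ev.monR rfl⟩
    | rc q => exact ⟨_, Ev.rcR rfl⟩

private theorem total_H (lc rc : Bool) (v : List 𝔇.Dt) (u : List 𝔇.Dt) :
    ∃ o, Ev 𝔇 lc rc u .H v o := by
  induction u with
  | nil =>
    cases lc with
    | false => exact ⟨_, Ev.openL rfl rfl⟩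
    | true =>
      cases v with
      | nil =>
        cases rc with
        | true => exact ⟨_, Ev.tHfin rfl rfl⟩
        | false => exact ⟨_, Ev.tHst rfl rfl⟩
      | cons d v => exact ⟨_, Ev.tHD rfl⟩
  | cons d u ih =>
    cases d with
    | a j =>
      obtain ⟨o, ho⟩ := ih
      exact ⟨o, Ev.HA ho⟩
    | mon => exact ⟨_, Ev.monL rfl⟩
    | rc q => exact ⟨_, Ev.rcL rfl⟩

private theorem total_lft (hM : Mortal 𝔇.M) (lc rc : Bool) (p : Fin 𝔇.m) (u : List 𝔇.Dt) :
    ∀ v : List 𝔇.Dt, ∃ o, Ev 𝔇 lc rc u (.lft p) v o := by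
  induction u with
  | nil =>
    intro v
    cases lc with
    | false => exact ⟨_, Ev.openL rfl rfl⟩
    | true =>
      cases hp : 𝔇.M p with
      | inc i q => exact ⟨_, Ev.tBad rfl (by simp [hp]) (by simp [hp])⟩
      | dec i q' q'' =>
        obtain ⟨o, ho⟩ := total_rest hM true rc q'' v []
        exact ⟨o, Ev.tDec rfl hp ho⟩
      | emit x q' =>
        obtain ⟨o, ho⟩ := total_rest hM true rc q' v []
        exact ⟨_, Ev.tEmit rfl hp ho⟩
      | halt => exact ⟨_, Ev.tBad rfl (by simp [hp]) (by simp [hp])⟩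
      | fail => exact ⟨_, Ev.tBad rfl (by simp [hp]) (by simp [hp])⟩
  | cons d u ih =>
    intro v
    cases d with
    | a j =>
      cases hp : 𝔇.M p with
      | inc i q => exact ⟨_, Ev.lBad (by simp [hp]) (by simp [hp])⟩
      | dec i q' q'' =>
        by_cases hj : j = i
        · subst hj
          obtain ⟨o, ho⟩ := total_rest hM lc rc q' v u
          exact ⟨o, Ev.lDecEq hp ho⟩
        · obtain ⟨o, ho⟩ := ih (.a j :: v)
          exact ⟨o, Ev.lDecNe hp hj ho⟩
      | emit x q' =>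
        obtain ⟨o, ho⟩ := ih (.a j :: v)
        exact ⟨o, Ev.lEmit hp ho⟩
      | halt => exact ⟨_, Ev.lBad (by simp [hp]) (by simp [hp])⟩
      | fail => exact ⟨_, Ev.lBad (by simp [hp]) (by simp [hp])⟩
    | mon => exact ⟨_, Ev.monL rfl⟩
    | rc q => exact ⟨_, Ev.rcL rfl⟩

/-- (M1) -/
theorem ev_total (hM : Mortal 𝔇.M) (lc rc : Bool) (u : List 𝔇.Dt) (q : 𝔇.Qt) (v : List 𝔇.Dt) :
    ∃ o, Ev 𝔇 lc rc u q v o := by
  cases q with
  | rest p => exact total_rest hM lc rc p v u
  | st i => exact total_st hM lc rc i v u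
  | lft p => exact total_lft hM lc rc p u v
  | H => exact total_H lc rc v u

/-- (M5) -/
theorem ev_start {i : Fin 3} {k : ℕ} {o : Option (List (Fin (𝔇.c + 6)))}
    (h : Run 𝔇.M (𝔇.start i) (Pi.single ⟨0, 𝔇.hr⟩ k) o) :
    Ev 𝔇 true true (List.replicate k 𝔇.a0) (.st i) [] (toOut 𝔇 o) := by
  have hA : ∀ d ∈ List.replicate k 𝔇.a0, isA d = true := by
    intro d hd
    rw [List.eq_of_mem_replicate hd]
    rfl
  have hc : ∀ (k : ℕ) (j : Fin 𝔇.r), cnt (List.replicate k 𝔇.a0) j =
      (Pi.single (⟨0, 𝔇.hr⟩ : Fin 𝔇.r) k : Fin 𝔇.r → ℕ) j := by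
    intro k j
    induction k with
    | zero => simp [cnt]
    | succ k ih =>
      rw [List.replicate_succ]
      have h1 := cnt_cons (⟨0, 𝔇.hr⟩ : Fin 𝔇.r) (List.replicate k 𝔇.a0) j
      have h2 : cnt (𝔇.a0 :: List.replicate k 𝔇.a0) j =
          cnt (List.replicate k 𝔇.a0) j + if j = ⟨0, 𝔇.hr⟩ then 1 else 0 := h1
      rw [h2, ih]
      by_cases hj : j = ⟨0, 𝔇.hr⟩
      · subst hj
        simp
      · simp [hj]
  obtain ⟨o', h1, h2⟩ := ev_run_aux h true (List.replicate k 𝔇.a0) (hc k)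
  rw [h2 rfl hA] at h1
  exact Ev.kSt rfl h1

private theorem st_scan {lc rc : Bool} {i : Fin 3} {o : Out 𝔇.Sg 𝔇.r 𝔇.m} (k : ℕ) :
    ∀ (u v : List 𝔇.Dt), Ev 𝔇 lc rc (List.replicate k 𝔇.a0 ++ u) (.st i) v o →
      Ev 𝔇 lc rc u (.st i) (List.replicate k 𝔇.a0 ++ v) o := by
  induction k with
  | zero => intro u v h; exact h
  | succ k ih =>
    intro u v h
    have h1 : List.replicate (k + 1) 𝔇.a0 ++ u = List.replicate k 𝔇.a0 ++ (𝔇.a0 :: u) := by
      rw [List.replicate_succ', List.append_assoc]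
      rfl
    rw [h1] at h
    exact Ev.stA (j := ⟨0, 𝔇.hr⟩) rfl (ih (𝔇.a0 :: u) v h)

/-- (M5), the input on the right side -/
theorem ev_start' {i : Fin 3} {k : ℕ} {o : Option (List (Fin (𝔇.c + 6)))}
    (h : Run 𝔇.M (𝔇.start i) (Pi.single ⟨0, 𝔇.hr⟩ k) o) :
    Ev 𝔇 true true [] (.st i) (List.replicate k 𝔇.a0) (toOut 𝔇 o) := by
  have h1 := ev_start h
  have h2 := st_scan (𝔇 := 𝔇) (lc := true) (rc := true) (i := i) (o := toOut 𝔇 o) k [] [] (by
    rw [List.append_nil]
    exact h1)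
  rwa [List.append_nil] at h2

end P193.One
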