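import Mathlib
import Vale.Agent.Lib.P193.One.Sem

/-!
# P193, part I: admissible outcomes, determinism of `Ev`
-/

namespace P193.One

open P193.Mach

variable {𝔇 : Data}

private theorem ok_cons {lc rc : Bool} (hlc : lc = true) {o : Out 𝔇.Sg 𝔇.r 𝔇.m}
    (h : o.ok lc rc) (σ : 𝔇.Sg) : (o.cons σ).ok lc rc := by
  cases o <;> simp_all [Out.ok, Out.cons]

private theorem ok_dmp {lc rc : Bool} (x : List 𝔇.Dt) :
    (Out.dmp lc x : Out 𝔇.Sg 𝔇.r 𝔇.m).ok lc rc := by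
  cases lc <;> simp [Out.ok, Out.dmp]

theorem Ev.ok {lc rc : Bool} {u : List 𝔇.Dt} {q : 𝔇.Qt} {v : List 𝔇.Dt}
    {o : Out 𝔇.Sg 𝔇.r 𝔇.m} (h : Ev 𝔇 lc rc u q v o) : o.ok lc rc := by
  induction h with
  | restA _ ih => exact ih
  | stA _ _ ih => exact ih
  | stAz _ => trivial
  | monR _ => exact ok_dmp _
  | rcR _ => trivial
  | openR h1 h2 => exact ⟨h2, h1, fun _ => rfl⟩
  | kInc _ _ _ ih => exact ih
  | kDec _ _ _ ih => exact ih
  | kEmit _ _ _ ih => exact ih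
  | kHalt _ _ _ ih => exact ih
  | kFail _ _ => trivial
  | kSt _ _ ih => exact ih
  | lDecEq _ _ ih => exact ih
  | lDecNe _ _ _ ih => exact ih
  | lEmit _ _ ih => exact ih
  | lBad _ _ => trivial
  | HA _ ih => exact ih
  | monL _ => exact ok_dmp _
  | rcL _ => trivial
  | openL h1 h2 => exact ⟨h2, h1⟩
  | tDec _ _ _ ih => exact ih
  | tEmit h _ _ ih => exact ok_cons h ih _
  | tBad _ _ _ => trivial
  | tHfin h1 h2 => exact ⟨h1, h2⟩
  | tHst h1 h2 => exact ⟨h1, h2⟩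
  | tHD _ => trivial

/-- a left closed run from a non-left-reading or left reading state: determinism -/
theorem Ev.det {lc rc : Bool} {u : List 𝔇.Dt} {q : 𝔇.Qt} {v : List 𝔇.Dt}
    {o o' : Out 𝔇.Sg 𝔇.r 𝔇.m} (h : Ev 𝔇 lc rc u q v o) (h' : Ev 𝔇 lc rc u q v o') : o = o' := by
  induction h generalizing o' <;> cases h' <;>
    first
      | rfl
      | (exfalso; simp_all [QS.isR]; done)
      | grind [QS.isR]

end P193.One
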