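import Mathlib
import Vale.Agent.Lib.P193.One.SemOk

/-!
# P193, part I: (M4) soundness of `Ev` in `A`
-/

namespace P193.One

open P193.Mach

namespace Data

variable (𝔇 : Data)

/-- left end -/
noncomputable def Lc (lc : Bool) : 𝔇.A := if lc then 𝔇.g .lt else 1
/-- right end -/
noncomputable def Rc (rc : Bool) : 𝔇.A := if rc then 𝔇.g .kap else 1
/-- emitted word (only present if the left end is closed) -/
noncomputable def Wc (lc : Bool) (w : List 𝔇.Sg) : 𝔇.A := if lc then 𝔇.wA w else 1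

/-- value in `A` of an outcome -/
noncomputable def outA (lc rc : Bool) : Out 𝔇.Sg 𝔇.r 𝔇.m → 𝔇.A
  | .zero => 0
  | .stR w u q => 𝔇.Wc lc w * 𝔇.Lc lc * 𝔇.lw u * 𝔇.g (.q q)
  | .stL q v => 𝔇.g (.q q) * 𝔇.rw v * 𝔇.Rc rc
  | .stH w => 𝔇.wA w * 𝔇.g .lt * 𝔇.g (.q .H)
  | .fin w => 𝔇.wA w
  | .dmpL x => 𝔇.g .qD * 𝔇.rw x * 𝔇.Rc rc
  | .dmpC w x => 𝔇.wA w * 𝔇.yA (0 :: 𝔇.codes x) * 𝔇.g .lt * 𝔇.g .qE * 𝔇.Rc rc

theorem lw_qD (u : List 𝔇.Dt) : 𝔇.lw u * 𝔇.g .qD = 𝔇.g .qD * 𝔇.rw u.reverse := by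
  induction u with
  | nil =>
    rw [List.reverse_nil, lw_nil, rw_nil, 𝔇.src_mul (x := .qD) rfl, 𝔇.tgt_mul (x := .qD) rfl]
  | cons d u ih =>
    rw [lw_cons, mul_assoc, DA, ← mul_assoc, ih, List.reverse_cons, rw_append, rw_cons, rw_nil,
      𝔇.tgt_mul (x := .rd d) rfl, mul_assoc]

theorem lw_qD_rw (u v : List 𝔇.Dt) : 𝔇.lw u * 𝔇.g .qD * 𝔇.rw v
    = 𝔇.g .qD * 𝔇.rw (u.reverse ++ v) := by
  rw [lw_qD, rw_append, mul_assoc]

theorem lt_qE_rw (v : List 𝔇.Dt) : 𝔇.g .lt * 𝔇.g .qE * 𝔇.rw v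
    = 𝔇.yA (𝔇.codes v) * 𝔇.g .lt * 𝔇.g .qE := by
  induction v with
  | nil =>
    have h : 𝔇.yA (𝔇.codes []) = 𝔇.g (.e .O) := rfl
    rw [h, rw_nil, mul_assoc, 𝔇.tgt_mul (x := .qE) rfl, 𝔇.src_mul (x := .lt) rfl]
  | cons d v ih =>
    rw [rw_cons, ← mul_assoc, EL, codes_cons, yA_append]
    rw [mul_assoc (𝔇.yA _), mul_assoc (𝔇.yA _), ih]
    simp only [mul_assoc]

theorem lt_qD_rw (v : List 𝔇.Dt) : 𝔇.g .lt * 𝔇.g .qD * 𝔇.rw v
    = 𝔇.yA (0 :: 𝔇.codes v) * 𝔇.g .lt * 𝔇.g .qE := by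
  have h : (0 :: 𝔇.codes v) = [0] ++ 𝔇.codes v := rfl
  rw [DL', h, yA_append, mul_assoc (𝔇.yA _), mul_assoc (𝔇.yA _), lt_qE_rw]
  simp only [mul_assoc]

theorem Sound_dmp (lc rc : Bool) (u v : List 𝔇.Dt) (q : 𝔇.Qt) :
    𝔇.Lc lc * 𝔇.lw u * (𝔇.g .qD * 𝔇.g (.rd (.rc q))) * 𝔇.rw v * 𝔇.Rc rc
      = 𝔇.outA lc rc (.dmp lc (u.reverse ++ .rc q :: v)) := by
  have h1 : 𝔇.Lc lc * 𝔇.lw u * (𝔇.g .qD * 𝔇.g (.rd (.rc q))) * 𝔇.rw v * 𝔇.Rc rc
      = 𝔇.Lc lc * (𝔇.lw u * 𝔇.g .qD * 𝔇.rw (.rc q :: v)) * 𝔇.Rc rc := by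
    rw [rw_cons]
    simp only [mul_assoc]
  rw [h1, lw_qD_rw]
  cases lc with
  | false =>
    simp only [Lc, Out.dmp, outA, Bool.false_eq_true, if_false, one_mul]
  | true =>
    have h2 : 𝔇.yA (0 :: 𝔇.codes (u.reverse ++ .rc q :: v))
        = 𝔇.wA [] * 𝔇.yA (0 :: 𝔇.codes (u.reverse ++ .rc q :: v)) := by
      rw [wA_nil, yA, eO_wA]
    simp only [Lc, Out.dmp, outA, if_true]
    rw [← mul_assoc, lt_qD_rw, ← h2]

theorem Sound_cons {lc rc : Bool} (hlc : lc = true) (σ : 𝔇.Sg) (o : Out 𝔇.Sg 𝔇.r 𝔇.m)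
    (ho : o.ok lc rc) : 𝔇.g (.sg σ) * 𝔇.outA lc rc o = 𝔇.outA lc rc (o.cons σ) := by
  subst hlc
  cases o with
  | zero => simp only [Out.cons, outA, mul_zero]
  | stR w u q => simp only [Out.cons, outA, Wc, if_true, wA_cons, mul_assoc]
  | stL q v => exact absurd ho.1 (by simp)
  | stH w => simp only [Out.cons, outA, wA_cons, mul_assoc]
  | fin w => simp only [Out.cons, outA, wA_cons]
  | dmpL x => exact absurd (show true = false from ho) (by simp)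
  | dmpC w x => simp only [Out.cons, outA, wA_cons, mul_assoc]

theorem Sound_q_eC (q : 𝔇.Qt) : 𝔇.g (.q q) * 𝔇.g (.e .C) = 𝔇.g (.q q) :=
  𝔇.tgt_mul (x := .q q) rfl

theorem Sound_lt_eB : 𝔇.g .lt * 𝔇.g (.e .B) = 𝔇.g .lt :=
  𝔇.tgt_mul (x := .lt) rfl

/-- (M4) soundness -/
theorem sound {𝔇 : Data} {lc rc : Bool} {u : List 𝔇.Dt} {q : 𝔇.Qt} {v : List 𝔇.Dt}
    {o : Out 𝔇.Sg 𝔇.r 𝔇.m} (h : Ev 𝔇 lc rc u q v o) :
    𝔇.Lc lc * 𝔇.lw u * 𝔇.g (.q q) * 𝔇.rw v * 𝔇.Rc rc = 𝔇.outA lc rc o := by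
  induction h with
  | @restA p j u v o _ ih =>
    rw [← ih, lw_cons, rw_cons]
    have e := 𝔇.restA p j
    calc _ = 𝔇.Lc lc * 𝔇.lw u * (𝔇.g (.q (.rest p)) * 𝔇.g (.rd (.a j))) * 𝔇.rw v * 𝔇.Rc rc := by
          simp only [mul_assoc]
      _ = _ := by
          rw [e]
          simp only [mul_assoc]
  | @stA i u v o j hj _ ih =>
    rw [← ih, lw_cons, rw_cons]
    have e := 𝔇.stA_zero i hj
    calc _ = 𝔇.Lc lc * 𝔇.lw u * (𝔇.g (.q (.st i)) * 𝔇.g (.rd (.a j))) * 𝔇.rw v * 𝔇.Rc rc := by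
          simp only [mul_assoc]
      _ = _ := by
          rw [e]
          simp only [mul_assoc]
  | @stAz i u v j hj =>
    rw [rw_cons]
    have e := 𝔇.stA_ne i hj
    calc _ = 𝔇.Lc lc * 𝔇.lw u * (𝔇.g (.q (.st i)) * 𝔇.g (.rd (.a j))) * 𝔇.rw v * 𝔇.Rc rc := by
          simp only [mul_assoc]
      _ = _ := by
          rw [e]
          simp only [mul_zero, zero_mul, outA]
  | @monR q u v hq =>
    rw [← Sound_dmp, ← 𝔇.monR hq, rw_cons]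
    simp only [mul_assoc]
  | @rcR q q' u v hq =>
    rw [rw_cons]
    have e := 𝔇.rcR hq q'
    calc _ = 𝔇.Lc lc * 𝔇.lw u * (𝔇.g (.q q) * 𝔇.g (.rd (.rc q'))) * 𝔇.rw v * 𝔇.Rc rc := by
          simp only [mul_assoc]
      _ = _ := by
          rw [e]
          simp only [mul_zero, zero_mul, outA]
  | @openR q u hq hrc =>
    subst hrc
    have e := 𝔇.Sound_q_eC q
    rw [rw_nil, mul_assoc (_ * _) (𝔇.g (.q q)), e]
    cases lc with
    | false => simp only [Rc, outA, Wc, Lc, Bool.false_eq_true, if_false, one_mul, mul_one]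
    | true =>
      simp only [Rc, outA, Wc, Lc, Bool.false_eq_true, if_false, if_true, mul_one, wA_nil]
      rw [𝔇.src_mul (x := .lt) rfl]
  | @kInc p i q' u o hrc hM _ ih =>
    subst hrc
    rw [← ih, lw_cons, rw_nil, mul_assoc (_ * _) (𝔇.g (.q (.rest p))), Sound_q_eC,
      mul_assoc _ (𝔇.g (.q (.rest q'))), Sound_q_eC]
    have e := 𝔇.restK_inc hM
    simp only [Rc, if_true]
    rw [mul_assoc, e]
    simp only [mul_assoc]
  | @kDec p i q' q'' u o hrc hM _ ih =>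
    subst hrc
    rw [← ih, rw_nil, mul_assoc (_ * _) (𝔇.g (.q (.rest p))), Sound_q_eC,
      mul_assoc _ (𝔇.g (.q (.lft p))), Sound_q_eC]
    have e := 𝔇.restK_dec hM
    simp only [Rc, if_true]
    rw [mul_assoc, e]
    simp only [mul_assoc]
  | @kEmit p x q' u o hrc hM _ ih =>
    subst hrc
    rw [← ih, rw_nil, mul_assoc (_ * _) (𝔇.g (.q (.rest p))), Sound_q_eC,
      mul_assoc _ (𝔇.g (.q (.lft p))), Sound_q_eC]
    have e := 𝔇.restK_emit hM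
    simp only [Rc, if_true]
    rw [mul_assoc, e]
    simp only [mul_assoc]
  | @kHalt p u o hrc hM _ ih =>
    subst hrc
    rw [← ih, rw_nil, mul_assoc (_ * _) (𝔇.g (.q (.rest p))), Sound_q_eC,
      mul_assoc _ (𝔇.g (.q .H)), Sound_q_eC]
    have e := 𝔇.restK_halt hM
    simp only [Rc, if_true]
    rw [mul_assoc, e]
    simp only [mul_assoc]
  | @kFail p u hrc hM =>
    subst hrc
    rw [rw_nil, mul_assoc (_ * _) (𝔇.g (.q (.rest p))), Sound_q_eC]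
    have e := 𝔇.restK_fail hM
    simp only [Rc, if_true]
    rw [mul_assoc, e, mul_zero]
    rfl
  | @kSt i u o hrc _ ih =>
    subst hrc
    rw [← ih, rw_nil, mul_assoc (_ * _) (𝔇.g (.q (.st i))), Sound_q_eC,
      mul_assoc _ (𝔇.g (.q (.rest (𝔇.start i)))), Sound_q_eC]
    have e := 𝔇.stK i
    simp only [Rc, if_true]
    rw [mul_assoc, e]
    simp only [mul_assoc]
  | @lDecEq p i q' q'' u v o hM _ ih =>
    rw [← ih, lw_cons]
    have e := 𝔇.lftA_dec_eq hM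
    rw [← mul_assoc (𝔇.Lc lc), mul_assoc _ (𝔇.g (.ld (.a i))), e]
  | @lDecNe p i q' q'' j u v o hM hj _ ih =>
    rw [← ih, lw_cons, rw_cons]
    have e := 𝔇.lftA_dec_ne hM hj
    rw [← mul_assoc (𝔇.Lc lc), mul_assoc _ (𝔇.g (.ld (.a j))), e]
    simp only [mul_assoc]
  | @lEmit p x q' j u v o hM _ ih =>
    rw [← ih, lw_cons, rw_cons]
    have e := 𝔇.lftA_emit hM j
    rw [← mul_assoc (𝔇.Lc lc), mul_assoc _ (𝔇.g (.ld (.a j))), e]
    simp only [mul_assoc]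
  | @lBad p j u v h1 h2 =>
    have e : 𝔇.g (.ld (.a j)) * 𝔇.g (.q (.lft p)) = 0 := by
      cases hM : 𝔇.M p with
      | inc i q' => exact 𝔇.lftA_inc hM j
      | dec i q' q'' => exact absurd hM (h1 i q' q'')
      | emit x q' => exact absurd hM (h2 x q')
      | halt => exact 𝔇.lftA_halt hM j
      | fail => exact 𝔇.lftA_fail hM j
    rw [lw_cons, ← mul_assoc (𝔇.Lc lc), mul_assoc _ (𝔇.g (.ld (.a j))), e]
    simp only [mul_zero, zero_mul, outA]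
  | @HA j u v o _ ih =>
    rw [← ih, lw_cons]
    have e := 𝔇.HA j
    rw [← mul_assoc (𝔇.Lc lc), mul_assoc _ (𝔇.g (.ld (.a j))), e]
  | @monL q u v hq =>
    rw [← Sound_dmp, ← 𝔇.monL hq, lw_cons]
    simp only [mul_assoc]
  | @rcL q q' u v hq =>
    have e := 𝔇.rcL hq q'
    rw [lw_cons, ← mul_assoc (𝔇.Lc lc), mul_assoc _ (𝔇.g (.ld (.rc q'))), e]
    simp only [mul_zero, zero_mul, outA]
  | @openL q v hq hlc =>
    subst hlc
    simp only [Lc, Bool.false_eq_true, if_false, one_mul, outA, lw_nil]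
    rw [𝔇.src_mul (x := .q q) rfl]
  | @tDec p i q' q'' v o hlc hM _ ih =>
    subst hlc
    rw [← ih, lw_nil]
    simp only [Lc, if_true]
    rw [Sound_lt_eB, 𝔇.lftL_dec hM]
  | @tEmit p x q' v o hlc hM h ih =>
    rw [← 𝔇.Sound_cons hlc _ o (Ev.ok h), ← ih]
    subst hlc
    rw [lw_nil]
    simp only [Lc, if_true]
    rw [Sound_lt_eB, 𝔇.lftL_emit hM]
    simp only [mul_assoc]
  | @tBad p v hlc h1 h2 =>
    subst hlc
    have e : 𝔇.g .lt * 𝔇.g (.q (.lft p)) = 0 := by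
      cases hM : 𝔇.M p with
      | inc i q' => exact 𝔇.lftL_inc hM
      | dec i q' q'' => exact absurd hM (h1 i q' q'')
      | emit x q' => exact absurd hM (h2 x q')
      | halt => exact 𝔇.lftL_halt hM
      | fail => exact 𝔇.lftL_fail hM
    rw [lw_nil]
    simp only [Lc, if_true]
    rw [Sound_lt_eB, e]
    simp only [zero_mul, outA]
  | tHfin hlc hrc =>
    subst hlc
    subst hrc
    rw [lw_nil, rw_nil]
    simp only [Lc, Rc, if_true, outA]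
    rw [Sound_lt_eB, mul_assoc (𝔇.g .lt) (𝔇.g (.q .H)) (𝔇.g (.e .C)), Sound_q_eC, HK, wA_nil]
  | tHst hlc hrc =>
    subst hlc
    subst hrc
    rw [lw_nil, rw_nil]
    simp only [Lc, Rc, if_true, outA, Bool.false_eq_true, if_false, mul_one]
    rw [Sound_lt_eB, mul_assoc (𝔇.g .lt) (𝔇.g (.q .H)) (𝔇.g (.e .C)), Sound_q_eC, wA_nil,
      𝔇.src_mul (x := .lt) rfl]
  | @tHD d v hlc =>
    subst hlc
    rw [lw_nil, rw_cons]
    simp only [Lc, if_true, outA]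
    rw [Sound_lt_eB, ← mul_assoc (_ * _) (𝔇.g (.rd d)), HD]
    simp only [zero_mul]

end Data

end P193.One
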