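import Mathlib
import Vale.Agent.Lib.P193.One.Sound
import Vale.Agent.Lib.P193.One.SemTotal

/-!
# P193, part I: API of `ν` (statements used by separation; proofs in progress)
-/

namespace P193.One

open P193.Mach

namespace Spec

variable {𝔇 : Data} {G : Type} [Group G] (S : Spec 𝔇 G)

/-- `lt · qs0 · a0^k · κ = lt · qs0 · κ` (relation `rho`, commuted to the left) -/
theorem rho_k (k : ℕ) : 𝔇.g (.qs 0) * 𝔇.rw (List.replicate k 𝔇.a0) * 𝔇.g .kap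
    = 𝔇.g (.qs 0) * 𝔇.g .kap := by
  induction k with
  | zero => rw [List.replicate_zero, Data.rw_nil, 𝔇.tgt_mul (x := .qs 0) rfl]
  | succ k ih =>
    rw [List.replicate_succ, Data.rw_cons, ← mul_assoc, ← 𝔇.qsA_eq, mul_assoc (𝔇.g (.ld 𝔇.a0)),
      mul_assoc (𝔇.g (.ld 𝔇.a0)), ih, ← mul_assoc, 𝔇.qsA_eq, 𝔇.rho]

private theorem nuApi_sgOf_map (w : List (Fin 𝔇.c ⊕ Fin 6)) :
    (w.map finSumFinEquiv).map 𝔇.sgOf = w := by
  rw [List.map_map]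
  have : (𝔇.sgOf ∘ finSumFinEquiv) = id := by
    funext x
    simp [Data.sgOf]
  rw [this, List.map_id]

private theorem nuApi_run {i : Fin 3} {k : ℕ} {o : Option (List (Fin (𝔇.c + 6)))}
    (h : Run 𝔇.M (𝔇.start i) (Pi.single ⟨0, 𝔇.hr⟩ k) o) :
    𝔇.g .lt * 𝔇.g (.qs i) * 𝔇.rw (List.replicate k 𝔇.a0) * 𝔇.g .kap
      = 𝔇.outA true true (toOut 𝔇 o) := by
  have h1 := Data.sound (ev_start' h)
  rw [← h1, 𝔇.qsL]
  simp only [Data.Lc, Data.Rc, if_true, Data.lw_nil]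
  rw [𝔇.tgt_mul (x := .lt) rfl]

/-- run of start state 0 -/
theorem run0A (k : ℕ) : 𝔇.g .lt * 𝔇.g (.qs 0) * 𝔇.rw (List.replicate k 𝔇.a0) * 𝔇.g .kap
    = 𝔇.wA ((S.F0 k).map .inl) := by
  rw [nuApi_run (S.run0 k)]
  simp only [toOut, Data.outA]
  congr 1
  have := nuApi_sgOf_map (𝔇 := 𝔇) ((S.F0 k).map .inl)
  rw [List.map_map] at this ⊢
  rw [List.map_map] at this
  exact this

include S in
/-- closed runs of the start states -/
theorem lt_s0 (k : ℕ) : 𝔇.g .lt * 𝔇.g (.qs 0) * 𝔇.rw (List.replicate k 𝔇.a0) * 𝔇.g .kap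
    = 𝔇.g (.e .O) := by
  have h0 := S.run0A 0
  rw [S.F0_zero, List.map_nil, Data.wA_nil] at h0
  rw [← h0, mul_assoc (𝔇.g .lt), mul_assoc (𝔇.g .lt), mul_assoc (𝔇.g .lt), mul_assoc (𝔇.g .lt),
    rho_k, rho_k]

theorem relator_eO (w : List (Fin 𝔇.c)) (h : (w.map S.xs).prod = 1) :
    𝔇.wA (w.map .inl) = 𝔇.g (.e .O) := by
  obtain ⟨k, rfl⟩ := S.F0_surj w h
  rw [← S.run0A k, S.lt_s0 k]

private theorem nuApi_wv_append (xs : Fin 𝔇.c → G) (u w : List 𝔇.Sg) :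
    wv xs (u ++ w) = wv xs u * wv xs w := by
  unfold wv; rw [List.map_append, List.prod_append]

private theorem nuApi_wv_inl (xs : Fin 𝔇.c → G) (u : List (Fin 𝔇.c)) :
    wv xs (u.map .inl) = ((u.map xs).prod, 1) := by
  induction u with
  | nil => rfl
  | cons s u ih =>
    have : wv xs ((s :: u).map .inl) = lv xs (.inl s) * wv xs (u.map .inl) := by
      unfold wv; rw [List.map_cons, List.map_cons, List.prod_cons]
    rw [this, ih, List.map_cons, List.prod_cons]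
    simp [lv]

private theorem nuApi_wv_inr (xs : Fin 𝔇.c → G) (u : List (Fin 6)) :
    wv xs (u.map .inr) = yv u := by
  induction u with
  | nil => rfl
  | cons s u ih =>
    have : wv xs ((s :: u).map .inr) = lv xs (.inr s) * wv xs (u.map .inr) := by
      unfold wv; rw [List.map_cons, List.map_cons, List.prod_cons]
    rw [this, ih]
    simp only [lv, yv, Prod.mk_mul_mk, mul_one]
    rfl

private theorem nuApi_wv_nw (n : NN G) : wv S.xs (S.nw n) = n := by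
  unfold nw
  rw [nuApi_wv_append, nuApi_wv_inl, nuApi_wv_inr, S.gw_val]
  simp [yv]

private theorem nuApi_comm (y : Fin 6) (u : List (Fin 𝔇.c)) :
    𝔇.g (.sg (.inr y)) * 𝔇.wA (u.map .inl) = 𝔇.wA (u.map .inl) * 𝔇.g (.sg (.inr y)) := by
  induction u with
  | nil =>
    rw [List.map_nil, Data.wA_nil, 𝔇.tgt_mul (x := .sg (.inr y)) rfl,
      𝔇.src_mul (x := .sg (.inr y)) rfl]
  | cons s u ih =>
    rw [List.map_cons, Data.wA_cons, ← mul_assoc, ← 𝔇.comm, mul_assoc, ih, mul_assoc]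

private theorem nuApi_split (w : List 𝔇.Sg) : ∃ (u : List (Fin 𝔇.c)) (v : List (Fin 6)),
    𝔇.wA w = 𝔇.wA (u.map .inl) * 𝔇.wA (v.map .inr) ∧
      ∀ xs : Fin 𝔇.c → G, wv xs w = wv xs (u.map .inl) * wv xs (v.map .inr) := by
  induction w with
  | nil =>
    refine ⟨[], [], ?_, fun xs => ?_⟩
    · rw [List.map_nil, List.map_nil, Data.wA_nil, 𝔇.e_self]
    · show (1 : NN G) = 1 * 1
      rw [mul_one]
  | cons σ w ih =>
    obtain ⟨u, v, h1, h2⟩ := ih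
    cases σ with
    | inl s =>
      refine ⟨s :: u, v, ?_, fun xs => ?_⟩
      · rw [Data.wA_cons, h1, List.map_cons, Data.wA_cons, mul_assoc]
      · have e1 : wv xs ((.inl s :: w : List 𝔇.Sg)) = lv xs (.inl s) * wv xs w := by
          unfold wv; rw [List.map_cons, List.prod_cons]
        have e2 : wv xs ((s :: u).map .inl) = lv xs (.inl s) * wv xs (u.map .inl) := by
          unfold wv; rw [List.map_cons, List.map_cons, List.prod_cons]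
        rw [e1, e2, h2, mul_assoc]
    | inr y =>
      refine ⟨u, y :: v, ?_, fun xs => ?_⟩
      · rw [Data.wA_cons, h1, ← mul_assoc, nuApi_comm, List.map_cons, Data.wA_cons, mul_assoc]
      · have e1 : wv xs ((.inr y :: w : List 𝔇.Sg)) = lv xs (.inr y) * wv xs w := by
          unfold wv; rw [List.map_cons, List.prod_cons]
        have e2 : wv xs ((y :: v).map .inr) = lv xs (.inr y) * wv xs (v.map .inr) := by
          unfold wv; rw [List.map_cons, List.map_cons, List.prod_cons]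
        rw [e1, e2, h2, ← mul_assoc, ← mul_assoc]
        congr 1
        rw [nuApi_wv_inl]
        simp [lv]

private theorem nuApi_S (u v : List (Fin 𝔇.c)) (h : (u.map S.xs).prod = (v.map S.xs).prod) :
    𝔇.wA (u.map .inl) = 𝔇.wA (v.map .inl) := by
  obtain ⟨t, ht⟩ := S.gen (u.map S.xs).prod⁻¹
  have h1 : 𝔇.wA ((u ++ t).map .inl) = 𝔇.g (.e .O) := by
    apply S.relator_eO
    rw [List.map_append, List.prod_append, ht, mul_inv_cancel]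
  have h2 : 𝔇.wA ((t ++ v).map .inl) = 𝔇.g (.e .O) := by
    apply S.relator_eO
    rw [List.map_append, List.prod_append, ht, h, inv_mul_cancel]
  rw [List.map_append, Data.wA_append] at h1 h2
  calc 𝔇.wA (u.map .inl) = 𝔇.wA (u.map .inl) * 𝔇.g (.e .O) := (𝔇.wA_eO _).symm
    _ = 𝔇.wA (u.map .inl) * 𝔇.wA (t.map .inl) * 𝔇.wA (v.map .inl) := by rw [← h2, mul_assoc]
    _ = 𝔇.wA (v.map .inl) := by rw [h1, 𝔇.eO_wA]

/-- a word in `S ⊔ Y` only depends on its value in `N` -/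
theorem wA_eq (w : List 𝔇.Sg) : 𝔇.wA w = S.ν (wv S.xs w) := by
  obtain ⟨u, v, h1, h2⟩ := nuApi_split (G := G) w
  have h3 := h2 S.xs
  rw [nuApi_wv_inl, nuApi_wv_inr] at h3
  have h4 : (wv S.xs w).1 = (u.map S.xs).prod := by rw [h3]; simp [yv]
  have h5 : FreeMonoid.toList (wv S.xs w).2 = v := by rw [h3]; simp [yv]
  rw [h1]
  unfold ν nw
  rw [Data.wA_append, h5]
  congr 1
  apply S.nuApi_S
  rw [S.gw_val, h4]

theorem nu_mul (n n' : NN G) : S.ν n * S.ν n' = S.ν (n * n') := by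
  have h : S.ν n * S.ν n' = 𝔇.wA (S.nw n ++ S.nw n') := (𝔇.wA_append _ _).symm
  rw [h, S.wA_eq, nuApi_wv_append, S.nuApi_wv_nw, S.nuApi_wv_nw]

@[simp] theorem nu_one : S.ν 1 = 𝔇.g (.e .O) := by
  have h := S.wA_eq []
  rw [Data.wA_nil] at h
  exact h.symm

theorem eO_nu (n : NN G) : 𝔇.g (.e .O) * S.ν n = S.ν n := 𝔇.eO_wA _

theorem nu_eO (n : NN G) : S.ν n * 𝔇.g (.e .O) = S.ν n := 𝔇.wA_eO _

theorem yA_eq (w : List (Fin 6)) : 𝔇.yA w = S.ν (yv w) := by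
  unfold Data.yA
  rw [S.wA_eq, nuApi_wv_inr]

theorem lt_s1 (k : ℕ) : 𝔇.g .lt * 𝔇.g (.qs 1) * 𝔇.rw (List.replicate k 𝔇.a0) * 𝔇.g .kap
    = S.ν (wv S.xs (S.W k)) := by
  rw [nuApi_run (S.run1 k)]
  simp only [toOut, Data.outA]
  rw [nuApi_sgOf_map, S.wA_eq]

theorem lt_s2 (k : ℕ) : 𝔇.g .lt * 𝔇.g (.qs 2) * 𝔇.rw (List.replicate k 𝔇.a0) * 𝔇.g .kap
    = if S.V (wv S.xs (S.W k)) = true then 𝔇.g (.e .O) else 0 := by
  rw [nuApi_run (S.run2 k)]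
  split_ifs
  · simp [toOut, Data.outA]
  · simp [toOut, Data.outA]

private theorem nuApi_qs (i : Fin 3) (k : ℕ) :
    𝔇.g (.qs i) * 𝔇.rw (List.replicate k 𝔇.a0) = 𝔇.lw (List.replicate k 𝔇.a0) * 𝔇.g (.qs i) := by
  induction k with
  | zero =>
    rw [List.replicate_zero, Data.rw_nil, Data.lw_nil, 𝔇.tgt_mul (x := .qs i) rfl,
      𝔇.src_mul (x := .qs i) rfl]
  | succ k ih =>
    have e : (List.replicate (k + 1) 𝔇.a0) = List.replicate k 𝔇.a0 ++ [𝔇.a0] :=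
      List.replicate_succ'
    rw [List.replicate_succ, Data.rw_cons, ← mul_assoc, ← 𝔇.qsA_eq, mul_assoc, ih, ← mul_assoc,
      ← List.replicate_succ, e, Data.lw_append]
    congr 1
    rw [Data.lw_cons, Data.lw_nil, 𝔇.src_mul (x := .ld 𝔇.a0) rfl]

private theorem nuApi_az {x : 𝔇.Gt} (hx : 𝔇.src x = some .B)
    (h : 𝔇.g (.ld 𝔇.a0) * 𝔇.g x = 𝔇.g x * 𝔇.g .az) (k : ℕ) :
    𝔇.lw (List.replicate k 𝔇.a0) * 𝔇.g x = 𝔇.g x * 𝔇.g .az ^ k := by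
  induction k with
  | zero => rw [List.replicate_zero, Data.lw_nil, 𝔇.src_mul hx, pow_zero, mul_one]
  | succ k ih =>
    rw [List.replicate_succ, Data.lw_cons, mul_assoc, h, ← mul_assoc, ih, mul_assoc, ← pow_succ]

/-- `Ts · ν(n) · T = V(n)` -/
theorem Ts_nu_T (n : NN G) : 𝔇.g .Ts * S.ν n * 𝔇.g .T = if S.V n = true then 1 else 0 := by
  obtain ⟨k, -, hk, -⟩ := S.Wspec ∅ 0 (by simp) (S.nw n) 0
  rw [zero_add] at hk
  have hv : wv S.xs (S.W k) = n := by rw [hk, S.nuApi_wv_nw]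
  have h1 := S.lt_s1 k
  have h2 := S.lt_s2 k
  rw [hv] at h1 h2
  have e1 : 𝔇.g .lt * 𝔇.lw (List.replicate k 𝔇.a0) * 𝔇.g .sw = 𝔇.g .lt * 𝔇.g .sw * 𝔇.g .az ^ k := by
    rw [mul_assoc, nuApi_az rfl 𝔇.swA_eq, mul_assoc]
  have e2 : 𝔇.g .lt * 𝔇.lw (List.replicate k 𝔇.a0) * 𝔇.g .sV = 𝔇.g .lt * 𝔇.g .sV * 𝔇.g .az ^ k := by
    rw [mul_assoc, nuApi_az rfl 𝔇.sVA_eq, mul_assoc]
  calc 𝔇.g .Ts * S.ν n * 𝔇.g .T
      = 𝔇.g .Ts * (𝔇.g .lt * (𝔇.g (.qs 1) * 𝔇.rw (List.replicate k 𝔇.a0)) * 𝔇.g .kap) *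
          𝔇.g .T := by rw [← h1, mul_assoc (𝔇.g .lt) (𝔇.g (.qs 1))]
    _ = 𝔇.g .Ts * (𝔇.g .lt * 𝔇.lw (List.replicate k 𝔇.a0) *
          (𝔇.g (.qs 1) * 𝔇.g .kap * 𝔇.g .T)) := by rw [nuApi_qs]; simp only [mul_assoc]
    _ = 𝔇.g .Ts * (𝔇.g .lt * 𝔇.lw (List.replicate k 𝔇.a0) * 𝔇.g .sw) * 𝔇.g .ez := by
        rw [← 𝔇.swE]; simp only [mul_assoc]
    _ = (𝔇.g .Ts * 𝔇.g .T) * 𝔇.g .Ts * (𝔇.g .lt * 𝔇.g .sw * 𝔇.g .az ^ k) * 𝔇.g .ez := by
        rw [e1, 𝔇.TT, one_mul]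
    _ = 𝔇.g .Ts * ((𝔇.g .T * 𝔇.g .Ts * 𝔇.g .lt * 𝔇.g .sw) * 𝔇.g .az ^ k) * 𝔇.g .ez := by
        simp only [mul_assoc]
    _ = 𝔇.g .Ts * (𝔇.g .lt * 𝔇.lw (List.replicate k 𝔇.a0) * 𝔇.g .sV) * 𝔇.g .ez := by
        rw [← 𝔇.sVL, e2]
    _ = 𝔇.g .Ts * (𝔇.g .lt * (𝔇.lw (List.replicate k 𝔇.a0) * 𝔇.g (.qs 2)) * 𝔇.g .kap) *
          𝔇.g .T := by
        rw [mul_assoc (𝔇.g .Ts), mul_assoc _ (𝔇.g .sV) (𝔇.g .ez), 𝔇.sVE]
        simp only [mul_assoc]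
    _ = 𝔇.g .Ts * (if S.V n = true then 𝔇.g (.e .O) else 0) * 𝔇.g .T := by
        rw [← nuApi_qs, ← mul_assoc (𝔇.g .lt), h2]
    _ = if S.V n = true then 1 else 0 := by
        split_ifs
        · rw [mul_assoc, 𝔇.src_mul (x := .T) rfl, 𝔇.TT]
        · rw [mul_zero, zero_mul]

end Spec

end P193.One
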