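import Mathlib
import Vale.Agent.Lib.P193.One.NuApi
import Vale.Agent.Lib.P193.One.Sound
import Vale.Agent.Lib.P193.One.SemTotal

/-!
# P193, part I: right action of generators on rows (`step`) and its soundness in `A`
-/

namespace P193.One

open P193.Mach

/-- result of the action of a generator on a row -/
inductive Res (G : Type) (r m : ℕ)
  | zero
  | row (R : Row G r m)
  /-- `n T` -/
  | col (n : NN G)
  /-- `n T Ts R` -/
  | colrow (n : NN G) (R : Row G r m)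

namespace Spec

variable {𝔇 : Data} {G : Type} [Group G] (S : Spec 𝔇 G)

open Classical in
/-- the outcome of a configuration -/
noncomputable def ev (lc rc : Bool) (u : List 𝔇.Dt) (q : 𝔇.Qt) (v : List 𝔇.Dt) :
    Out 𝔇.Sg 𝔇.r 𝔇.m := (ev_total S.mortal lc rc u q v).choose

theorem ev_spec (lc rc : Bool) (u : List 𝔇.Dt) (q : 𝔇.Qt) (v : List 𝔇.Dt) :
    Ev 𝔇 lc rc u q v (S.ev lc rc u q v) := (ev_total S.mortal lc rc u q v).choose_spec

theorem ev_eq {lc rc : Bool} {u : List 𝔇.Dt} {q : 𝔇.Qt} {v : List 𝔇.Dt}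
    {o : Out 𝔇.Sg 𝔇.r 𝔇.m} (h : Ev 𝔇 lc rc u q v o) : S.ev lc rc u q v = o :=
  (S.ev_spec lc rc u q v).det h

/-- outcome (left closed, right open) as a row, with prefix `n` -/
noncomputable def outRow (n : NN G) : Out 𝔇.Sg 𝔇.r 𝔇.m → Res G 𝔇.r 𝔇.m
  | .stR w u q => if h : q.isR = true then .row (.C (n * wv S.xs w) u ⟨q, h⟩) else .zero
  | .stH w => .row (.H (n * wv S.xs w))
  | .dmpC w x => .row (.E (n * wv S.xs w * yv (0 :: 𝔇.codes x)))
  | _ => .zero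

/-- outcome (left closed, right closed) as a row of type O, with prefix `n` -/
noncomputable def outO (n : NN G) : Out 𝔇.Sg 𝔇.r 𝔇.m → Res G 𝔇.r 𝔇.m
  | .fin w => .row (.O (n * wv S.xs w))
  | .dmpC w x => .row (.O (n * wv S.xs w * yv (0 :: 𝔇.codes x ++ [1])))
  | _ => .zero

open Classical in
/-- the action of a generator (not `Ts`) on a row -/
noncomputable def step : 𝔇.Gt → Row G 𝔇.r 𝔇.m → Res G 𝔇.r 𝔇.m
  | .e X, R => if R.tgt = X then .row R else .zero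
  | .sg σ, .O n => .row (.O (n * lv S.xs σ))
  | .lt, .O n => .row (.B n [])
  | .kap, .C n u q => S.outO n (S.ev true true u q [])
  | .kap, .H n => .row (.O n)
  | .kap, .E n => .row (.O (n * yv [1]))
  | .ld d, .B n u => .row (.B n (d :: u))
  | .rd d, .C n u q => S.outRow n (S.ev true false u q [d])
  | .rd d, .E n => .row (.E (n * yv (𝔇.code d)))
  | .q q, .B n u => S.outRow n (S.ev true false u q [])
  | .qD, .B n u => .row (.E (n * yv (0 :: 𝔇.codes u.reverse)))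
  | .qE, .B n u => if u = [] then .row (.E n) else .zero
  | .qs i, .B n u => if u = List.replicate u.length 𝔇.a0 then .row (.C n u ⟨.st i, rfl⟩) else .zero
  | .sw, .B n u => if u = List.replicate u.length 𝔇.a0 then .row (.Z n u.length) else .zero
  | .sV, .B n u => if u = List.replicate u.length 𝔇.a0 then .colrow n (.Z 1 u.length) else .zero
  | .az, .Z n k => .row (.Z n (k + 1))
  | .ez, .Z n k => .col (n * wv S.xs (S.W k))
  | .T, .O n => .col n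
  | _, _ => .zero

/-- value in `A` -/
noncomputable def resA : Res G 𝔇.r 𝔇.m → 𝔇.A
  | .zero => 0
  | .row R => S.rowA R
  | .col n => S.ν n * 𝔇.g .T
  | .colrow n R => S.ν n * 𝔇.g .T * 𝔇.g .Ts * S.rowA R

private theorem step_Lc : 𝔇.Lc true = 𝔇.g .lt := rfl
private theorem step_Rt : 𝔇.Rc true = 𝔇.g .kap := rfl
private theorem step_Rf : 𝔇.Rc false = 1 := rfl
private theorem step_Wc (w : List 𝔇.Sg) : 𝔇.Wc true w = 𝔇.wA w := rfl

/-- value of outcomes as rows -/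
theorem outRow_sound (n : NN G) {o : Out 𝔇.Sg 𝔇.r 𝔇.m} (ho : o.ok true false) :
    S.ν n * 𝔇.outA true false o = S.resA (S.outRow n o) := by
  cases o with
  | zero =>
    show S.ν n * 0 = 0
    rw [mul_zero]
  | stR w u q =>
    obtain ⟨-, hq, -⟩ := ho
    have h1 : S.outRow n (.stR w u q) = .row (.C (n * wv S.xs w) u ⟨q, hq⟩) := by
      simp only [outRow]
      rw [dif_pos hq]
    rw [h1]
    show S.ν n * (𝔇.Wc true w * 𝔇.Lc true * 𝔇.lw u * 𝔇.g (.q q)) =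
      S.ν (n * wv S.xs w) * 𝔇.g .lt * 𝔇.lw u * 𝔇.g (.q q)
    rw [step_Lc, step_Wc, S.wA_eq, ← S.nu_mul]
    simp only [mul_assoc]
  | stL q v => exact absurd ho.1 (by simp)
  | stH w =>
    show S.ν n * (𝔇.wA w * 𝔇.g .lt * 𝔇.g (.q .H)) =
      S.ν (n * wv S.xs w) * 𝔇.g .lt * 𝔇.g (.q .H)
    rw [S.wA_eq, ← S.nu_mul]
    simp only [mul_assoc]
  | fin w => exact absurd ho.2 (by simp)
  | dmpL x => exact absurd ho (by simp [Out.ok])
  | dmpC w x =>
    show S.ν n * (𝔇.wA w * 𝔇.yA (0 :: 𝔇.codes x) * 𝔇.g .lt * 𝔇.g .qE * 𝔇.Rc false) =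
      S.ν (n * wv S.xs w * yv (0 :: 𝔇.codes x)) * 𝔇.g .lt * 𝔇.g .qE
    rw [step_Rf, mul_one, S.wA_eq, S.yA_eq, ← S.nu_mul, ← S.nu_mul]
    simp only [mul_assoc]

theorem outO_sound (n : NN G) {o : Out 𝔇.Sg 𝔇.r 𝔇.m} (ho : o.ok true true) :
    S.ν n * 𝔇.outA true true o = S.resA (S.outO n o) := by
  cases o with
  | zero =>
    show S.ν n * 0 = 0
    rw [mul_zero]
  | stR w u q => exact absurd ho.1 (by simp)
  | stL q v => exact absurd ho.1 (by simp)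
  | stH w => exact absurd ho.2 (by simp)
  | fin w =>
    show S.ν n * 𝔇.wA w = S.ν (n * wv S.xs w)
    rw [S.wA_eq, ← S.nu_mul]
  | dmpL x => exact absurd ho (by simp [Out.ok])
  | dmpC w x =>
    show S.ν n * (𝔇.wA w * 𝔇.yA (0 :: 𝔇.codes x) * 𝔇.g .lt * 𝔇.g .qE * 𝔇.g .kap) =
      S.ν (n * wv S.xs w * yv (0 :: 𝔇.codes x ++ [1]))
    have h1 : 𝔇.wA w * 𝔇.yA (0 :: 𝔇.codes x) * 𝔇.g .lt * 𝔇.g .qE * 𝔇.g .kap =
        𝔇.wA w * 𝔇.yA (0 :: 𝔇.codes x) * (𝔇.g .lt * 𝔇.g .qE * 𝔇.g .kap) := by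
      simp only [mul_assoc]
    rw [h1, 𝔇.EK', mul_assoc (𝔇.wA w), ← 𝔇.yA_append, S.wA_eq, S.yA_eq, ← S.nu_mul, ← S.nu_mul,
      mul_assoc]

/-- rows end in their target object -/
theorem rowA_tgt (R : Row G 𝔇.r 𝔇.m) : S.rowA R * 𝔇.g (.e R.tgt) = S.rowA R := by
  cases R with
  | O n => exact S.nu_eO n
  | B n u =>
    show S.ν n * 𝔇.g .lt * 𝔇.lw u * 𝔇.g (.e .B) = S.ν n * 𝔇.g .lt * 𝔇.lw u
    rw [mul_assoc _ (𝔇.lw u), 𝔇.lw_eB]
  | C n u q =>
    show S.ν n * 𝔇.g .lt * 𝔇.lw u * 𝔇.g (.q q) * 𝔇.g (.e .C) =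
      S.ν n * 𝔇.g .lt * 𝔇.lw u * 𝔇.g (.q q)
    rw [mul_assoc _ (𝔇.g (.q q)), 𝔇.tgt_mul (x := .q q) rfl]
  | H n =>
    show S.ν n * 𝔇.g .lt * 𝔇.g (.q .H) * 𝔇.g (.e .C) = S.ν n * 𝔇.g .lt * 𝔇.g (.q .H)
    rw [mul_assoc _ (𝔇.g (.q .H)), 𝔇.tgt_mul (x := .q .H) rfl]
  | E n =>
    show S.ν n * 𝔇.g .lt * 𝔇.g .qE * 𝔇.g (.e .C) = S.ν n * 𝔇.g .lt * 𝔇.g .qE
    rw [mul_assoc _ (𝔇.g .qE), 𝔇.tgt_mul (x := .qE) rfl]
  | Z n k =>
    show S.ν n * 𝔇.g .lt * 𝔇.g .sw * 𝔇.g .az ^ k * 𝔇.g (.e .Z) =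
      S.ν n * 𝔇.g .lt * 𝔇.g .sw * 𝔇.g .az ^ k
    cases k with
    | zero => rw [pow_zero, mul_one, mul_assoc _ (𝔇.g .sw), 𝔇.tgt_mul (x := .sw) rfl]
    | succ k =>
      rw [pow_succ, mul_assoc _ (𝔇.g .az ^ k * 𝔇.g .az), mul_assoc (𝔇.g .az ^ k),
        𝔇.tgt_mul (x := .az) rfl]

/-- soundness of `step`; split according to the generator -/
theorem step_e (X : Obj) (R : Row G 𝔇.r 𝔇.m) :
    S.rowA R * 𝔇.g (.e X) = S.resA (S.step (.e X) R) := by
  by_cases h : R.tgt = X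
  · have h1 : S.step (.e X) R = .row R := by
      simp only [step]
      rw [if_pos h]
    rw [h1, ← h]
    exact S.rowA_tgt R
  · have h1 : S.step (.e X) R = .zero := by
      simp only [step]
      rw [if_neg h]
    rw [h1, ← S.rowA_tgt R, mul_assoc, 𝔇.e_ne h, mul_zero]
    rfl

theorem step_mismatch {x : 𝔇.Gt} {X : Obj} (hx : 𝔇.src x = some X) {R : Row G 𝔇.r 𝔇.m}
    (hR : R.tgt ≠ X) : S.rowA R * 𝔇.g x = 0 := by
  rw [← S.rowA_tgt R, mul_assoc, 𝔇.e_mul_ne hx hR, mul_zero]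

private theorem step_lwX {X Y : 𝔇.A} (hX : 𝔇.g (.e .B) * X = X)
    (h1 : 𝔇.g (.ld 𝔇.a0) * X = X * Y) (h2 : ∀ d, d ≠ 𝔇.a0 → 𝔇.g (.ld d) * X = 0)
    (u : List 𝔇.Dt) :
    (u = List.replicate u.length 𝔇.a0 → 𝔇.lw u * X = X * Y ^ u.length) ∧
      (u ≠ List.replicate u.length 𝔇.a0 → 𝔇.lw u * X = 0) := by
  induction u with
  | nil =>
    refine ⟨fun _ => ?_, fun h => absurd rfl h⟩
    rw [𝔇.lw_nil, hX, List.length_nil, pow_zero, mul_one]
  | cons d u ih =>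
    rw [𝔇.lw_cons, List.length_cons, List.replicate_succ, mul_assoc]
    refine ⟨fun h => ?_, fun h => ?_⟩
    · rw [List.cons.injEq] at h
      rw [h.1, h1, ← mul_assoc, ih.1 h.2, mul_assoc, ← pow_succ]
    · by_cases hd : d = 𝔇.a0
      · have hu : u ≠ List.replicate u.length 𝔇.a0 := fun h' => h (by rw [hd, ← h'])
        rw [hd, h1, ← mul_assoc, ih.2 hu, zero_mul]
      · rw [h2 d hd, mul_zero]

private theorem step_rwrep (k : ℕ) : 𝔇.rw (List.replicate k 𝔇.a0) =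
    𝔇.g (.rd 𝔇.a0) ^ k * 𝔇.g (.e .C) := by
  induction k with
  | zero => rw [List.replicate_zero, 𝔇.rw_nil, pow_zero, one_mul]
  | succ k ih => rw [List.replicate_succ, 𝔇.rw_cons, ih, ← mul_assoc, ← pow_succ']

private theorem step_strep (i : Fin 3) (k : ℕ) : 𝔇.g (.q (.st i)) * 𝔇.g (.rd 𝔇.a0) ^ k =
    𝔇.lw (List.replicate k 𝔇.a0) * 𝔇.g (.q (.st i)) := by
  induction k with
  | zero =>
    rw [List.replicate_zero, 𝔇.lw_nil, pow_zero, mul_one, 𝔇.src_mul (x := .q (.st i)) rfl]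
  | succ k ih =>
    have h1 : 𝔇.g (.q (.st i)) * 𝔇.g (.rd 𝔇.a0) = 𝔇.g (.ld 𝔇.a0) * 𝔇.g (.q (.st i)) :=
      𝔇.stA_zero i (j := ⟨0, 𝔇.hr⟩) rfl
    rw [List.replicate_succ, 𝔇.lw_cons, pow_succ, ← mul_assoc, ih, mul_assoc, h1, ← mul_assoc]

theorem step_sg (σ) (R : Row G 𝔇.r 𝔇.m) :
    S.rowA R * 𝔇.g (.sg σ) = S.resA (S.step (.sg σ) R) := by
  cases R with
  | O n =>
    show S.ν n * 𝔇.g (.sg σ) = S.ν (n * lv S.xs σ)
    have h1 : 𝔇.g (.sg σ) = S.ν (lv S.xs σ) := by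
      have h2 : 𝔇.wA [σ] = 𝔇.g (.sg σ) := by
        rw [𝔇.wA_cons, 𝔇.wA_nil, 𝔇.tgt_mul (x := .sg σ) rfl]
      have h3 : wv S.xs [σ] = lv S.xs σ := by simp [wv]
      rw [← h2, S.wA_eq, h3]
    rw [h1, S.nu_mul]
  | B n u => exact S.step_mismatch (X := .O) rfl (by simp [Row.tgt])
  | C n u q => exact S.step_mismatch (X := .O) rfl (by simp [Row.tgt])
  | H n => exact S.step_mismatch (X := .O) rfl (by simp [Row.tgt])
  | E n => exact S.step_mismatch (X := .O) rfl (by simp [Row.tgt])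
  | Z n k => exact S.step_mismatch (X := .O) rfl (by simp [Row.tgt])

theorem step_lt (R : Row G 𝔇.r 𝔇.m) : S.rowA R * 𝔇.g .lt = S.resA (S.step .lt R) := by
  cases R with
  | O n =>
    show S.ν n * 𝔇.g .lt = S.ν n * 𝔇.g .lt * 𝔇.g (.e .B)
    rw [mul_assoc, 𝔇.tgt_mul (x := .lt) rfl]
  | B n u => exact S.step_mismatch (X := .O) rfl (by simp [Row.tgt])
  | C n u q => exact S.step_mismatch (X := .O) rfl (by simp [Row.tgt])
  | H n => exact S.step_mismatch (X := .O) rfl (by simp [Row.tgt])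
  | E n => exact S.step_mismatch (X := .O) rfl (by simp [Row.tgt])
  | Z n k => exact S.step_mismatch (X := .O) rfl (by simp [Row.tgt])

theorem step_kap (R : Row G 𝔇.r 𝔇.m) : S.rowA R * 𝔇.g .kap = S.resA (S.step .kap R) := by
  cases R with
  | O n => exact S.step_mismatch (X := .C) rfl (by simp [Row.tgt])
  | B n u => exact S.step_mismatch (X := .C) rfl (by simp [Row.tgt])
  | C n u q =>
    have hev := S.ev_spec true true u q.1 []
    have h1 := Data.sound hev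
    rw [step_Lc, step_Rt, 𝔇.rw_nil] at h1
    show S.ν n * 𝔇.g .lt * 𝔇.lw u * 𝔇.g (.q q) * 𝔇.g .kap =
      S.resA (S.outO n (S.ev true true u q []))
    rw [← S.outO_sound n hev.ok, ← h1]
    have h2 : 𝔇.g .lt * 𝔇.lw u * 𝔇.g (.q q) * 𝔇.g (.e .C) * 𝔇.g .kap =
        𝔇.g .lt * 𝔇.lw u * 𝔇.g (.q q) * 𝔇.g .kap := by
      rw [mul_assoc _ (𝔇.g (.e .C)), 𝔇.src_mul (x := .kap) rfl]
    rw [h2]
    simp only [mul_assoc]
  | H n =>
    show S.ν n * 𝔇.g .lt * 𝔇.g (.q .H) * 𝔇.g .kap = S.ν n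
    rw [mul_assoc (S.ν n), mul_assoc (S.ν n), 𝔇.HK, S.nu_eO]
  | E n =>
    show S.ν n * 𝔇.g .lt * 𝔇.g .qE * 𝔇.g .kap = S.ν (n * yv [1])
    rw [mul_assoc (S.ν n), mul_assoc (S.ν n), 𝔇.EK', S.yA_eq, S.nu_mul]
  | Z n k => exact S.step_mismatch (X := .C) rfl (by simp [Row.tgt])

theorem step_ld (d) (R : Row G 𝔇.r 𝔇.m) :
    S.rowA R * 𝔇.g (.ld d) = S.resA (S.step (.ld d) R) := by
  cases R with
  | O n => exact S.step_mismatch (X := .B) rfl (by simp [Row.tgt])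
  | B n u =>
    show S.ν n * 𝔇.g .lt * 𝔇.lw u * 𝔇.g (.ld d) = S.ν n * 𝔇.g .lt * (𝔇.lw u * 𝔇.g (.ld d))
    rw [mul_assoc _ (𝔇.lw u)]
  | C n u q => exact S.step_mismatch (X := .B) rfl (by simp [Row.tgt])
  | H n => exact S.step_mismatch (X := .B) rfl (by simp [Row.tgt])
  | E n => exact S.step_mismatch (X := .B) rfl (by simp [Row.tgt])
  | Z n k => exact S.step_mismatch (X := .B) rfl (by simp [Row.tgt])

theorem step_rd (d) (R : Row G 𝔇.r 𝔇.m) :
    S.rowA R * 𝔇.g (.rd d) = S.resA (S.step (.rd d) R) := by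
  cases R with
  | O n => exact S.step_mismatch (X := .C) rfl (by simp [Row.tgt])
  | B n u => exact S.step_mismatch (X := .C) rfl (by simp [Row.tgt])
  | C n u q =>
    have hev := S.ev_spec true false u q.1 [d]
    have h1 := Data.sound hev
    rw [step_Lc, step_Rf, 𝔇.rw_cons, 𝔇.rw_nil, 𝔇.tgt_mul (x := .rd d) rfl, mul_one] at h1
    show S.ν n * 𝔇.g .lt * 𝔇.lw u * 𝔇.g (.q q) * 𝔇.g (.rd d) =
      S.resA (S.outRow n (S.ev true false u q [d]))
    rw [← S.outRow_sound n hev.ok, ← h1]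
    simp only [mul_assoc]
  | H n =>
    show S.ν n * 𝔇.g .lt * 𝔇.g (.q .H) * 𝔇.g (.rd d) = 0
    rw [mul_assoc (S.ν n), mul_assoc (S.ν n), 𝔇.HD, mul_zero]
  | E n =>
    show S.ν n * 𝔇.g .lt * 𝔇.g .qE * 𝔇.g (.rd d) =
      S.ν (n * yv (𝔇.code d)) * 𝔇.g .lt * 𝔇.g .qE
    rw [mul_assoc (S.ν n), mul_assoc (S.ν n), 𝔇.EL, S.yA_eq, ← S.nu_mul]
    simp only [mul_assoc]
  | Z n k => exact S.step_mismatch (X := .C) rfl (by simp [Row.tgt])

theorem step_q (q) (R : Row G 𝔇.r 𝔇.m) :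
    S.rowA R * 𝔇.g (.q q) = S.resA (S.step (.q q) R) := by
  cases R with
  | O n => exact S.step_mismatch (X := .B) rfl (by simp [Row.tgt])
  | B n u =>
    have hev := S.ev_spec true false u q []
    have h1 := Data.sound hev
    rw [step_Lc, step_Rf, 𝔇.rw_nil, mul_one, mul_assoc _ (𝔇.g (.q q)),
      𝔇.tgt_mul (x := .q q) rfl] at h1
    show S.ν n * 𝔇.g .lt * 𝔇.lw u * 𝔇.g (.q q) = S.resA (S.outRow n (S.ev true false u q []))
    rw [← S.outRow_sound n hev.ok, ← h1]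
    simp only [mul_assoc]
  | C n u q => exact S.step_mismatch (X := .B) rfl (by simp [Row.tgt])
  | H n => exact S.step_mismatch (X := .B) rfl (by simp [Row.tgt])
  | E n => exact S.step_mismatch (X := .B) rfl (by simp [Row.tgt])
  | Z n k => exact S.step_mismatch (X := .B) rfl (by simp [Row.tgt])

theorem step_qD (R : Row G 𝔇.r 𝔇.m) : S.rowA R * 𝔇.g .qD = S.resA (S.step .qD R) := by
  cases R with
  | O n => exact S.step_mismatch (X := .B) rfl (by simp [Row.tgt])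
  | B n u =>
    show S.ν n * 𝔇.g .lt * 𝔇.lw u * 𝔇.g .qD =
      S.ν (n * yv (0 :: 𝔇.codes u.reverse)) * 𝔇.g .lt * 𝔇.g .qE
    rw [mul_assoc _ (𝔇.lw u), 𝔇.lw_qD, ← mul_assoc, mul_assoc (S.ν n), mul_assoc (S.ν n),
      𝔇.lt_qD_rw, S.yA_eq, ← S.nu_mul]
    simp only [mul_assoc]
  | C n u q => exact S.step_mismatch (X := .B) rfl (by simp [Row.tgt])
  | H n => exact S.step_mismatch (X := .B) rfl (by simp [Row.tgt])
  | E n => exact S.step_mismatch (X := .B) rfl (by simp [Row.tgt])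
  | Z n k => exact S.step_mismatch (X := .B) rfl (by simp [Row.tgt])

theorem step_qE (R : Row G 𝔇.r 𝔇.m) : S.rowA R * 𝔇.g .qE = S.resA (S.step .qE R) := by
  cases R with
  | O n => exact S.step_mismatch (X := .B) rfl (by simp [Row.tgt])
  | B n u =>
    cases u with
    | nil =>
      have h1 : S.step .qE (.B n []) = .row (.E n) := by
        simp only [step, if_true]
      rw [h1]
      show S.ν n * 𝔇.g .lt * 𝔇.g (.e .B) * 𝔇.g .qE = S.ν n * 𝔇.g .lt * 𝔇.g .qE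
      rw [mul_assoc _ (𝔇.g (.e .B)), 𝔇.src_mul (x := .qE) rfl]
    | cons d u =>
      have h1 : S.step .qE (.B n (d :: u)) = .zero := by
        simp only [step]
        rw [if_neg (by simp)]
      rw [h1]
      show S.ν n * 𝔇.g .lt * (𝔇.lw u * 𝔇.g (.ld d)) * 𝔇.g .qE = 0
      rw [mul_assoc _ (𝔇.lw u * 𝔇.g (.ld d)), mul_assoc (𝔇.lw u), 𝔇.EA, mul_zero, mul_zero]
  | C n u q => exact S.step_mismatch (X := .B) rfl (by simp [Row.tgt])
  | H n => exact S.step_mismatch (X := .B) rfl (by simp [Row.tgt])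
  | E n => exact S.step_mismatch (X := .B) rfl (by simp [Row.tgt])
  | Z n k => exact S.step_mismatch (X := .B) rfl (by simp [Row.tgt])

theorem step_qs (i) (R : Row G 𝔇.r 𝔇.m) :
    S.rowA R * 𝔇.g (.qs i) = S.resA (S.step (.qs i) R) := by
  cases R with
  | O n => exact S.step_mismatch (X := .B) rfl (by simp [Row.tgt])
  | B n u =>
    have hlw := step_lwX (𝔇 := 𝔇) (𝔇.src_mul (x := .qs i) rfl) (𝔇.qsA_eq i)
      (fun d hd => 𝔇.qsA_ne i hd) u
    by_cases hu : u = List.replicate u.length 𝔇.a0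
    · have h1 : S.step (.qs i) (.B n u) = .row (.C n u ⟨.st i, rfl⟩) := by
        simp only [step]
        rw [if_pos hu]
      rw [h1]
      show S.ν n * 𝔇.g .lt * 𝔇.lw u * 𝔇.g (.qs i) = S.ν n * 𝔇.g .lt * 𝔇.lw u * 𝔇.g (.q (.st i))
      have h2 : 𝔇.lw u * 𝔇.g (.q (.st i)) = 𝔇.g (.q (.st i)) * 𝔇.g (.rd 𝔇.a0) ^ u.length := by
        rw [step_strep, ← hu]
      rw [mul_assoc _ (𝔇.lw u), hlw.1 hu, mul_assoc _ (𝔇.lw u), h2, ← mul_assoc, ← mul_assoc,
        mul_assoc (S.ν n), 𝔇.qsL, ← mul_assoc]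
    · have h1 : S.step (.qs i) (.B n u) = .zero := by
        simp only [step]
        rw [if_neg hu]
      rw [h1]
      show S.ν n * 𝔇.g .lt * 𝔇.lw u * 𝔇.g (.qs i) = 0
      rw [mul_assoc _ (𝔇.lw u), hlw.2 hu, mul_zero]
  | C n u q => exact S.step_mismatch (X := .B) rfl (by simp [Row.tgt])
  | H n => exact S.step_mismatch (X := .B) rfl (by simp [Row.tgt])
  | E n => exact S.step_mismatch (X := .B) rfl (by simp [Row.tgt])
  | Z n k => exact S.step_mismatch (X := .B) rfl (by simp [Row.tgt])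

theorem step_sw (R : Row G 𝔇.r 𝔇.m) : S.rowA R * 𝔇.g .sw = S.resA (S.step .sw R) := by
  cases R with
  | O n => exact S.step_mismatch (X := .B) rfl (by simp [Row.tgt])
  | B n u =>
    have hlw := step_lwX (𝔇 := 𝔇) (𝔇.src_mul (x := .sw) rfl) 𝔇.swA_eq
      (fun d hd => 𝔇.swA_ne hd) u
    by_cases hu : u = List.replicate u.length 𝔇.a0
    · have h1 : S.step .sw (.B n u) = .row (.Z n u.length) := by
        simp only [step]
        rw [if_pos hu]
      rw [h1]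
      show S.ν n * 𝔇.g .lt * 𝔇.lw u * 𝔇.g .sw = S.ν n * 𝔇.g .lt * 𝔇.g .sw * 𝔇.g .az ^ u.length
      rw [mul_assoc _ (𝔇.lw u), hlw.1 hu, ← mul_assoc]
    · have h1 : S.step .sw (.B n u) = .zero := by
        simp only [step]
        rw [if_neg hu]
      rw [h1]
      show S.ν n * 𝔇.g .lt * 𝔇.lw u * 𝔇.g .sw = 0
      rw [mul_assoc _ (𝔇.lw u), hlw.2 hu, mul_zero]
  | C n u q => exact S.step_mismatch (X := .B) rfl (by simp [Row.tgt])
  | H n => exact S.step_mismatch (X := .B) rfl (by simp [Row.tgt])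
  | E n => exact S.step_mismatch (X := .B) rfl (by simp [Row.tgt])
  | Z n k => exact S.step_mismatch (X := .B) rfl (by simp [Row.tgt])

theorem step_sV (R : Row G 𝔇.r 𝔇.m) : S.rowA R * 𝔇.g .sV = S.resA (S.step .sV R) := by
  cases R with
  | O n => exact S.step_mismatch (X := .B) rfl (by simp [Row.tgt])
  | B n u =>
    have hlw := step_lwX (𝔇 := 𝔇) (𝔇.src_mul (x := .sV) rfl) 𝔇.sVA_eq
      (fun d hd => 𝔇.sVA_ne hd) u
    by_cases hu : u = List.replicate u.length 𝔇.a0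
    · have h1 : S.step .sV (.B n u) = .colrow n (.Z 1 u.length) := by
        simp only [step]
        rw [if_pos hu]
      rw [h1]
      show S.ν n * 𝔇.g .lt * 𝔇.lw u * 𝔇.g .sV =
        S.ν n * 𝔇.g .T * 𝔇.g .Ts * (S.ν 1 * 𝔇.g .lt * 𝔇.g .sw * 𝔇.g .az ^ u.length)
      rw [mul_assoc _ (𝔇.lw u), hlw.1 hu, ← mul_assoc, mul_assoc (S.ν n), 𝔇.sVL, S.nu_one,
        𝔇.src_mul (x := .lt) rfl]
      simp only [mul_assoc]
    · have h1 : S.step .sV (.B n u) = .zero := by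
        simp only [step]
        rw [if_neg hu]
      rw [h1]
      show S.ν n * 𝔇.g .lt * 𝔇.lw u * 𝔇.g .sV = 0
      rw [mul_assoc _ (𝔇.lw u), hlw.2 hu, mul_zero]
  | C n u q => exact S.step_mismatch (X := .B) rfl (by simp [Row.tgt])
  | H n => exact S.step_mismatch (X := .B) rfl (by simp [Row.tgt])
  | E n => exact S.step_mismatch (X := .B) rfl (by simp [Row.tgt])
  | Z n k => exact S.step_mismatch (X := .B) rfl (by simp [Row.tgt])

theorem step_az (R : Row G 𝔇.r 𝔇.m) : S.rowA R * 𝔇.g .az = S.resA (S.step .az R) := by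
  cases R with
  | O n => exact S.step_mismatch (X := .Z) rfl (by simp [Row.tgt])
  | B n u => exact S.step_mismatch (X := .Z) rfl (by simp [Row.tgt])
  | C n u q => exact S.step_mismatch (X := .Z) rfl (by simp [Row.tgt])
  | H n => exact S.step_mismatch (X := .Z) rfl (by simp [Row.tgt])
  | E n => exact S.step_mismatch (X := .Z) rfl (by simp [Row.tgt])
  | Z n k =>
    show S.ν n * 𝔇.g .lt * 𝔇.g .sw * 𝔇.g .az ^ k * 𝔇.g .az =
      S.ν n * 𝔇.g .lt * 𝔇.g .sw * 𝔇.g .az ^ (k + 1)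
    rw [pow_succ, ← mul_assoc]

theorem step_ez (R : Row G 𝔇.r 𝔇.m) : S.rowA R * 𝔇.g .ez = S.resA (S.step .ez R) := by
  cases R with
  | O n => exact S.step_mismatch (X := .Z) rfl (by simp [Row.tgt])
  | B n u => exact S.step_mismatch (X := .Z) rfl (by simp [Row.tgt])
  | C n u q => exact S.step_mismatch (X := .Z) rfl (by simp [Row.tgt])
  | H n => exact S.step_mismatch (X := .Z) rfl (by simp [Row.tgt])
  | E n => exact S.step_mismatch (X := .Z) rfl (by simp [Row.tgt])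
  | Z n k =>
    show S.ν n * 𝔇.g .lt * 𝔇.g .sw * 𝔇.g .az ^ k * 𝔇.g .ez =
      S.ν (n * wv S.xs (S.W k)) * 𝔇.g .T
    have hrep : List.replicate k 𝔇.a0 =
        List.replicate (List.replicate k 𝔇.a0).length 𝔇.a0 := by
      rw [List.length_replicate]
    have h1 := (step_lwX (𝔇 := 𝔇) (𝔇.src_mul (x := .sw) rfl) 𝔇.swA_eq
      (fun d hd => 𝔇.swA_ne hd) (List.replicate k 𝔇.a0)).1 hrep
    have h2 := (step_lwX (𝔇 := 𝔇) (𝔇.src_mul (x := .qs 1) rfl) (𝔇.qsA_eq 1)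
      (fun d hd => 𝔇.qsA_ne 1 hd) (List.replicate k 𝔇.a0)).1 hrep
    rw [List.length_replicate] at h1 h2
    have h3 : 𝔇.rw (List.replicate k 𝔇.a0) * 𝔇.g .kap = 𝔇.g (.rd 𝔇.a0) ^ k * 𝔇.g .kap := by
      rw [step_rwrep, mul_assoc, 𝔇.src_mul (x := .kap) rfl]
    have h4 : 𝔇.g .lt * 𝔇.g .sw * 𝔇.g .az ^ k * 𝔇.g .ez =
        𝔇.g .lt * 𝔇.g (.qs 1) * 𝔇.rw (List.replicate k 𝔇.a0) * 𝔇.g .kap * 𝔇.g .T := by
      calc 𝔇.g .lt * 𝔇.g .sw * 𝔇.g .az ^ k * 𝔇.g .ez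
          = 𝔇.g .lt * (𝔇.g .sw * 𝔇.g .az ^ k) * 𝔇.g .ez := by simp only [mul_assoc]
        _ = 𝔇.g .lt * 𝔇.lw (List.replicate k 𝔇.a0) * (𝔇.g .sw * 𝔇.g .ez) := by
            rw [← h1]
            simp only [mul_assoc]
        _ = 𝔇.g .lt * (𝔇.lw (List.replicate k 𝔇.a0) * 𝔇.g (.qs 1)) * 𝔇.g .kap * 𝔇.g .T := by
            rw [𝔇.swE]
            simp only [mul_assoc]
        _ = 𝔇.g .lt * 𝔇.g (.qs 1) * (𝔇.g (.rd 𝔇.a0) ^ k * 𝔇.g .kap) * 𝔇.g .T := by
            rw [h2]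
            simp only [mul_assoc]
        _ = 𝔇.g .lt * 𝔇.g (.qs 1) * 𝔇.rw (List.replicate k 𝔇.a0) * 𝔇.g .kap * 𝔇.g .T := by
            rw [← h3]
            simp only [mul_assoc]
    calc S.ν n * 𝔇.g .lt * 𝔇.g .sw * 𝔇.g .az ^ k * 𝔇.g .ez
        = S.ν n * (𝔇.g .lt * 𝔇.g .sw * 𝔇.g .az ^ k * 𝔇.g .ez) := by simp only [mul_assoc]
      _ = S.ν n * (S.ν (wv S.xs (S.W k)) * 𝔇.g .T) := by rw [h4, S.lt_s1]
      _ = S.ν (n * wv S.xs (S.W k)) * 𝔇.g .T := by rw [← mul_assoc, S.nu_mul]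

theorem step_T (R : Row G 𝔇.r 𝔇.m) : S.rowA R * 𝔇.g .T = S.resA (S.step .T R) := by
  cases R with
  | O n => rfl
  | B n u => exact S.step_mismatch (X := .O) rfl (by simp [Row.tgt])
  | C n u q => exact S.step_mismatch (X := .O) rfl (by simp [Row.tgt])
  | H n => exact S.step_mismatch (X := .O) rfl (by simp [Row.tgt])
  | E n => exact S.step_mismatch (X := .O) rfl (by simp [Row.tgt])
  | Z n k => exact S.step_mismatch (X := .O) rfl (by simp [Row.tgt])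

/-- soundness of `step` -/
theorem step_sound (x : 𝔇.Gt) (hx : x ≠ .Ts) (R : Row G 𝔇.r 𝔇.m) :
    S.rowA R * 𝔇.g x = S.resA (S.step x R) := by
  cases x with
  | e X => exact S.step_e X R
  | sg σ => exact S.step_sg σ R
  | lt => exact S.step_lt R
  | kap => exact S.step_kap R
  | ld d => exact S.step_ld d R
  | rd d => exact S.step_rd d R
  | q q => exact S.step_q q R
  | qD => exact S.step_qD R
  | qE => exact S.step_qE R
  | qs i => exact S.step_qs i R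
  | sw => exact S.step_sw R
  | sV => exact S.step_sV R
  | az => exact S.step_az R
  | ez => exact S.step_ez R
  | T => exact S.step_T R
  | Ts => exact absurd rfl hx

end Spec

end P193.One
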