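import Mathlib
import Vale.Agent.Lib.P193.One.Step
import Vale.Agent.Lib.P193.One.SemApp

/-!
# P193, part I: the model, A: continuation lemmas for `step`
-/

namespace P193.One

open P193.Mach

namespace Spec

variable {𝔇 : Data} {G : Type} [Group G] (S : Spec 𝔇 G)

/-- action of a generator on a result which is a row -/
noncomputable def resStep (x : 𝔇.Gt) : Res G 𝔇.r 𝔇.m → Res G 𝔇.r 𝔇.m
  | .row R => S.step x R
  | _ => .zero

theorem wv_append (w w' : List 𝔇.Sg) : wv S.xs (w ++ w') = wv S.xs w * wv S.xs w' := by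
  simp [wv]

theorem yv_append (w w' : List (Fin 6)) :
    (yv (w ++ w') : NN G) = yv w * yv w' := by
  simp [yv]

private theorem ModelA_wv_cons (σ : 𝔇.Sg) (w : List 𝔇.Sg) :
    wv S.xs (σ :: w) = lv S.xs σ * wv S.xs w := by
  simp [wv]

private theorem ModelA_wv_nil : wv S.xs ([] : List 𝔇.Sg) = 1 := by
  simp [wv]

private theorem ModelA_outRow_cons (n : NN G) (σ : 𝔇.Sg) (o : Out 𝔇.Sg 𝔇.r 𝔇.m) :
    S.outRow n (o.cons σ) = S.outRow (n * lv S.xs σ) o := by
  cases o <;> simp [Out.cons, outRow, ModelA_wv_cons, mul_assoc]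

private theorem ModelA_outO_cons (n : NN G) (σ : 𝔇.Sg) (o : Out 𝔇.Sg 𝔇.r 𝔇.m) :
    S.outO n (o.cons σ) = S.outO (n * lv S.xs σ) o := by
  cases o <;> simp [Out.cons, outO, ModelA_wv_cons, mul_assoc]

theorem outRow_app (n : NN G) (w : List 𝔇.Sg) (o : Out 𝔇.Sg 𝔇.r 𝔇.m) :
    S.outRow n (o.app w) = S.outRow (n * wv S.xs w) o := by
  induction w generalizing n with
  | nil => rw [Out.app_nil, ModelA_wv_nil, mul_one]
  | cons σ w ih => rw [Out.app_cons, ModelA_outRow_cons, ih, ModelA_wv_cons, mul_assoc]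

theorem outO_app (n : NN G) (w : List 𝔇.Sg) (o : Out 𝔇.Sg 𝔇.r 𝔇.m) :
    S.outO n (o.app w) = S.outO (n * wv S.xs w) o := by
  induction w generalizing n with
  | nil => rw [Out.app_nil, ModelA_wv_nil, mul_one]
  | cons σ w ih => rw [Out.app_cons, ModelA_outO_cons, ih, ModelA_wv_cons, mul_assoc]

private theorem ModelA_codes_snoc (x : List 𝔇.Dt) (d : 𝔇.Dt) :
    𝔇.codes (x ++ [d]) = 𝔇.codes x ++ 𝔇.code d := by
  simp [Data.codes]

/-- appending a right letter -/
theorem cont_rd (n : NN G) (u : List 𝔇.Dt) (q : 𝔇.Qt) (v : List 𝔇.Dt) (d : 𝔇.Dt) :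
    S.resStep (.rd d) (S.outRow n (S.ev true false u q v))
      = S.outRow n (S.ev true false u q (v ++ [d])) := by
  have hev := S.ev_spec true false u q v
  have hok := hev.ok
  have hc := hev.cont false [d]
  revert hok hc
  generalize S.ev true false u q v = o
  intro hok hc
  cases o with
  | zero =>
    have h1 : S.ev true false u q (v ++ [d]) = .zero := S.ev_eq hc
    rw [h1]
    rfl
  | stR w u' q' =>
    obtain ⟨-, hq, -⟩ := hok
    have h1 : S.ev true false u q (v ++ [d]) = (S.ev true false u' q' [d]).app w :=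
      S.ev_eq (hc _ (S.ev_spec true false u' q' [d]))
    rw [h1, outRow_app]
    have h2 : S.outRow n (.stR w u' q') = .row (.C (n * wv S.xs w) u' ⟨q', hq⟩) := by
      simp [outRow, hq]
    rw [h2]
    rfl
  | stL q' v' => exact absurd hok.1 (by decide)
  | stH w =>
    have h1 : S.ev true false u q (v ++ [d]) = .zero := by
      have h2 := S.ev_eq hc
      rw [h2, if_neg (by simp)]
    rw [h1]
    rfl
  | fin w => exact absurd hok.2 (by decide)
  | dmpL x => exact absurd hok (by simp [Out.ok])
  | dmpC w x =>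
    have h1 : S.ev true false u q (v ++ [d]) = .dmpC w (x ++ [d]) := S.ev_eq hc
    rw [h1]
    show Res.row (.E (n * wv S.xs w * yv (0 :: 𝔇.codes x) * yv (𝔇.code d)))
      = Res.row (.E (n * wv S.xs w * yv (0 :: 𝔇.codes (x ++ [d]))))
    rw [ModelA_codes_snoc, ← List.cons_append, yv_append, mul_assoc (n * wv S.xs w)]

/-- closing the right end -/
theorem cont_kap (n : NN G) (u : List 𝔇.Dt) (q : 𝔇.Qt) (v : List 𝔇.Dt) :
    S.resStep .kap (S.outRow n (S.ev true false u q v))
      = S.outO n (S.ev true true u q v) := by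
  have hev := S.ev_spec true false u q v
  have hok := hev.ok
  have hc := hev.cont true []
  revert hok hc
  generalize S.ev true false u q v = o
  intro hok hc
  cases o with
  | zero =>
    have h1 : S.ev true true u q v = .zero := S.ev_eq (by simpa [Cont] using hc)
    rw [h1]
    rfl
  | stR w u' q' =>
    obtain ⟨-, hq, -⟩ := hok
    have h1 : S.ev true true u q v = (S.ev true true u' q' []).app w :=
      S.ev_eq (by simpa using hc _ (S.ev_spec true true u' q' []))
    rw [h1, outO_app]
    have h2 : S.outRow n (.stR w u' q') = .row (.C (n * wv S.xs w) u' ⟨q', hq⟩) := by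
      simp [outRow, hq]
    rw [h2]
    rfl
  | stL q' v' => exact absurd hok.1 (by decide)
  | stH w =>
    have h1 : S.ev true true u q v = .fin w := S.ev_eq (by simpa [Cont] using hc)
    rw [h1]
    rfl
  | fin w => exact absurd hok.2 (by decide)
  | dmpL x => exact absurd hok (by simp [Out.ok])
  | dmpC w x =>
    have h1 : S.ev true true u q v = .dmpC w x := S.ev_eq (by simpa [Cont] using hc)
    rw [h1]
    show Res.row (.O (n * wv S.xs w * yv (0 :: 𝔇.codes x) * yv [1]))
      = Res.row (.O (n * wv S.xs w * yv (0 :: 𝔇.codes x ++ [1])))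
    rw [yv_append, mul_assoc (n * wv S.xs w)]

theorem ev_right (lc : Bool) (u : List 𝔇.Dt) {q : 𝔇.Qt} (hq : q.isR = true) :
    S.ev lc false u q [] = .stR [] u q := S.ev_eq (.openR hq rfl)

end Spec

end P193.One
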