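import Mathlib
import Vale.Agent.Lib.P193.One.ModelA

/-!
# P193, part I: the model, B: action on sequences of rows, representation of the free algebra
-/

namespace P193.One

open P193.Mach

/-- basis of the model: a row and a sequence of rows -/
abbrev Sq (G : Type) (r m : ℕ) : Type := Row G r m × (ℕ → Row G r m)

namespace Spec

variable {𝔇 : Data} {G : Type} [Group G] (S : Spec 𝔇 G)

/-- from the action on rows to the action on sequences -/
noncomputable def lift (t : ℕ → Row G 𝔇.r 𝔇.m) : Res G 𝔇.r 𝔇.m → Option (Sq G 𝔇.r 𝔇.m)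
  | .zero => none
  | .row R => some (R, t)
  | .col n => if S.V n = true then some (t 0, fun k => t (k + 1)) else none
  | .colrow n R => if S.V n = true then some (R, t) else none

/-- right action (partial map) of a generator on sequences -/
noncomputable def act (x : 𝔇.Gt) (s : Sq G 𝔇.r 𝔇.m) : Option (Sq G 𝔇.r 𝔇.m) :=
  if x = .Ts then some (.O 1, fun k => Nat.casesOn k s.1 s.2) else S.lift s.2 (S.step x s.1)

/-- evaluation -/
def ap (o : Option (Sq G 𝔇.r 𝔇.m)) (f : Sq G 𝔇.r 𝔇.m → ZMod 2) : ZMod 2 := o.elim 0 f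

/-- operator of a generator -/
noncomputable def op (x : 𝔇.Gt) : Module.End (ZMod 2) (Sq G 𝔇.r 𝔇.m → ZMod 2) where
  toFun f := fun s => ap (S.act x s) f
  map_add' f f' := by
    funext s
    show ap (S.act x s) (f + f') = ap (S.act x s) f + ap (S.act x s) f'
    generalize S.act x s = o
    cases o <;> simp [ap]
  map_smul' a f := by
    funext s
    show ap (S.act x s) (a • f) = a • ap (S.act x s) f
    generalize S.act x s = o
    cases o <;> simp [ap]

/-- representation of the free algebra -/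
noncomputable def rep : 𝔇.FA →ₐ[ZMod 2] Module.End (ZMod 2) (Sq G 𝔇.r 𝔇.m → ZMod 2) :=
  FreeAlgebra.lift (ZMod 2) S.op

theorem rep_g (x : 𝔇.Gt) (f : Sq G 𝔇.r 𝔇.m → ZMod 2) (s : Sq G 𝔇.r 𝔇.m) :
    S.rep (𝔇.γ x) f s = ap (S.act x s) f := by
  simp [rep, op]

theorem rep_gg (x y : 𝔇.Gt) (f : Sq G 𝔇.r 𝔇.m → ZMod 2) (s : Sq G 𝔇.r 𝔇.m) :
    S.rep (𝔇.γ x * 𝔇.γ y) f s = ap ((S.act x s).bind (S.act y)) f := by
  rw [map_mul, Module.End.mul_apply, rep_g]
  cases h : S.act x s with
  | none => simp [ap]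
  | some s' => simp only [ap, Option.elim_some, Option.bind_some]; exact S.rep_g _ _ _

theorem rep_ggg (x y z : 𝔇.Gt) (f : Sq G 𝔇.r 𝔇.m → ZMod 2) (s : Sq G 𝔇.r 𝔇.m) :
    S.rep (𝔇.γ x * 𝔇.γ y * 𝔇.γ z) f s
      = ap (((S.act x s).bind (S.act y)).bind (S.act z)) f := by
  rw [map_mul, Module.End.mul_apply, rep_gg]
  cases h : (S.act x s).bind (S.act y) with
  | none => simp [ap]
  | some s' => simp only [ap, Option.elim_some, Option.bind_some]; exact S.rep_g _ _ _

theorem rep_gggg (w x y z : 𝔇.Gt) (f : Sq G 𝔇.r 𝔇.m → ZMod 2) (s : Sq G 𝔇.r 𝔇.m) :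
    S.rep (𝔇.γ w * 𝔇.γ x * 𝔇.γ y * 𝔇.γ z) f s
      = ap ((((S.act w s).bind (S.act x)).bind (S.act y)).bind (S.act z)) f := by
  rw [map_mul, Module.End.mul_apply, rep_ggg]
  cases h : ((S.act w s).bind (S.act x)).bind (S.act y) with
  | none => simp [ap]
  | some s' => simp only [ap, Option.elim_some, Option.bind_some]; exact S.rep_g _ _ _

/-- value of a relation on both sides -/
def Good (i : Data.RI 𝔇.c 𝔇.r 𝔇.m) : Prop := S.rep (𝔇.relOf i).1 = S.rep (𝔇.relOf i).2

end Spec

end P193.One
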