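import Mathlib
import Vale.Agent.Lib.P193.One.ModelB

/-!
# P193, part I: the model, C1: relations hold in the model

Method: `S.Good i` unfolds to an equality of endomorphisms; `ext`/`funext` to a function `f` and a
sequence `s = (R, t)`, rewrite with `rep_g`, `rep_gg`, `rep_ggg`, and do cases on the row `R`; then
both sides are computed by `act`, `lift`, `step` (use `S.ev_eq` to evaluate runs, `cont_rd`,
`cont_kap` for continued runs).
-/

namespace P193.One

open P193.Mach

namespace Spec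

variable {𝔇 : Data} {G : Type} [Group G] (S : Spec 𝔇 G)

private theorem C1_act {x : 𝔇.Gt} (hx : x ≠ .Ts) (R : Row G 𝔇.r 𝔇.m) (t : ℕ → Row G 𝔇.r 𝔇.m) :
    S.act x (R, t) = S.lift t (S.step x R) := by
  unfold act
  rw [if_neg hx]

private theorem C1_actTs (R : Row G 𝔇.r 𝔇.m) (t : ℕ → Row G 𝔇.r 𝔇.m) :
    S.act .Ts (R, t) = some (.O 1, fun k => Nat.casesOn k R t) := by
  unfold act
  rw [if_pos rfl]

private theorem C1_e_pos {X : Obj} {R : Row G 𝔇.r 𝔇.m} (h : R.tgt = X) :
    S.step (.e X) R = .row R := by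
  cases R <;> exact if_pos h

private theorem C1_e_neg {X : Obj} {R : Row G 𝔇.r 𝔇.m} (h : R.tgt ≠ X) :
    S.step (.e X) R = .zero := by
  cases R <;> exact if_neg h

private theorem C1_acte_pos {X : Obj} {R : Row G 𝔇.r 𝔇.m} (h : R.tgt = X)
    (t : ℕ → Row G 𝔇.r 𝔇.m) : S.act (.e X) (R, t) = some (R, t) := by
  rw [C1_act S (by simp), C1_e_pos S h]
  rfl

private theorem C1_acte_neg {X : Obj} {R : Row G 𝔇.r 𝔇.m} (h : R.tgt ≠ X)
    (t : ℕ → Row G 𝔇.r 𝔇.m) : S.act (.e X) (R, t) = none := by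
  rw [C1_act S (by simp), C1_e_neg S h]
  rfl

private theorem C1_gg_gg {x y x' y' : 𝔇.Gt}
    (h : ∀ R t, (S.act x (R, t)).bind (S.act y) = (S.act x' (R, t)).bind (S.act y')) :
    S.rep (𝔇.γ x * 𝔇.γ y) = S.rep (𝔇.γ x' * 𝔇.γ y') := by
  refine LinearMap.ext fun f => funext fun s => ?_
  rw [rep_gg, rep_gg]
  exact congrArg (fun o => ap o f) (h s.1 s.2)

private theorem C1_gg_g {x y x' : 𝔇.Gt}
    (h : ∀ R t, (S.act x (R, t)).bind (S.act y) = S.act x' (R, t)) :
    S.rep (𝔇.γ x * 𝔇.γ y) = S.rep (𝔇.γ x') := by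
  refine LinearMap.ext fun f => funext fun s => ?_
  rw [rep_gg, rep_g]
  exact congrArg (fun o => ap o f) (h s.1 s.2)

private theorem C1_gg_zero {x y : 𝔇.Gt}
    (h : ∀ R t, (S.act x (R, t)).bind (S.act y) = none) :
    S.rep (𝔇.γ x * 𝔇.γ y) = S.rep 0 := by
  refine LinearMap.ext fun f => funext fun s => ?_
  rw [rep_gg, show (S.act x s).bind (S.act y) = none from h s.1 s.2, map_zero]
  rfl

theorem good_idem (X Y) : S.Good (.idem X Y) := by
  unfold Good
  show S.rep (𝔇.γ (.e X) * 𝔇.γ (.e Y)) = S.rep (if X = Y then 𝔇.γ (.e X) else 0)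
  by_cases hXY : X = Y
  · rw [if_pos hXY]
    refine C1_gg_g S fun R t => ?_
    by_cases h : R.tgt = X
    · rw [C1_acte_pos S h]
      exact C1_acte_pos S (h.trans hXY) t
    · rw [C1_acte_neg S h]
      rfl
  · rw [if_neg hXY]
    refine C1_gg_zero S fun R t => ?_
    by_cases h : R.tgt = X
    · rw [C1_acte_pos S h]
      exact C1_acte_neg S (fun h' => hXY (h.symm.trans h')) t
    · rw [C1_acte_neg S h]
      rfl

theorem good_sum1 : S.Good (.sum1) := by
  unfold Good
  show S.rep (𝔇.γ (.e .O) + 𝔇.γ (.e .B) + 𝔇.γ (.e .C) + 𝔇.γ (.e .Z)) = S.rep 1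
  refine LinearMap.ext fun f => funext fun s => ?_
  obtain ⟨R, t⟩ := s
  rw [map_add, map_add, map_add, map_one]
  show S.rep (𝔇.γ (.e .O)) f (R, t) + S.rep (𝔇.γ (.e .B)) f (R, t) +
    S.rep (𝔇.γ (.e .C)) f (R, t) + S.rep (𝔇.γ (.e .Z)) f (R, t) = f (R, t)
  rw [rep_g, rep_g, rep_g, rep_g]
  rcases h : R.tgt with _ | _ | _ | _
  all_goals
    first
      | (rw [C1_acte_pos S (X := .O) h, C1_acte_neg S (X := .B) (by rw [h]; decide),
          C1_acte_neg S (X := .C) (by rw [h]; decide), C1_acte_neg S (X := .Z) (by rw [h]; decide)]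
         simp [ap])
      | (rw [C1_acte_neg S (X := .O) (by rw [h]; decide), C1_acte_pos S (X := .B) h,
          C1_acte_neg S (X := .C) (by rw [h]; decide), C1_acte_neg S (X := .Z) (by rw [h]; decide)]
         simp [ap])
      | (rw [C1_acte_neg S (X := .O) (by rw [h]; decide), C1_acte_neg S (X := .B) (by rw [h]; decide),
          C1_acte_pos S (X := .C) h, C1_acte_neg S (X := .Z) (by rw [h]; decide)]
         simp [ap])
      | (rw [C1_acte_neg S (X := .O) (by rw [h]; decide), C1_acte_neg S (X := .B) (by rw [h]; decide),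
          C1_acte_neg S (X := .C) (by rw [h]; decide), C1_acte_pos S (X := .Z) h]
         simp [ap])

/-- a generator with a source object vanishes on rows with another target -/
private theorem C1_src_ne {x : 𝔇.Gt} {X : Obj} (hx : 𝔇.src x = some X) {R : Row G 𝔇.r 𝔇.m}
    (hR : R.tgt ≠ X) (t : ℕ → Row G 𝔇.r 𝔇.m) : S.act x (R, t) = none := by
  have hTs : x ≠ .Ts := by rintro rfl; simp [Data.src] at hx
  rw [C1_act S hTs]
  cases x <;> simp only [Data.src, Option.some.injEq, reduceCtorEq] at hx <;> subst hx <;>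
    cases R <;> first | rfl | exact absurd rfl hR

theorem good_src (x) : S.Good (.src x) := by
  unfold Good
  show S.rep (match 𝔇.src x with
    | some X => (𝔇.γ (.e X) * 𝔇.γ x, 𝔇.γ x)
    | none => (0, 0)).1 = S.rep (match 𝔇.src x with
    | some X => (𝔇.γ (.e X) * 𝔇.γ x, 𝔇.γ x)
    | none => (0, 0)).2
  rcases hx : 𝔇.src x with _ | X
  · rfl
  · show S.rep (𝔇.γ (.e X) * 𝔇.γ x) = S.rep (𝔇.γ x)
    refine C1_gg_g S fun R t => ?_
    by_cases h : R.tgt = X
    · rw [C1_acte_pos S h]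
      rfl
    · rw [C1_acte_neg S h, C1_src_ne S hx h]
      rfl

private theorem C1_outRow_tgt (n : NN G) (o : Out 𝔇.Sg 𝔇.r 𝔇.m) (t : ℕ → Row G 𝔇.r 𝔇.m)
    (s' : Sq G 𝔇.r 𝔇.m) (h : S.lift t (S.outRow n o) = some s') : s'.1.tgt = .C := by
  cases o with
  | zero => exact absurd h (by simp [outRow, lift])
  | stR w u q =>
    by_cases hq : q.isR = true
    · have h1 : S.outRow n (.stR w u q) = .row (.C (n * wv S.xs w) u ⟨q, hq⟩) := dif_pos hq
      rw [h1] at h
      have h2 : (Row.C (n * wv S.xs w) u ⟨q, hq⟩, t) = s' := Option.some.inj h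
      rw [← h2]
      rfl
    · have h1 : S.outRow n (.stR w u q) = .zero := dif_neg hq
      rw [h1] at h
      exact absurd h (by simp [lift])
  | stL q v => exact absurd h (by simp [outRow, lift])
  | stH w =>
    have h2 : (Row.H (n * wv S.xs w), t) = s' := Option.some.inj h
    rw [← h2]
    rfl
  | fin w => exact absurd h (by simp [outRow, lift])
  | dmpL x => exact absurd h (by simp [outRow, lift])
  | dmpC w x =>
    have h2 : (Row.E (n * wv S.xs w * yv (0 :: 𝔇.codes x)), t) = s' := Option.some.inj h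
    rw [← h2]
    rfl

private theorem C1_outO_tgt (n : NN G) (o : Out 𝔇.Sg 𝔇.r 𝔇.m) (t : ℕ → Row G 𝔇.r 𝔇.m)
    (s' : Sq G 𝔇.r 𝔇.m) (h : S.lift t (S.outO n o) = some s') : s'.1.tgt = .O := by
  cases o with
  | fin w =>
    have h2 : (Row.O (n * wv S.xs w), t) = s' := Option.some.inj h
    rw [← h2]
    rfl
  | dmpC w x =>
    have h2 : (Row.O (n * wv S.xs w * yv (0 :: 𝔇.codes x ++ [1])), t) = s' := Option.some.inj h
    rw [← h2]
    rfl
  | _ => exact absurd h (by simp [outO, lift])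

/-- a row result has target `X` -/
private theorem C1_row_tgt {X : Obj} {R' : Row G 𝔇.r 𝔇.m} (hR : R'.tgt = X)
    (t : ℕ → Row G 𝔇.r 𝔇.m) (s' : Sq G 𝔇.r 𝔇.m) (h : S.lift t (.row R') = some s') :
    s'.1.tgt = X := by
  have h2 : (R', t) = s' := Option.some.inj h
  rw [← h2]
  exact hR

private theorem C1_zero_tgt {X : Obj} (t : ℕ → Row G 𝔇.r 𝔇.m) (s' : Sq G 𝔇.r 𝔇.m)
    (h : S.lift t (.zero) = some s') : s'.1.tgt = X := by
  exact absurd h (by simp [lift])

private theorem C1_ite_tgt {X : Obj} {p : Prop} [Decidable p] {a b : Res G 𝔇.r 𝔇.m}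
    (t : ℕ → Row G 𝔇.r 𝔇.m)
    (s' : Sq G 𝔇.r 𝔇.m) (ha : S.lift t a = some s' → s'.1.tgt = X)
    (hb : S.lift t b = some s' → s'.1.tgt = X) (h : S.lift t (if p then a else b) = some s') :
    s'.1.tgt = X := by
  by_cases hp : p
  · rw [if_pos hp] at h
    exact ha h
  · rw [if_neg hp] at h
    exact hb h

private theorem C1_colrow_tgt {X : Obj} (n : NN G) {R' : Row G 𝔇.r 𝔇.m} (hR : R'.tgt = X)
    (t : ℕ → Row G 𝔇.r 𝔇.m) (s' : Sq G 𝔇.r 𝔇.m) (h : S.lift t (.colrow n R') = some s') :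
    s'.1.tgt = X := by
  by_cases hV : S.V n = true
  · have h1 : S.lift t (.colrow n R') = some (R', t) := if_pos hV
    rw [h1] at h
    have h2 : (R', t) = s' := Option.some.inj h
    rw [← h2]
    exact hR
  · have h1 : S.lift t (.colrow n R') = none := if_neg hV
    rw [h1] at h
    exact absurd h (by simp)

private theorem C1_tgt {x : 𝔇.Gt} {X : Obj} (hx : 𝔇.tgt x = some X) (R : Row G 𝔇.r 𝔇.m)
    (t : ℕ → Row G 𝔇.r 𝔇.m) (s' : Sq G 𝔇.r 𝔇.m) (h : S.act x (R, t) = some s') :
    s'.1.tgt = X := by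
  by_cases hTs : x = .Ts
  · subst hTs
    rw [C1_actTs] at h
    rw [← Option.some.inj h]
    exact Option.some.inj hx
  rw [C1_act S hTs] at h
  cases x <;> simp only [Data.tgt, Option.some.injEq, reduceCtorEq] at hx <;> subst hx <;>
    cases R <;>
    first
      | exact C1_zero_tgt S t s' h
      | exact C1_row_tgt S rfl t s' h
      | exact C1_outRow_tgt S _ _ t s' h
      | exact C1_outO_tgt S _ _ t s' h
      | exact C1_ite_tgt S t s' (C1_row_tgt S rfl t s') (C1_zero_tgt S t s') h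
      | exact absurd rfl hTs
      | exact C1_ite_tgt S t s' (C1_colrow_tgt S _ rfl t s') (C1_zero_tgt S t s') h

theorem good_tgt (x) : S.Good (.tgt x) := by
  unfold Good
  show S.rep (match 𝔇.tgt x with
    | some X => (𝔇.γ x * 𝔇.γ (.e X), 𝔇.γ x)
    | none => (0, 0)).1 = S.rep (match 𝔇.tgt x with
    | some X => (𝔇.γ x * 𝔇.γ (.e X), 𝔇.γ x)
    | none => (0, 0)).2
  rcases hx : 𝔇.tgt x with _ | X
  · rfl
  · show S.rep (𝔇.γ x * 𝔇.γ (.e X)) = S.rep (𝔇.γ x)
    refine C1_gg_g S fun R t => ?_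
    cases h : S.act x (R, t) with
    | none => rfl
    | some s' =>
      show S.act (.e X) (s'.1, s'.2) = some s'
      exact C1_acte_pos S (C1_tgt S hx R t s' h) s'.2

theorem good_comm (s y) : S.Good (.comm s y) := by
  unfold Good
  show S.rep (𝔇.γ (.sg (.inl s)) * 𝔇.γ (.sg (.inr y))) =
    S.rep (𝔇.γ (.sg (.inr y)) * 𝔇.γ (.sg (.inl s)))
  refine C1_gg_gg S fun R t => ?_
  rw [C1_act S (by simp), C1_act S (by simp)]
  cases R with
  | O n =>
    show S.act (.sg (.inr y)) (.O (n * lv S.xs (.inl s)), t) =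
      S.act (.sg (.inl s)) (.O (n * lv S.xs (.inr y)), t)
    rw [C1_act S (by simp), C1_act S (by simp)]
    show some (Row.O (n * lv S.xs (.inl s) * lv S.xs (.inr y)), t) =
      some (Row.O (n * lv S.xs (.inr y) * lv S.xs (.inl s)), t)
    have h : lv S.xs (.inl s) * lv S.xs (.inr y) = lv S.xs (.inr y) * lv S.xs (.inl s) := by
      simp [lv]
    rw [mul_assoc, mul_assoc, h]
  | _ => rfl

theorem good_TT : S.Good (.TT) := by
  unfold Good
  show S.rep (𝔇.γ .Ts * 𝔇.γ .T) = S.rep 1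
  refine LinearMap.ext fun f => funext fun s => ?_
  obtain ⟨R, t⟩ := s
  rw [rep_gg, map_one]
  show ap ((S.act .Ts (R, t)).bind (S.act .T)) f = f (R, t)
  rw [C1_actTs]
  show ap (S.act .T (.O 1, fun k => Nat.casesOn k R t)) f = f (R, t)
  rw [C1_act S (by simp)]
  show ap (if S.V 1 = true then some (R, t) else none) f = f (R, t)
  rw [if_pos S.V_one]
  rfl

private theorem C1_rep_cons {d : 𝔇.Dt} (hd : d = 𝔇.a0) (u : List 𝔇.Dt) :
    (d :: u = List.replicate (d :: u).length 𝔇.a0) ↔ u = List.replicate u.length 𝔇.a0 := by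
  rw [List.length_cons, List.replicate_succ, List.cons.injEq]
  exact ⟨fun h => h.2, fun h => ⟨hd, h⟩⟩

private theorem C1_rep_cons_ne {d : 𝔇.Dt} (hd : d ≠ 𝔇.a0) (u : List 𝔇.Dt) :
    ¬ (d :: u = List.replicate (d :: u).length 𝔇.a0) := by
  rw [List.length_cons, List.replicate_succ, List.cons.injEq]
  exact fun h => hd h.1

private theorem C1_sw_pos (n : NN G) {u : List 𝔇.Dt} (hu : u = List.replicate u.length 𝔇.a0) :
    S.step .sw (.B n u) = .row (.Z n u.length) := if_pos hu

private theorem C1_sw_neg (n : NN G) {u : List 𝔇.Dt} (hu : ¬ u = List.replicate u.length 𝔇.a0) :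
    S.step .sw (.B n u) = .zero := if_neg hu

private theorem C1_sV_pos (n : NN G) {u : List 𝔇.Dt} (hu : u = List.replicate u.length 𝔇.a0) :
    S.step .sV (.B n u) = .colrow n (.Z 1 u.length) := if_pos hu

private theorem C1_sV_neg (n : NN G) {u : List 𝔇.Dt} (hu : ¬ u = List.replicate u.length 𝔇.a0) :
    S.step .sV (.B n u) = .zero := if_neg hu

private theorem C1_ld (d : 𝔇.Dt) (n : NN G) (u : List 𝔇.Dt) (t : ℕ → Row G 𝔇.r 𝔇.m) :
    S.act (.ld d) (.B n u, t) = some (.B n (d :: u), t) := by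
  rw [C1_act S (by simp)]
  rfl

private theorem C1_mis {x : 𝔇.Gt} {X : Obj} (hx : 𝔇.src x = some X) {R : Row G 𝔇.r 𝔇.m}
    (hR : R.tgt ≠ X) (t : ℕ → Row G 𝔇.r 𝔇.m) (y : 𝔇.Gt) :
    (S.act x (R, t)).bind (S.act y) = none := by
  rw [C1_src_ne S hx hR]
  rfl

theorem good_swA (d) : S.Good (.swA d) := by
  unfold Good
  show S.rep (𝔇.γ (.ld d) * 𝔇.γ .sw) = S.rep (if d = 𝔇.a0 then 𝔇.γ .sw * 𝔇.γ .az else 0)
  by_cases hd : d = 𝔇.a0
  · rw [if_pos hd]
    refine C1_gg_gg S fun R t => ?_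
    by_cases hR : R.tgt = .B
    · cases R with
      | B n u =>
        rw [C1_ld]
        show S.act .sw (.B n (d :: u), t) = _
        rw [C1_act S (by simp), C1_act S (by simp)]
        by_cases hu : u = List.replicate u.length 𝔇.a0
        · rw [C1_sw_pos S n ((C1_rep_cons hd u).2 hu), C1_sw_pos S n hu]
          show _ = S.act .az (.Z n u.length, t)
          rw [C1_act S (by simp)]
          rfl
        · rw [C1_sw_neg S n (fun h => hu ((C1_rep_cons hd u).1 h)), C1_sw_neg S n hu]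
          rfl
      | _ => exact absurd hR (by simp [Row.tgt])
    · rw [C1_mis S (X := .B) rfl hR, C1_mis S (X := .B) rfl hR]
  · rw [if_neg hd]
    refine C1_gg_zero S fun R t => ?_
    by_cases hR : R.tgt = .B
    · cases R with
      | B n u =>
        rw [C1_ld]
        show S.act .sw (.B n (d :: u), t) = _
        rw [C1_act S (by simp), C1_sw_neg S n (C1_rep_cons_ne hd u)]
        rfl
      | _ => exact absurd hR (by simp [Row.tgt])
    · rw [C1_mis S (X := .B) rfl hR]

private theorem C1_colrow_pos (n : NN G) (hV : S.V n = true) (R : Row G 𝔇.r 𝔇.m)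
    (t : ℕ → Row G 𝔇.r 𝔇.m) : S.lift t (.colrow n R) = some (R, t) := if_pos hV

private theorem C1_colrow_neg (n : NN G) (hV : ¬ S.V n = true) (R : Row G 𝔇.r 𝔇.m)
    (t : ℕ → Row G 𝔇.r 𝔇.m) : S.lift t (.colrow n R) = none := if_neg hV

theorem good_sVA (d) : S.Good (.sVA d) := by
  unfold Good
  show S.rep (𝔇.γ (.ld d) * 𝔇.γ .sV) = S.rep (if d = 𝔇.a0 then 𝔇.γ .sV * 𝔇.γ .az else 0)
  by_cases hd : d = 𝔇.a0
  · rw [if_pos hd]
    refine C1_gg_gg S fun R t => ?_
    by_cases hR : R.tgt = .B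
    · cases R with
      | B n u =>
        rw [C1_ld]
        show S.act .sV (.B n (d :: u), t) = _
        rw [C1_act S (by simp), C1_act S (by simp)]
        by_cases hu : u = List.replicate u.length 𝔇.a0
        · rw [C1_sV_pos S n ((C1_rep_cons hd u).2 hu), C1_sV_pos S n hu]
          by_cases hV : S.V n = true
          · rw [C1_colrow_pos S n hV, C1_colrow_pos S n hV]
            show _ = S.act .az (.Z 1 u.length, t)
            rw [C1_act S (by simp)]
            rfl
          · rw [C1_colrow_neg S n hV, C1_colrow_neg S n hV]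
            rfl
        · rw [C1_sV_neg S n (fun h => hu ((C1_rep_cons hd u).1 h)), C1_sV_neg S n hu]
          rfl
      | _ => exact absurd hR (by simp [Row.tgt])
    · rw [C1_mis S (X := .B) rfl hR, C1_mis S (X := .B) rfl hR]
  · rw [if_neg hd]
    refine C1_gg_zero S fun R t => ?_
    by_cases hR : R.tgt = .B
    · cases R with
      | B n u =>
        rw [C1_ld]
        show S.act .sV (.B n (d :: u), t) = _
        rw [C1_act S (by simp), C1_sV_neg S n (C1_rep_cons_ne hd u)]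
        rfl
      | _ => exact absurd hR (by simp [Row.tgt])
    · rw [C1_mis S (X := .B) rfl hR]

private theorem C1_lt (n : NN G) (t : ℕ → Row G 𝔇.r 𝔇.m) :
    S.act .lt (.O n, t) = some (.B n [], t) := by
  rw [C1_act S (by simp)]
  rfl

theorem good_sVL : S.Good (.sVL) := by
  unfold Good
  show S.rep (𝔇.γ .lt * 𝔇.γ .sV) = S.rep (𝔇.γ .T * 𝔇.γ .Ts * 𝔇.γ .lt * 𝔇.γ .sw)
  refine LinearMap.ext fun f => funext fun s => ?_
  obtain ⟨R, t⟩ := s
  rw [rep_gg, rep_gggg]
  refine congrArg (fun o => ap o f) ?_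
  by_cases hR : R.tgt = .O
  · cases R with
    | O n =>
      rw [C1_lt, C1_act S (x := .T) (by simp)]
      show S.act .sV (.B n [], t) = ((((if S.V n = true then some (t 0, fun k => t (k + 1))
        else none : Option (Sq G 𝔇.r 𝔇.m))).bind (S.act .Ts)).bind (S.act .lt)).bind (S.act .sw)
      rw [C1_act S (by simp), C1_sV_pos S n (u := []) rfl]
      by_cases hV : S.V n = true
      · rw [C1_colrow_pos S n hV, if_pos hV]
        show _ = ((S.act .Ts (t 0, fun k => t (k + 1))).bind (S.act .lt)).bind (S.act .sw)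
        rw [C1_actTs]
        have ht : (fun k : ℕ => (Nat.casesOn k (t 0) (fun k => t (k + 1)) : Row G 𝔇.r 𝔇.m)) = t := by
          funext k
          cases k <;> rfl
        rw [ht]
        show _ = (S.act .lt (.O 1, t)).bind (S.act .sw)
        rw [C1_lt]
        show _ = S.act .sw (.B 1 [], t)
        rw [C1_act S (by simp), C1_sw_pos S 1 (u := []) rfl]
        rfl
      · rw [C1_colrow_neg S n hV, if_neg hV]
        rfl
    | _ => exact absurd hR (by simp [Row.tgt])
  · rw [C1_mis S (X := .O) rfl hR, C1_mis S (X := .O) rfl hR]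
    rfl

end Spec

end P193.One
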