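import Mathlib
import Vale.Agent.Lib.P193.One.ModelB

/-!
# P193, part I: the model, C2: relations hold in the model

Method: `S.Good i` unfolds to an equality of endomorphisms; `ext`/`funext` to a function `f` and a
sequence `s = (R, t)`, rewrite with `rep_g`, `rep_gg`, `rep_ggg`, and do cases on the row `R`; then
both sides are computed by `act`, `lift`, `step` (use `S.ev_eq` to evaluate runs, `cont_rd`,
`cont_kap` for continued runs).
-/

namespace P193.One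

open P193.Mach

namespace Spec

variable {𝔇 : Data} {G : Type} [Group G] (S : Spec 𝔇 G)

private theorem c2_act (x : 𝔇.Gt) (hx : x ≠ .Ts) (R : Row G 𝔇.r 𝔇.m) (t : ℕ → Row G 𝔇.r 𝔇.m) :
    S.act x (R, t) = S.lift t (S.step x R) := by
  unfold act
  rw [if_neg hx]

private theorem c2_row (t : ℕ → Row G 𝔇.r 𝔇.m) (R : Row G 𝔇.r 𝔇.m) :
    S.lift t (.row R) = some (R, t) := rfl

private theorem c2_zero (t : ℕ → Row G 𝔇.r 𝔇.m) : S.lift t .zero = none := rfl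

/-- acting on a result of a run -/
private theorem c2_bind (x : 𝔇.Gt) (hx : x ≠ .Ts) (t : ℕ → Row G 𝔇.r 𝔇.m) (n : NN G)
    (o : Out 𝔇.Sg 𝔇.r 𝔇.m) :
    (S.lift t (S.outRow n o)).bind (S.act x) = S.lift t (S.resStep x (S.outRow n o)) := by
  cases o with
  | zero => rfl
  | stR w u q =>
    by_cases h : q.isR = true
    · have h1 : S.outRow n (.stR w u q) = .row (.C (n * wv S.xs w) u ⟨q, h⟩) := dif_pos h
      rw [h1]
      exact S.c2_act x hx _ t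
    · have h1 : S.outRow n (.stR w u q) = .zero := dif_neg h
      rw [h1]
      rfl
  | stL q v => rfl
  | stH w => exact S.c2_act x hx _ t
  | fin w => rfl
  | dmpL x => rfl
  | dmpC w x => exact S.c2_act _ hx _ t

/-- the three basic computations -/
private theorem c2_q_rd (n : NN G) (u : List 𝔇.Dt) (q : 𝔇.Qt) (d : 𝔇.Dt)
    (t : ℕ → Row G 𝔇.r 𝔇.m) :
    (S.act (.q q) (.B n u, t)).bind (S.act (.rd d)) =
      S.lift t (S.outRow n (S.ev true false u q [d])) := by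
  rw [S.c2_act _ (by simp)]
  show (S.lift t (S.outRow n (S.ev true false u q []))).bind (S.act (.rd d)) = _
  rw [S.c2_bind _ (by simp), S.cont_rd]
  rfl

private theorem c2_q_kap (n : NN G) (u : List 𝔇.Dt) (q : 𝔇.Qt) (t : ℕ → Row G 𝔇.r 𝔇.m) :
    (S.act (.q q) (.B n u, t)).bind (S.act .kap) =
      S.lift t (S.outO n (S.ev true true u q [])) := by
  rw [S.c2_act _ (by simp)]
  show (S.lift t (S.outRow n (S.ev true false u q []))).bind (S.act .kap) = _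
  rw [S.c2_bind _ (by simp), S.cont_kap]

private theorem c2_ld (n : NN G) (u : List 𝔇.Dt) (d : 𝔇.Dt) (t : ℕ → Row G 𝔇.r 𝔇.m) :
    S.act (.ld d) (.B n u, t) = some (.B n (d :: u), t) := S.c2_act _ (by simp) _ _

private theorem c2_q (n : NN G) (u : List 𝔇.Dt) (q : 𝔇.Qt) (t : ℕ → Row G 𝔇.r 𝔇.m) :
    S.act (.q q) (.B n u, t) = S.lift t (S.outRow n (S.ev true false u q [])) :=
  S.c2_act _ (by simp) _ _

private theorem c2_q_none (q : 𝔇.Qt) (R : Row G 𝔇.r 𝔇.m) (hR : ∀ n u, R ≠ .B n u)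
    (t : ℕ → Row G 𝔇.r 𝔇.m) : S.act (.q q) (R, t) = none := by
  rw [S.c2_act _ (by simp)]
  cases R with
  | B n u => exact absurd rfl (hR n u)
  | _ => rfl

private theorem c2_ld_none (d : 𝔇.Dt) (R : Row G 𝔇.r 𝔇.m) (hR : ∀ n u, R ≠ .B n u)
    (t : ℕ → Row G 𝔇.r 𝔇.m) : S.act (.ld d) (R, t) = none := by
  rw [S.c2_act _ (by simp)]
  cases R with
  | B n u => exact absurd rfl (hR n u)
  | _ => rfl

omit [Group G] in
private theorem c2_isB (R : Row G 𝔇.r 𝔇.m) : (∃ n u, R = .B n u) ∨ ∀ n u, R ≠ .B n u := by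
  cases R with
  | B n u => exact Or.inl ⟨n, u, rfl⟩
  | _ =>
    right
    intro n u h
    injection h

omit [Group G] in
private theorem c2_isO (R : Row G 𝔇.r 𝔇.m) : (∃ n, R = .O n) ∨ ∀ n, R ≠ .O n := by
  cases R with
  | O n => exact Or.inl ⟨n, rfl⟩
  | _ =>
    right
    intro n h
    injection h

private theorem c2_lt (n : NN G) (t : ℕ → Row G 𝔇.r 𝔇.m) :
    S.act .lt (.O n, t) = some (.B n [], t) := S.c2_act _ (by simp) _ _

private theorem c2_sg (σ : 𝔇.Sg) (n : NN G) (t : ℕ → Row G 𝔇.r 𝔇.m) :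
    S.act (.sg σ) (.O n, t) = some (.O (n * lv S.xs σ), t) := S.c2_act _ (by simp) _ _

private theorem c2_lt_none (R : Row G 𝔇.r 𝔇.m) (hR : ∀ n, R ≠ .O n)
    (t : ℕ → Row G 𝔇.r 𝔇.m) : S.act .lt (R, t) = none := by
  rw [S.c2_act _ (by simp)]
  cases R with
  | O n => exact absurd rfl (hR n)
  | _ => rfl

private theorem c2_sg_none (σ : 𝔇.Sg) (R : Row G 𝔇.r 𝔇.m) (hR : ∀ n, R ≠ .O n)
    (t : ℕ → Row G 𝔇.r 𝔇.m) : S.act (.sg σ) (R, t) = none := by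
  rw [S.c2_act _ (by simp)]
  cases R with
  | O n => exact absurd rfl (hR n)
  | _ => rfl

private theorem c2_rep_zero (f : Sq G 𝔇.r 𝔇.m → ZMod 2) (s : Sq G 𝔇.r 𝔇.m) :
    S.rep (0 : 𝔇.FA) f s = ap none f := by
  rw [map_zero]
  rfl

theorem good_restA (p j) : S.Good (.restA p j) := by
  refine LinearMap.ext fun f => funext fun s => ?_
  obtain ⟨R, t⟩ := s
  show S.rep (𝔇.γ (.q (.rest p)) * 𝔇.γ (.rd (.a j))) f (R, t) =
    S.rep (𝔇.γ (.ld (.a j)) * 𝔇.γ (.q (.rest p))) f (R, t)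
  rw [rep_gg, rep_gg]
  rcases c2_isB R with ⟨n, u, rfl⟩ | hR
  · rw [S.c2_q_rd, S.c2_ld, Option.bind_some, S.c2_q,
      S.ev_eq (Ev.restA (S.ev_spec true false (.a j :: u) (.rest p) []))]
  · rw [S.c2_q_none _ R hR, S.c2_ld_none _ R hR]
    rfl

theorem good_restK (p) : S.Good (.restK p) := by
  refine LinearMap.ext fun f => funext fun s => ?_
  obtain ⟨R, t⟩ := s
  cases hM : 𝔇.M p with
  | inc i q' =>
    have hr : (𝔇.relOf (.restK p)) = (𝔇.γ (.q (.rest p)) * 𝔇.γ .kap,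
        𝔇.γ (.ld (.a i)) * 𝔇.γ (.q (.rest q')) * 𝔇.γ .kap) := by
      simp only [Data.relOf, hM]
    rw [hr]
    show S.rep (𝔇.γ (.q (.rest p)) * 𝔇.γ .kap) f (R, t) =
      S.rep (𝔇.γ (.ld (.a i)) * 𝔇.γ (.q (.rest q')) * 𝔇.γ .kap) f (R, t)
    rw [rep_gg, rep_ggg]
    rcases c2_isB R with ⟨n, u, rfl⟩ | hR
    · rw [S.c2_q_kap, S.c2_ld, Option.bind_some, S.c2_q_kap,
        S.ev_eq (Ev.kInc rfl hM (S.ev_spec true true (.a i :: u) (.rest q') []))]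
    · rw [S.c2_q_none _ R hR, S.c2_ld_none _ R hR]
      rfl
  | dec i q' q'' =>
    have hr : (𝔇.relOf (.restK p)) = (𝔇.γ (.q (.rest p)) * 𝔇.γ .kap,
        𝔇.γ (.q (.lft p)) * 𝔇.γ .kap) := by
      simp only [Data.relOf, hM]
    rw [hr]
    show S.rep (𝔇.γ (.q (.rest p)) * 𝔇.γ .kap) f (R, t) =
      S.rep (𝔇.γ (.q (.lft p)) * 𝔇.γ .kap) f (R, t)
    rw [rep_gg, rep_gg]
    rcases c2_isB R with ⟨n, u, rfl⟩ | hR
    · rw [S.c2_q_kap, S.c2_q_kap,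
        S.ev_eq (Ev.kDec rfl hM (S.ev_spec true true u (.lft p) []))]
    · rw [S.c2_q_none _ R hR, S.c2_q_none _ R hR]
  | emit x q' =>
    have hr : (𝔇.relOf (.restK p)) = (𝔇.γ (.q (.rest p)) * 𝔇.γ .kap,
        𝔇.γ (.q (.lft p)) * 𝔇.γ .kap) := by
      simp only [Data.relOf, hM]
    rw [hr]
    show S.rep (𝔇.γ (.q (.rest p)) * 𝔇.γ .kap) f (R, t) =
      S.rep (𝔇.γ (.q (.lft p)) * 𝔇.γ .kap) f (R, t)
    rw [rep_gg, rep_gg]
    rcases c2_isB R with ⟨n, u, rfl⟩ | hR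
    · rw [S.c2_q_kap, S.c2_q_kap,
        S.ev_eq (Ev.kEmit rfl hM (S.ev_spec true true u (.lft p) []))]
    · rw [S.c2_q_none _ R hR, S.c2_q_none _ R hR]
  | halt =>
    have hr : (𝔇.relOf (.restK p)) = (𝔇.γ (.q (.rest p)) * 𝔇.γ .kap,
        𝔇.γ (.q .H) * 𝔇.γ .kap) := by
      simp only [Data.relOf, hM]
    rw [hr]
    show S.rep (𝔇.γ (.q (.rest p)) * 𝔇.γ .kap) f (R, t) =
      S.rep (𝔇.γ (.q .H) * 𝔇.γ .kap) f (R, t)
    rw [rep_gg, rep_gg]
    rcases c2_isB R with ⟨n, u, rfl⟩ | hR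
    · rw [S.c2_q_kap, S.c2_q_kap,
        S.ev_eq (Ev.kHalt rfl hM (S.ev_spec true true u .H []))]
    · rw [S.c2_q_none _ R hR, S.c2_q_none _ R hR]
  | fail =>
    have hr : (𝔇.relOf (.restK p)) = (𝔇.γ (.q (.rest p)) * 𝔇.γ .kap, 0) := by
      simp only [Data.relOf, hM]
    rw [hr]
    show S.rep (𝔇.γ (.q (.rest p)) * 𝔇.γ .kap) f (R, t) = S.rep (0 : 𝔇.FA) f (R, t)
    rw [rep_gg, c2_rep_zero]
    rcases c2_isB R with ⟨n, u, rfl⟩ | hR
    · rw [S.c2_q_kap, S.ev_eq (Ev.kFail rfl hM)]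
      rfl
    · rw [S.c2_q_none _ R hR]
      rfl

theorem good_lftA (p j) : S.Good (.lftA p j) := by
  refine LinearMap.ext fun f => funext fun s => ?_
  obtain ⟨R, t⟩ := s
  have hbad : (∀ i q' q'', 𝔇.M p ≠ .dec i q' q'') → (∀ x q', 𝔇.M p ≠ .emit x q') →
      S.rep (𝔇.γ (.ld (.a j)) * 𝔇.γ (.q (.lft p))) f (R, t) = S.rep (0 : 𝔇.FA) f (R, t) := by
    intro h1 h2
    rw [rep_gg, c2_rep_zero]
    rcases c2_isB R with ⟨n, u, rfl⟩ | hR
    · rw [S.c2_ld, Option.bind_some, S.c2_q, S.ev_eq (Ev.lBad h1 h2)]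
      rfl
    · rw [S.c2_ld_none _ R hR]
      rfl
  have hrd : (∀ u o, Ev 𝔇 true false u (.lft p) [.a j] o →
        Ev 𝔇 true false (.a j :: u) (.lft p) [] o) →
      S.rep (𝔇.γ (.ld (.a j)) * 𝔇.γ (.q (.lft p))) f (R, t) =
        S.rep (𝔇.γ (.q (.lft p)) * 𝔇.γ (.rd (.a j))) f (R, t) := by
    intro h1
    rw [rep_gg, rep_gg]
    rcases c2_isB R with ⟨n, u, rfl⟩ | hR
    · rw [S.c2_ld, Option.bind_some, S.c2_q, S.c2_q_rd,
        S.ev_eq (h1 u _ (S.ev_spec true false u (.lft p) [.a j]))]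
    · rw [S.c2_q_none _ R hR, S.c2_ld_none _ R hR]
      rfl
  cases hM : 𝔇.M p with
  | inc i q' =>
    have hr : (𝔇.relOf (.lftA p j)) = (𝔇.γ (.ld (.a j)) * 𝔇.γ (.q (.lft p)), 0) := by
      simp only [Data.relOf, hM]
    rw [hr]
    exact hbad (by simp [hM]) (by simp [hM])
  | dec i q' q'' =>
    by_cases hji : j = i
    · have hr : (𝔇.relOf (.lftA p j)) = (𝔇.γ (.ld (.a j)) * 𝔇.γ (.q (.lft p)),
          𝔇.γ (.q (.rest q'))) := by
        simp only [Data.relOf, hM, if_pos hji]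
      rw [hr]
      show S.rep (𝔇.γ (.ld (.a j)) * 𝔇.γ (.q (.lft p))) f (R, t) =
        S.rep (𝔇.γ (.q (.rest q'))) f (R, t)
      rw [rep_gg, rep_g]
      rcases c2_isB R with ⟨n, u, rfl⟩ | hR
      · subst hji
        rw [S.c2_ld, Option.bind_some, S.c2_q, S.c2_q,
          S.ev_eq (Ev.lDecEq hM (S.ev_spec true false u (.rest q') []))]
      · rw [S.c2_q_none _ R hR, S.c2_ld_none _ R hR]
        rfl
    · have hr : (𝔇.relOf (.lftA p j)) = (𝔇.γ (.ld (.a j)) * 𝔇.γ (.q (.lft p)),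
          𝔇.γ (.q (.lft p)) * 𝔇.γ (.rd (.a j))) := by
        simp only [Data.relOf, hM, if_neg hji]
      rw [hr]
      exact hrd fun u o ho => Ev.lDecNe hM hji ho
  | emit x q' =>
    have hr : (𝔇.relOf (.lftA p j)) = (𝔇.γ (.ld (.a j)) * 𝔇.γ (.q (.lft p)),
        𝔇.γ (.q (.lft p)) * 𝔇.γ (.rd (.a j))) := by
      simp only [Data.relOf, hM]
    rw [hr]
    exact hrd fun u o ho => Ev.lEmit hM ho
  | halt =>
    have hr : (𝔇.relOf (.lftA p j)) = (𝔇.γ (.ld (.a j)) * 𝔇.γ (.q (.lft p)), 0) := by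
      simp only [Data.relOf, hM]
    rw [hr]
    exact hbad (by simp [hM]) (by simp [hM])
  | fail =>
    have hr : (𝔇.relOf (.lftA p j)) = (𝔇.γ (.ld (.a j)) * 𝔇.γ (.q (.lft p)), 0) := by
      simp only [Data.relOf, hM]
    rw [hr]
    exact hbad (by simp [hM]) (by simp [hM])

theorem good_lftL (p) : S.Good (.lftL p) := by
  refine LinearMap.ext fun f => funext fun s => ?_
  obtain ⟨R, t⟩ := s
  have hbad : (∀ i q' q'', 𝔇.M p ≠ .dec i q' q'') → (∀ x q', 𝔇.M p ≠ .emit x q') →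
      S.rep (𝔇.γ .lt * 𝔇.γ (.q (.lft p))) f (R, t) = S.rep (0 : 𝔇.FA) f (R, t) := by
    intro h1 h2
    rw [rep_gg, c2_rep_zero]
    rcases c2_isO R with ⟨n, rfl⟩ | hR
    · rw [S.c2_lt, Option.bind_some, S.c2_q, S.ev_eq (Ev.tBad rfl h1 h2)]
      rfl
    · rw [S.c2_lt_none R hR]
      rfl
  cases hM : 𝔇.M p with
  | inc i q' =>
    have hr : (𝔇.relOf (.lftL p)) = (𝔇.γ .lt * 𝔇.γ (.q (.lft p)), 0) := by
      simp only [Data.relOf, hM]
    rw [hr]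
    exact hbad (by simp [hM]) (by simp [hM])
  | dec i q' q'' =>
    have hr : (𝔇.relOf (.lftL p)) = (𝔇.γ .lt * 𝔇.γ (.q (.lft p)),
        𝔇.γ .lt * 𝔇.γ (.q (.rest q''))) := by
      simp only [Data.relOf, hM]
    rw [hr]
    show S.rep (𝔇.γ .lt * 𝔇.γ (.q (.lft p))) f (R, t) =
      S.rep (𝔇.γ .lt * 𝔇.γ (.q (.rest q''))) f (R, t)
    rw [rep_gg, rep_gg]
    rcases c2_isO R with ⟨n, rfl⟩ | hR
    · rw [S.c2_lt, Option.bind_some, Option.bind_some, S.c2_q, S.c2_q,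
        S.ev_eq (Ev.tDec rfl hM (S.ev_spec true false [] (.rest q'') []))]
    · rw [S.c2_lt_none R hR]
      rfl
  | emit x q' =>
    have hr : (𝔇.relOf (.lftL p)) = (𝔇.γ .lt * 𝔇.γ (.q (.lft p)),
        𝔇.γ (.sg (𝔇.sgOf x)) * 𝔇.γ .lt * 𝔇.γ (.q (.rest q'))) := by
      simp only [Data.relOf, hM]
    rw [hr]
    show S.rep (𝔇.γ .lt * 𝔇.γ (.q (.lft p))) f (R, t) =
      S.rep (𝔇.γ (.sg (𝔇.sgOf x)) * 𝔇.γ .lt * 𝔇.γ (.q (.rest q'))) f (R, t)
    rw [rep_gg, rep_ggg]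
    rcases c2_isO R with ⟨n, rfl⟩ | hR
    · rw [S.c2_lt, Option.bind_some, S.c2_q, S.c2_sg, Option.bind_some, S.c2_lt,
        Option.bind_some, S.c2_q,
        S.ev_eq (Ev.tEmit rfl hM (S.ev_spec true false [] (.rest q') []))]
      have h1 := S.outRow_app n [𝔇.sgOf x] (S.ev true false [] (.rest q') [])
      have h2 : wv S.xs [𝔇.sgOf x] = lv S.xs (𝔇.sgOf x) := by simp [wv]
      rw [h2] at h1
      rw [← h1]
      rfl
    · rw [S.c2_lt_none R hR, S.c2_sg_none _ R hR]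
      rfl
  | halt =>
    have hr : (𝔇.relOf (.lftL p)) = (𝔇.γ .lt * 𝔇.γ (.q (.lft p)), 0) := by
      simp only [Data.relOf, hM]
    rw [hr]
    exact hbad (by simp [hM]) (by simp [hM])
  | fail =>
    have hr : (𝔇.relOf (.lftL p)) = (𝔇.γ .lt * 𝔇.γ (.q (.lft p)), 0) := by
      simp only [Data.relOf, hM]
    rw [hr]
    exact hbad (by simp [hM]) (by simp [hM])

end Spec

end P193.One
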