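import Mathlib
import Vale.Agent.Lib.P193.One.ModelB

/-!
# P193, part I: the model, C3: relations hold in the model

Method: `S.Good i` unfolds to an equality of endomorphisms; `ext`/`funext` to a function `f` and a
sequence `s = (R, t)`, rewrite with `rep_g`, `rep_gg`, `rep_ggg`, and do cases on the row `R`; then
both sides are computed by `act`, `lift`, `step` (use `S.ev_eq` to evaluate runs, `cont_rd`,
`cont_kap` for continued runs).
-/

namespace P193.One

open P193.Mach

namespace Spec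

variable {𝔇 : Data} {G : Type} [Group G] (S : Spec 𝔇 G)

private theorem C3_act {x : 𝔇.Gt} (hx : x ≠ .Ts) (R : Row G 𝔇.r 𝔇.m) (t : ℕ → Row G 𝔇.r 𝔇.m) :
    S.act x (R, t) = S.lift t (S.step x R) := by
  unfold act
  rw [if_neg hx]

private theorem C3_row (t : ℕ → Row G 𝔇.r 𝔇.m) (R : Row G 𝔇.r 𝔇.m) :
    S.lift t (.row R) = some (R, t) := rfl

private theorem C3_zero (t : ℕ → Row G 𝔇.r 𝔇.m) :
    S.lift t .zero = none := rfl

private theorem C3_stR (n : NN G) (u : List 𝔇.Dt) {q : 𝔇.Qt} (hq : q.isR = true) :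
    S.outRow n (.stR [] u q) = .row (.C n u ⟨q, hq⟩) := by
  show (if h : q.isR = true then Res.row (.C (n * wv S.xs []) u ⟨q, h⟩) else Res.zero) = _
  rw [dif_pos hq]
  simp [wv]

private theorem C3_q (n : NN G) (u : List 𝔇.Dt) {q : 𝔇.Qt} (hq : q.isR = true) :
    S.step (.q q) (.B n u) = .row (.C n u ⟨q, hq⟩) := by
  show S.outRow n (S.ev true false u q []) = _
  rw [S.ev_right true u hq, C3_stR]

private theorem C3_dmp (n : NN G) (x : List 𝔇.Dt) :
    S.outRow n (.dmp true x) = .row (.E (n * yv (0 :: 𝔇.codes x))) := by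
  show Res.row (.E (n * wv S.xs [] * yv (0 :: 𝔇.codes x))) = _
  simp [wv]

private theorem C3_code (u : List 𝔇.Dt) (d : 𝔇.Dt) :
    (yv (0 :: 𝔇.codes (u ++ [d])) : NN G) = yv (0 :: 𝔇.codes u) * yv (𝔇.code d) := by
  rw [← yv_append]
  simp

/-- criterion: relation of two products of two generators -/
private theorem C3_gg_gg {x y x' y' : 𝔇.Gt}
    (h : ∀ R t, (S.act x (R, t)).bind (S.act y) = (S.act x' (R, t)).bind (S.act y')) :
    S.rep (𝔇.γ x * 𝔇.γ y) = S.rep (𝔇.γ x' * 𝔇.γ y') := by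
  refine LinearMap.ext fun f => funext fun s => ?_
  rw [rep_gg, rep_gg]
  exact congrArg (fun o => ap o f) (h s.1 s.2)

private theorem C3_gg_zero {x y : 𝔇.Gt}
    (h : ∀ R t, (S.act x (R, t)).bind (S.act y) = none) :
    S.rep (𝔇.γ x * 𝔇.γ y) = S.rep 0 := by
  refine LinearMap.ext fun f => funext fun s => ?_
  rw [rep_gg, show (S.act x s).bind (S.act y) = none from h s.1 s.2, map_zero]
  rfl

private theorem C3_qB_ne (q : 𝔇.Qt) {R : Row G 𝔇.r 𝔇.m} (hR : ∀ n u, R ≠ .B n u) :
    S.step (.q q) R = .zero := by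
  cases R with
  | B n u => exact absurd rfl (hR n u)
  | _ => rfl

theorem good_HA (j) : S.Good (.HA j) := by
  unfold Good
  refine LinearMap.ext fun f => funext fun s => ?_
  obtain ⟨R, t⟩ := s
  show S.rep (𝔇.γ (.ld (.a j)) * 𝔇.γ (.q .H)) f (R, t) = S.rep (𝔇.γ (.q .H)) f (R, t)
  rw [rep_gg, rep_g]
  refine congrArg (fun o => ap o f) ?_
  rw [C3_act S (by simp), C3_act S (by simp)]
  cases R with
  | B n u =>
    show S.act (.q .H) (.B n (.a j :: u), t) = _
    rw [C3_act S (by simp)]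
    show S.lift t (S.outRow n (S.ev true false (.a j :: u) .H [])) =
      S.lift t (S.outRow n (S.ev true false u .H []))
    rw [S.ev_eq (Ev.HA (S.ev_spec true false u .H []))]
  | _ => rfl

private theorem C3_ltH (n : NN G) (t : ℕ → Row G 𝔇.r 𝔇.m) :
    (S.act .lt (.O n, t)).bind (S.act (.q .H)) = some (.H n, t) := by
  rw [C3_act S (by simp)]
  show S.act (.q .H) (.B n [], t) = _
  rw [C3_act S (by simp)]
  show S.lift t (S.outRow n (S.ev true false [] .H [])) = _
  rw [S.ev_eq (Ev.tHst rfl rfl)]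
  show some (Row.H (n * wv S.xs []), t) = _
  simp [wv]

private theorem C3_e_pos {X : Obj} {R : Row G 𝔇.r 𝔇.m} (h : R.tgt = X) :
    S.step (.e X) R = .row R := by
  cases R <;> exact if_pos h

private theorem C3_e_neg {X : Obj} {R : Row G 𝔇.r 𝔇.m} (h : R.tgt ≠ X) :
    S.step (.e X) R = .zero := by
  cases R <;> exact if_neg h

theorem good_HK : S.Good (.HK) := by
  unfold Good
  refine LinearMap.ext fun f => funext fun s => ?_
  obtain ⟨R, t⟩ := s
  show S.rep (𝔇.γ .lt * 𝔇.γ (.q .H) * 𝔇.γ .kap) f (R, t) = S.rep (𝔇.γ (.e .O)) f (R, t)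
  rw [rep_ggg, rep_g]
  refine congrArg (fun o => ap o f) ?_
  cases R with
  | O n =>
    rw [C3_ltH]
    show S.act .kap (.H n, t) = _
    rw [C3_act S (by simp), C3_act S (by simp)]
    rw [C3_e_pos S (X := .O) (R := .O n) rfl]
    rfl
  | _ =>
    rw [C3_act S (by simp), C3_act S (by simp), C3_e_neg S (by simp [Row.tgt])]
    rfl

theorem good_HD (d) : S.Good (.HD d) := by
  unfold Good
  refine LinearMap.ext fun f => funext fun s => ?_
  obtain ⟨R, t⟩ := s
  show S.rep (𝔇.γ .lt * 𝔇.γ (.q .H) * 𝔇.γ (.rd d)) f (R, t) = S.rep 0 f (R, t)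
  rw [rep_ggg, map_zero]
  suffices h : ((S.act .lt (R, t)).bind (S.act (.q .H))).bind (S.act (.rd d)) = none by
    rw [h]
    rfl
  cases R with
  | O n =>
    rw [C3_ltH]
    show S.act (.rd d) (.H n, t) = _
    rw [C3_act S (by simp)]
    rfl
  | _ =>
    rw [C3_act S (by simp)]
    rfl

theorem good_stA (i j) : S.Good (.stA i j) := by
  unfold Good
  by_cases hj : (j : ℕ) = 0
  · show S.rep (𝔇.γ (.q (.st i)) * 𝔇.γ (.rd (.a j))) =
      S.rep (if (j : ℕ) = 0 then 𝔇.γ (.ld (.a j)) * 𝔇.γ (.q (.st i)) else 0)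
    rw [if_pos hj]
    refine C3_gg_gg S fun R t => ?_
    rw [C3_act S (by simp), C3_act S (by simp)]
    cases R with
    | B n u =>
      rw [C3_q S n u (q := .st i) rfl]
      show S.act (.rd (.a j)) (.C n u ⟨.st i, rfl⟩, t) = S.act (.q (.st i)) (.B n (.a j :: u), t)
      rw [C3_act S (by simp), C3_act S (by simp)]
      show S.lift t (S.outRow n (S.ev true false u (.st i) [.a j])) =
        S.lift t (S.outRow n (S.ev true false (.a j :: u) (.st i) []))
      rw [S.ev_eq (Ev.stA hj (S.ev_spec true false (.a j :: u) (.st i) []))]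
    | _ => rfl
  · show S.rep (𝔇.γ (.q (.st i)) * 𝔇.γ (.rd (.a j))) =
      S.rep (if (j : ℕ) = 0 then 𝔇.γ (.ld (.a j)) * 𝔇.γ (.q (.st i)) else 0)
    rw [if_neg hj]
    refine C3_gg_zero S fun R t => ?_
    rw [C3_act S (by simp)]
    cases R with
    | B n u =>
      rw [C3_q S n u (q := .st i) rfl]
      show S.act (.rd (.a j)) (.C n u ⟨.st i, rfl⟩, t) = none
      rw [C3_act S (by simp)]
      show S.lift t (S.outRow n (S.ev true false u (.st i) [.a j])) = none
      rw [S.ev_eq (Ev.stAz hj)]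
      rfl
    | _ => rfl

theorem good_stK (i) : S.Good (.stK i) := by
  unfold Good
  show S.rep (𝔇.γ (.q (.st i)) * 𝔇.γ .kap) =
      S.rep (𝔇.γ (.q (.rest (𝔇.start i))) * 𝔇.γ .kap)
  refine C3_gg_gg S fun R t => ?_
  rw [C3_act S (by simp), C3_act S (by simp)]
  cases R with
  | B n u =>
    rw [C3_q S n u (q := .st i) rfl, C3_q S n u (q := .rest (𝔇.start i)) rfl]
    show S.act .kap (.C n u ⟨.st i, rfl⟩, t) = S.act .kap (.C n u ⟨.rest (𝔇.start i), rfl⟩, t)
    rw [C3_act S (by simp), C3_act S (by simp)]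
    show S.lift t (S.outO n (S.ev true true u (.st i) [])) =
      S.lift t (S.outO n (S.ev true true u (.rest (𝔇.start i)) []))
    rw [S.ev_eq (Ev.kSt rfl (S.ev_spec true true u (.rest (𝔇.start i)) []))]
  | _ => rfl

/-- the right hand side of the dump relations -/
private theorem C3_dump (q : 𝔇.Qt) (n : NN G) (u : List 𝔇.Dt) (t : ℕ → Row G 𝔇.r 𝔇.m) :
    (S.act .qD (.B n u, t)).bind (S.act (.rd (.rc q))) =
      some (.E (n * yv (0 :: 𝔇.codes (u.reverse ++ [.rc q]))), t) := by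
  rw [C3_act S (by simp)]
  show S.act (.rd (.rc q)) (.E (n * yv (0 :: 𝔇.codes u.reverse)), t) = _
  rw [C3_act S (by simp), C3_code, ← mul_assoc]
  rfl

theorem good_monR (q) : S.Good (.monR q) := by
  unfold Good
  by_cases hq : q.isR = true
  · show S.rep (if q.isR then (𝔇.γ (.q q) * 𝔇.γ (.rd .mon), 𝔇.γ .qD * 𝔇.γ (.rd (.rc q)))
      else (0, 0)).1 = S.rep (if q.isR then (𝔇.γ (.q q) * 𝔇.γ (.rd .mon),
        𝔇.γ .qD * 𝔇.γ (.rd (.rc q))) else (0, 0)).2
    rw [if_pos hq]
    refine C3_gg_gg S fun R t => ?_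
    cases R with
    | B n u =>
      rw [C3_dump, C3_act S (by simp), C3_q S n u hq]
      show S.act (.rd .mon) (.C n u ⟨q, hq⟩, t) = _
      rw [C3_act S (by simp)]
      show S.lift t (S.outRow n (S.ev true false u q [.mon])) = _
      rw [S.ev_eq (Ev.monR hq), C3_dmp]
      rfl
    | _ =>
      rw [C3_act S (by simp), C3_act S (by simp)]
      rfl
  · show S.rep (if q.isR then (𝔇.γ (.q q) * 𝔇.γ (.rd .mon), 𝔇.γ .qD * 𝔇.γ (.rd (.rc q)))
      else (0, 0)).1 = S.rep (if q.isR then (𝔇.γ (.q q) * 𝔇.γ (.rd .mon),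
        𝔇.γ .qD * 𝔇.γ (.rd (.rc q))) else (0, 0)).2
    rw [if_neg hq]

theorem good_rcR (q q') : S.Good (.rcR q q') := by
  unfold Good
  show S.rep (if q.isR then (𝔇.γ (.q q) * 𝔇.γ (.rd (.rc q')), 0) else (0, 0)).1 =
    S.rep (if q.isR then (𝔇.γ (.q q) * 𝔇.γ (.rd (.rc q')), 0) else (0, 0)).2
  by_cases hq : q.isR = true
  · rw [if_pos hq]
    refine C3_gg_zero S fun R t => ?_
    rw [C3_act S (by simp)]
    cases R with
    | B n u =>
      rw [C3_q S n u hq]
      show S.act (.rd (.rc q')) (.C n u ⟨q, hq⟩, t) = _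
      rw [C3_act S (by simp)]
      show S.lift t (S.outRow n (S.ev true false u q [.rc q'])) = _
      rw [S.ev_eq (Ev.rcR hq)]
      rfl
    | _ => rfl
  · rw [if_neg hq]

theorem good_monL (q) : S.Good (.monL q) := by
  unfold Good
  show S.rep (if q.isR then (0, 0) else (𝔇.γ (.ld .mon) * 𝔇.γ (.q q),
      𝔇.γ .qD * 𝔇.γ (.rd (.rc q)))).1 = S.rep (if q.isR then (0, 0) else
      (𝔇.γ (.ld .mon) * 𝔇.γ (.q q), 𝔇.γ .qD * 𝔇.γ (.rd (.rc q)))).2
  by_cases hq : q.isR = true
  · rw [if_pos hq]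
  · rw [if_neg hq]
    have hq' : q.isR = false := by simpa using hq
    refine C3_gg_gg S fun R t => ?_
    cases R with
    | B n u =>
      rw [C3_dump, C3_act S (by simp)]
      show S.act (.q q) (.B n (.mon :: u), t) = _
      rw [C3_act S (by simp)]
      show S.lift t (S.outRow n (S.ev true false (.mon :: u) q [])) = _
      rw [S.ev_eq (Ev.monL hq'), C3_dmp]
      rfl
    | _ =>
      rw [C3_act S (by simp), C3_act S (by simp)]
      rfl

theorem good_rcL (q q') : S.Good (.rcL q q') := by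
  unfold Good
  show S.rep (if q.isR then (0, 0) else (𝔇.γ (.ld (.rc q')) * 𝔇.γ (.q q), 0)).1 =
    S.rep (if q.isR then (0, 0) else (𝔇.γ (.ld (.rc q')) * 𝔇.γ (.q q), 0)).2
  by_cases hq : q.isR = true
  · rw [if_pos hq]
  · rw [if_neg hq]
    have hq' : q.isR = false := by simpa using hq
    refine C3_gg_zero S fun R t => ?_
    rw [C3_act S (by simp)]
    cases R with
    | B n u =>
      show S.act (.q q) (.B n (.rc q' :: u), t) = _
      rw [C3_act S (by simp)]
      show S.lift t (S.outRow n (S.ev true false (.rc q' :: u) q [])) = _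
      rw [S.ev_eq (Ev.rcL hq')]
      rfl
    | _ => rfl

end Spec

end P193.One
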