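import Mathlib
import Vale.Agent.Lib.P193.One.ModelB

/-!
# P193, part I: the model, C4: relations hold in the model

Method: `S.Good i` unfolds to an equality of endomorphisms; `ext`/`funext` to a function `f` and a
sequence `s = (R, t)`, rewrite with `rep_g`, `rep_gg`, `rep_ggg`, and do cases on the row `R`; then
both sides are computed by `act`, `lift`, `step` (use `S.ev_eq` to evaluate runs, `cont_rd`,
`cont_kap` for continued runs).
-/

namespace P193.One

open P193.Mach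

namespace Spec

variable {𝔇 : Data} {G : Type} [Group G] (S : Spec 𝔇 G)

private theorem C4_act {x : 𝔇.Gt} (hx : x ≠ .Ts) (R : Row G 𝔇.r 𝔇.m) (t : ℕ → Row G 𝔇.r 𝔇.m) :
    S.act x (R, t) = S.lift t (S.step x R) := by
  unfold act
  rw [if_neg hx]

private theorem C4_code (u : List 𝔇.Dt) (d : 𝔇.Dt) :
    (yv (0 :: 𝔇.codes (u ++ [d])) : NN G) = yv (0 :: 𝔇.codes u) * yv (𝔇.code d) := by
  rw [← yv_append]
  simp

omit [Group G] in
private theorem C4_isB (R : Row G 𝔇.r 𝔇.m) : (∃ n u, R = .B n u) ∨ ∀ n u, R ≠ .B n u := by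
  cases R with
  | B n u => exact Or.inl ⟨n, u, rfl⟩
  | _ =>
    right
    intro n u h
    injection h

omit [Group G] in
private theorem C4_isO (R : Row G 𝔇.r 𝔇.m) : (∃ n, R = .O n) ∨ ∀ n, R ≠ .O n := by
  cases R with
  | O n => exact Or.inl ⟨n, rfl⟩
  | _ =>
    right
    intro n h
    injection h

/-- generators with source `B` kill rows with other targets -/
private theorem C4_noB {x : 𝔇.Gt} (hx : 𝔇.src x = some .B) (R : Row G 𝔇.r 𝔇.m)
    (hR : ∀ n u, R ≠ .B n u) (t : ℕ → Row G 𝔇.r 𝔇.m) : S.act x (R, t) = none := by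
  have hT : x ≠ .Ts := by
    rintro rfl
    exact absurd hx (by simp [Data.src])
  rw [S.C4_act hT]
  cases R with
  | B n u => exact absurd rfl (hR n u)
  | _ =>
    cases x with
    | ld d => rfl
    | q q => rfl
    | qD => rfl
    | qE => rfl
    | qs i => rfl
    | sw => rfl
    | sV => rfl
    | _ => exact absurd hx (by simp [Data.src])

/-- generators with source `O` kill rows with other targets -/
private theorem C4_noO {x : 𝔇.Gt} (hx : 𝔇.src x = some .O) (R : Row G 𝔇.r 𝔇.m)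
    (hR : ∀ n, R ≠ .O n) (t : ℕ → Row G 𝔇.r 𝔇.m) : S.act x (R, t) = none := by
  have hT : x ≠ .Ts := by
    rintro rfl
    exact absurd hx (by simp [Data.src])
  rw [S.C4_act hT]
  cases R with
  | O n => exact absurd rfl (hR n)
  | _ =>
    cases x with
    | sg σ => rfl
    | lt => rfl
    | T => rfl
    | _ => exact absurd hx (by simp [Data.src])

private theorem C4_rep_zero (f : Sq G 𝔇.r 𝔇.m → ZMod 2) (s : Sq G 𝔇.r 𝔇.m) :
    S.rep (0 : 𝔇.FA) f s = ap none f := by
  rw [map_zero]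
  rfl

private theorem C4_ld (n : NN G) (u : List 𝔇.Dt) (d : 𝔇.Dt) (t : ℕ → Row G 𝔇.r 𝔇.m) :
    S.act (.ld d) (.B n u, t) = some (.B n (d :: u), t) := S.C4_act (by simp) _ _

private theorem C4_lt (n : NN G) (t : ℕ → Row G 𝔇.r 𝔇.m) :
    S.act .lt (.O n, t) = some (.B n [], t) := S.C4_act (by simp) _ _

private theorem C4_sg (σ : 𝔇.Sg) (n : NN G) (t : ℕ → Row G 𝔇.r 𝔇.m) :
    S.act (.sg σ) (.O n, t) = some (.O (n * lv S.xs σ), t) := S.C4_act (by simp) _ _

private theorem C4_qD (n : NN G) (u : List 𝔇.Dt) (t : ℕ → Row G 𝔇.r 𝔇.m) :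
    S.act .qD (.B n u, t) = some (.E (n * yv (0 :: 𝔇.codes u.reverse)), t) :=
  S.C4_act (by simp) _ _

private theorem C4_qEnil (n : NN G) (t : ℕ → Row G 𝔇.r 𝔇.m) :
    S.act .qE (.B n [], t) = some (.E n, t) := by
  rw [S.C4_act (by simp)]
  have h1 : S.step .qE (.B n []) = .row (.E n) := by
    simp only [step, if_true]
  rw [h1]
  rfl

private theorem C4_qEcons (n : NN G) (d : 𝔇.Dt) (u : List 𝔇.Dt) (t : ℕ → Row G 𝔇.r 𝔇.m) :
    S.act .qE (.B n (d :: u), t) = none := by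
  rw [S.C4_act (by simp)]
  have h1 : S.step .qE (.B n (d :: u)) = .zero := by
    simp only [step]
    rw [if_neg (by simp)]
  rw [h1]
  rfl

private theorem C4_rdE (n : NN G) (d : 𝔇.Dt) (t : ℕ → Row G 𝔇.r 𝔇.m) :
    S.act (.rd d) (.E n, t) = some (.E (n * yv (𝔇.code d)), t) := S.C4_act (by simp) _ _

private theorem C4_kapE (n : NN G) (t : ℕ → Row G 𝔇.r 𝔇.m) :
    S.act .kap (.E n, t) = some (.O (n * yv [1]), t) := S.C4_act (by simp) _ _

private theorem C4_qs_pos (i : Fin 3) (n : NN G) (u : List 𝔇.Dt) (t : ℕ → Row G 𝔇.r 𝔇.m)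
    (hu : u = List.replicate u.length 𝔇.a0) :
    S.act (.qs i) (.B n u, t) = some (.C n u ⟨.st i, rfl⟩, t) := by
  rw [S.C4_act (by simp)]
  have h1 : S.step (.qs i) (.B n u) = .row (.C n u ⟨.st i, rfl⟩) := by
    simp only [step]
    rw [if_pos hu]
  rw [h1]
  rfl

private theorem C4_qs_neg (i : Fin 3) (n : NN G) (u : List 𝔇.Dt) (t : ℕ → Row G 𝔇.r 𝔇.m)
    (hu : u ≠ List.replicate u.length 𝔇.a0) :
    S.act (.qs i) (.B n u, t) = none := by
  rw [S.C4_act (by simp)]
  have h1 : S.step (.qs i) (.B n u) = .zero := by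
    simp only [step]
    rw [if_neg hu]
  rw [h1]
  rfl

private theorem C4_stR (n : NN G) (u : List 𝔇.Dt) {q : 𝔇.Qt} (hq : q.isR = true) :
    S.outRow n (.stR [] u q) = .row (.C n u ⟨q, hq⟩) := by
  show (if h : q.isR = true then Res.row (.C (n * wv S.xs []) u ⟨q, h⟩) else Res.zero) = _
  rw [dif_pos hq]
  simp [wv]

private theorem C4_q (n : NN G) (u : List 𝔇.Dt) {q : 𝔇.Qt} (hq : q.isR = true)
    (t : ℕ → Row G 𝔇.r 𝔇.m) :
    S.act (.q q) (.B n u, t) = some (.C n u ⟨q, hq⟩, t) := by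
  rw [S.C4_act (by simp)]
  show S.lift t (S.outRow n (S.ev true false u q [])) = _
  rw [S.ev_right true u hq, C4_stR S n u hq]
  rfl

private theorem C4_rdC (n : NN G) (u : List 𝔇.Dt) (q : QR 𝔇.m) (d : 𝔇.Dt)
    (t : ℕ → Row G 𝔇.r 𝔇.m) :
    S.act (.rd d) (.C n u q, t) = S.lift t (S.outRow n (S.ev true false u q [d])) :=
  S.C4_act (by simp) _ _

private theorem C4_kapC (n : NN G) (u : List 𝔇.Dt) (q : QR 𝔇.m)
    (t : ℕ → Row G 𝔇.r 𝔇.m) :
    S.act .kap (.C n u q, t) = S.lift t (S.outO n (S.ev true true u q [])) :=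
  S.C4_act (by simp) _ _

private theorem C4_repl_cons (u : List 𝔇.Dt) (hu : u = List.replicate u.length 𝔇.a0) :
    𝔇.a0 :: u = List.replicate (𝔇.a0 :: u).length 𝔇.a0 := by
  rw [List.length_cons, List.replicate_succ, ← hu]

/-- the start state absorbs the input letter -/
private theorem C4_st_rd (n : NN G) (u : List 𝔇.Dt) (i : Fin 3) (t : ℕ → Row G 𝔇.r 𝔇.m) :
    S.act (.rd 𝔇.a0) (.C n u ⟨.st i, rfl⟩, t) = some (.C n (𝔇.a0 :: u) ⟨.st i, rfl⟩, t) := by
  rw [S.C4_rdC]
  have h1 : S.ev true false u (.st i) [𝔇.a0] = .stR [] (𝔇.a0 :: u) (.st i) :=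
    S.ev_eq (Ev.stA (j := ⟨0, 𝔇.hr⟩) rfl (Ev.openR rfl rfl))
  show S.lift t (S.outRow n (S.ev true false u (.st i) [𝔇.a0])) = _
  rw [h1, C4_stR S n (𝔇.a0 :: u) (q := .st i) rfl]
  rfl

private theorem C4_sgOf (w : List (Fin 𝔇.c ⊕ Fin 6)) :
    (w.map finSumFinEquiv).map 𝔇.sgOf = w := by
  rw [List.map_map]
  have : (𝔇.sgOf ∘ finSumFinEquiv) = id := by
    funext x
    simp [Data.sgOf]
  rw [this, List.map_id]

private theorem C4_wv_inl (w : List (Fin 𝔇.c)) :
    wv S.xs (w.map .inl) = ((w.map S.xs).prod, 1) := by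
  induction w with
  | nil => rfl
  | cons s w ih =>
    rw [List.map_cons, List.map_cons, List.prod_cons]
    have h : wv S.xs (.inl s :: w.map .inl) = lv S.xs (.inl s) * wv S.xs (w.map .inl) := by
      simp [wv]
    rw [h, ih]
    rfl

/-- the three runs, read in the model -/
private theorem C4_run0 (n : NN G) (u : List 𝔇.Dt) (hu : u = List.replicate u.length 𝔇.a0)
    (t : ℕ → Row G 𝔇.r 𝔇.m) :
    S.act .kap (.C n u ⟨.st 0, rfl⟩, t) = some (.O n, t) := by
  rw [S.C4_kapC]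
  have h0 := ev_start (S.run0 u.length)
  rw [← hu] at h0
  show S.lift t (S.outO n (S.ev true true u (.st 0) [])) = _
  rw [S.ev_eq h0]
  have h1 : toOut 𝔇 (some ((S.F0 u.length).map fun s => finSumFinEquiv (.inl s))) =
      .fin ((S.F0 u.length).map .inl) := by
    have h2 : ((S.F0 u.length).map fun s => finSumFinEquiv (.inl s)) =
        (((S.F0 u.length).map (.inl : Fin 𝔇.c → Fin 𝔇.c ⊕ Fin 6)).map finSumFinEquiv) := by
      rw [List.map_map]
      rfl
    rw [h2]
    show Out.fin _ = Out.fin _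
    rw [C4_sgOf]
  rw [h1]
  show some (Row.O (n * wv S.xs ((S.F0 u.length).map .inl)), t) = _
  have h3 : wv S.xs ((S.F0 u.length).map .inl) = 1 := by
    rw [S.C4_wv_inl, S.F0_val]
    rfl
  rw [h3, mul_one]

private theorem C4_run1 (n : NN G) (u : List 𝔇.Dt) (hu : u = List.replicate u.length 𝔇.a0)
    (t : ℕ → Row G 𝔇.r 𝔇.m) :
    S.act .kap (.C n u ⟨.st 1, rfl⟩, t) = some (.O (n * wv S.xs (S.W u.length)), t) := by
  rw [S.C4_kapC]
  have h0 := ev_start (S.run1 u.length)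
  rw [← hu] at h0
  show S.lift t (S.outO n (S.ev true true u (.st 1) [])) = _
  rw [S.ev_eq h0]
  have h1 : toOut 𝔇 (some ((S.W u.length).map finSumFinEquiv)) = .fin (S.W u.length) := by
    show Out.fin _ = Out.fin _
    rw [C4_sgOf]
  rw [h1]
  rfl

private theorem C4_run2 (n : NN G) (u : List 𝔇.Dt) (hu : u = List.replicate u.length 𝔇.a0)
    (t : ℕ → Row G 𝔇.r 𝔇.m) :
    S.act .kap (.C n u ⟨.st 2, rfl⟩, t) =
      if S.V (wv S.xs (S.W u.length)) = true then some (.O n, t) else none := by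
  rw [S.C4_kapC]
  have h0 := ev_start (S.run2 u.length)
  rw [← hu] at h0
  show S.lift t (S.outO n (S.ev true true u (.st 2) [])) = _
  rw [S.ev_eq h0]
  by_cases hV : S.V (wv S.xs (S.W u.length)) = true
  · rw [if_pos hV, if_pos hV]
    show some (Row.O (n * wv S.xs []), t) = _
    simp [wv]
  · rw [if_neg hV, if_neg hV]
    rfl

theorem good_DA (d) : S.Good (.DA d) := by
  refine LinearMap.ext fun f => funext fun s => ?_
  obtain ⟨R, t⟩ := s
  show S.rep (𝔇.γ (.ld d) * 𝔇.γ .qD) f (R, t) = S.rep (𝔇.γ .qD * 𝔇.γ (.rd d)) f (R, t)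
  rw [rep_gg, rep_gg]
  rcases C4_isB R with ⟨n, u, rfl⟩ | hR
  · rw [S.C4_ld, Option.bind_some, S.C4_qD, S.C4_qD, Option.bind_some, S.C4_rdE,
      List.reverse_cons, C4_code, mul_assoc]
  · rw [S.C4_noB rfl R hR, S.C4_noB rfl R hR]
    rfl

theorem good_DL : S.Good (.DL) := by
  refine LinearMap.ext fun f => funext fun s => ?_
  obtain ⟨R, t⟩ := s
  show S.rep (𝔇.γ .lt * 𝔇.γ .qD) f (R, t) =
    S.rep (𝔇.γ (.sg (.inr 0)) * 𝔇.γ .lt * 𝔇.γ .qE) f (R, t)
  rw [rep_gg, rep_ggg]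
  rcases C4_isO R with ⟨n, rfl⟩ | hR
  · rw [S.C4_lt, Option.bind_some, S.C4_qD, S.C4_sg, Option.bind_some, S.C4_lt, Option.bind_some,
      S.C4_qEnil]
    rfl
  · rw [S.C4_noO rfl R hR, S.C4_noO rfl R hR]
    rfl

theorem good_EA (d) : S.Good (.EA d) := by
  refine LinearMap.ext fun f => funext fun s => ?_
  obtain ⟨R, t⟩ := s
  show S.rep (𝔇.γ (.ld d) * 𝔇.γ .qE) f (R, t) = S.rep (0 : 𝔇.FA) f (R, t)
  rw [rep_gg, C4_rep_zero]
  rcases C4_isB R with ⟨n, u, rfl⟩ | hR
  · rw [S.C4_ld, Option.bind_some, S.C4_qEcons]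
  · rw [S.C4_noB rfl R hR]
    rfl

private theorem C4_yw (w : List (Fin 6)) (f : Sq G 𝔇.r 𝔇.m → ZMod 2) (n : NN G)
    (t : ℕ → Row G 𝔇.r 𝔇.m) :
    S.rep (𝔇.yw w) f (.O n, t) = f (.O (n * yv w), t) := by
  induction w generalizing n with
  | nil =>
    have h1 : 𝔇.yw [] = 1 := by simp [Data.yw]
    have h2 : (yv [] : NN G) = 1 := rfl
    rw [h1, map_one, h2, mul_one]
    rfl
  | cons y w ih =>
    have h1 : 𝔇.yw (y :: w) = 𝔇.γ (.sg (.inr y)) * 𝔇.yw w := by
      simp [Data.yw]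
    rw [h1, map_mul, Module.End.mul_apply, rep_g, S.C4_sg]
    show S.rep (𝔇.yw w) f (.O (n * lv S.xs (.inr y)), t) = _
    rw [ih]
    have h2 : (yv (y :: w) : NN G) = lv S.xs (.inr y) * yv w := by
      have h3 := yv_append (G := G) [y] w
      rw [List.singleton_append] at h3
      rw [h3]
      rfl
    rw [h2, mul_assoc]

theorem good_EL (d) : S.Good (.EL d) := by
  refine LinearMap.ext fun f => funext fun s => ?_
  obtain ⟨R, t⟩ := s
  show S.rep (𝔇.γ .lt * 𝔇.γ .qE * 𝔇.γ (.rd d)) f (R, t) =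
    S.rep (𝔇.yw (𝔇.code d) * 𝔇.γ .lt * 𝔇.γ .qE) f (R, t)
  rw [rep_ggg, mul_assoc, map_mul, Module.End.mul_apply]
  rcases C4_isO R with ⟨n, rfl⟩ | hR
  · rw [S.C4_lt, Option.bind_some, S.C4_qEnil, Option.bind_some, S.C4_rdE, C4_yw, rep_gg,
      S.C4_lt, Option.bind_some, S.C4_qEnil]
  · rw [S.C4_noO rfl R hR]
    have h1 : 𝔇.yw (𝔇.code d) = 𝔇.γ (.sg (.inr 5)) * 𝔇.yw (𝔇.code d).tail := by
      simp [Data.yw, Data.code]
    rw [h1, map_mul, Module.End.mul_apply, rep_g, S.C4_noO rfl R hR]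
    rfl

theorem good_EK : S.Good (.EK) := by
  refine LinearMap.ext fun f => funext fun s => ?_
  obtain ⟨R, t⟩ := s
  show S.rep (𝔇.γ .lt * 𝔇.γ .qE * 𝔇.γ .kap) f (R, t) = S.rep (𝔇.γ (.sg (.inr 1))) f (R, t)
  rw [rep_ggg, rep_g]
  rcases C4_isO R with ⟨n, rfl⟩ | hR
  · rw [S.C4_lt, Option.bind_some, S.C4_qEnil, Option.bind_some, S.C4_kapE, S.C4_sg]
    rfl
  · rw [S.C4_noO rfl R hR, S.C4_noO rfl R hR]
    rfl

theorem good_qsA (i d) : S.Good (.qsA i d) := by
  refine LinearMap.ext fun f => funext fun s => ?_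
  obtain ⟨R, t⟩ := s
  show S.rep (𝔇.γ (.ld d) * 𝔇.γ (.qs i)) f (R, t) =
    S.rep (if d = 𝔇.a0 then 𝔇.γ (.qs i) * 𝔇.γ (.rd d) else 0) f (R, t)
  by_cases hd : d = 𝔇.a0
  · rw [if_pos hd, rep_gg, rep_gg]
    rcases C4_isB R with ⟨n, u, rfl⟩ | hR
    · rw [S.C4_ld, Option.bind_some, hd]
      by_cases hu : u = List.replicate u.length 𝔇.a0
      · rw [S.C4_qs_pos i n u t hu, Option.bind_some, S.C4_st_rd,
          S.C4_qs_pos i n (𝔇.a0 :: u) t (C4_repl_cons u hu)]
      · have hu' : 𝔇.a0 :: u ≠ List.replicate (𝔇.a0 :: u).length 𝔇.a0 := by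
          intro h
          rw [List.length_cons, List.replicate_succ, List.cons.injEq] at h
          exact hu h.2
        rw [S.C4_qs_neg i n u t hu, S.C4_qs_neg i n (𝔇.a0 :: u) t hu']
        rfl
    · rw [S.C4_noB rfl R hR, S.C4_noB rfl R hR]
      rfl
  · rw [if_neg hd, rep_gg, C4_rep_zero]
    rcases C4_isB R with ⟨n, u, rfl⟩ | hR
    · have hu' : d :: u ≠ List.replicate (d :: u).length 𝔇.a0 := by
        intro h
        rw [List.length_cons, List.replicate_succ, List.cons.injEq] at h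
        exact hd h.1
      rw [S.C4_ld, Option.bind_some, S.C4_qs_neg i n (d :: u) t hu']
    · rw [S.C4_noB rfl R hR]
      rfl

theorem good_qsR (i d) : S.Good (.qsR i d) := by
  unfold Good
  show S.rep (if d = 𝔇.a0 ∨ d = .mon then (0, 0) else (𝔇.γ (.qs i) * 𝔇.γ (.rd d), 0)).1 =
    S.rep (if d = 𝔇.a0 ∨ d = .mon then (0, 0) else (𝔇.γ (.qs i) * 𝔇.γ (.rd d), 0)).2
  by_cases hd : d = 𝔇.a0 ∨ d = .mon
  · rw [if_pos hd]
  · rw [if_neg hd]
    refine LinearMap.ext fun f => funext fun s => ?_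
    obtain ⟨R, t⟩ := s
    show S.rep (𝔇.γ (.qs i) * 𝔇.γ (.rd d)) f (R, t) = S.rep (0 : 𝔇.FA) f (R, t)
    rw [rep_gg, C4_rep_zero]
    rcases C4_isB R with ⟨n, u, rfl⟩ | hR
    · by_cases hu : u = List.replicate u.length 𝔇.a0
      · rw [S.C4_qs_pos i n u t hu, Option.bind_some, S.C4_rdC]
        have h1 : S.ev true false u (.st i) [d] = .zero := by
          cases d with
          | a j =>
            have hj : (j : ℕ) ≠ 0 := by
              intro h
              apply hd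
              left
              show D.a j = D.a ⟨0, 𝔇.hr⟩
              congr 1
              exact Fin.ext h
            exact S.ev_eq (Ev.stAz hj)
          | mon => exact absurd (Or.inr rfl) hd
          | rc q => exact S.ev_eq (Ev.rcR rfl)
        show ap (S.lift t (S.outRow n (S.ev true false u (.st i) [d]))) f = _
        rw [h1]
        rfl
      · rw [S.C4_qs_neg i n u t hu]
        rfl
    · rw [S.C4_noB rfl R hR]
      rfl

theorem good_qsL (i) : S.Good (.qsL i) := by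
  refine LinearMap.ext fun f => funext fun s => ?_
  obtain ⟨R, t⟩ := s
  show S.rep (𝔇.γ .lt * 𝔇.γ (.qs i)) f (R, t) = S.rep (𝔇.γ .lt * 𝔇.γ (.q (.st i))) f (R, t)
  rw [rep_gg, rep_gg]
  rcases C4_isO R with ⟨n, rfl⟩ | hR
  · rw [S.C4_lt, Option.bind_some, Option.bind_some, S.C4_qs_pos i n [] t rfl,
      S.C4_q n [] (q := .st i) rfl]
  · rw [S.C4_noO rfl R hR]
    rfl

theorem good_rho : S.Good (.rho) := by
  refine LinearMap.ext fun f => funext fun s => ?_
  obtain ⟨R, t⟩ := s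
  show S.rep (𝔇.γ (.qs 0) * 𝔇.γ (.rd 𝔇.a0) * 𝔇.γ .kap) f (R, t) =
    S.rep (𝔇.γ (.qs 0) * 𝔇.γ .kap) f (R, t)
  rw [rep_ggg, rep_gg]
  rcases C4_isB R with ⟨n, u, rfl⟩ | hR
  · by_cases hu : u = List.replicate u.length 𝔇.a0
    · rw [S.C4_qs_pos 0 n u t hu, Option.bind_some, S.C4_st_rd, Option.bind_some,
        Option.bind_some, S.C4_run0 n (𝔇.a0 :: u) (C4_repl_cons u hu), S.C4_run0 n u hu]
    · rw [S.C4_qs_neg 0 n u t hu]
      rfl
  · rw [S.C4_noB rfl R hR]
    rfl

theorem good_swE : S.Good (.swE) := by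
  refine LinearMap.ext fun f => funext fun s => ?_
  obtain ⟨R, t⟩ := s
  show S.rep (𝔇.γ .sw * 𝔇.γ .ez) f (R, t) = S.rep (𝔇.γ (.qs 1) * 𝔇.γ .kap * 𝔇.γ .T) f (R, t)
  rw [rep_gg, rep_ggg]
  rcases C4_isB R with ⟨n, u, rfl⟩ | hR
  · by_cases hu : u = List.replicate u.length 𝔇.a0
    · have h1 : S.act .sw (.B n u, t) = some (.Z n u.length, t) := by
        rw [S.C4_act (by simp)]
        have h2 : S.step .sw (.B n u) = .row (.Z n u.length) := by
          simp only [step]
          rw [if_pos hu]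
        rw [h2]
        rfl
      rw [h1, Option.bind_some, S.C4_qs_pos 1 n u t hu, Option.bind_some,
        S.C4_run1 n u hu, Option.bind_some, S.C4_act (by simp), S.C4_act (by simp)]
      rfl
    · have h1 : S.act .sw (.B n u, t) = none := by
        rw [S.C4_act (by simp)]
        have h2 : S.step .sw (.B n u) = .zero := by
          simp only [step]
          rw [if_neg hu]
        rw [h2]
        rfl
      rw [h1, S.C4_qs_neg 1 n u t hu]
      rfl
  · rw [S.C4_noB rfl R hR, S.C4_noB rfl R hR]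
    rfl

theorem good_sVE : S.Good (.sVE) := by
  refine LinearMap.ext fun f => funext fun s => ?_
  obtain ⟨R, t⟩ := s
  show S.rep (𝔇.γ .sV * 𝔇.γ .ez) f (R, t) = S.rep (𝔇.γ (.qs 2) * 𝔇.γ .kap * 𝔇.γ .T) f (R, t)
  rw [rep_gg, rep_ggg]
  rcases C4_isB R with ⟨n, u, rfl⟩ | hR
  · by_cases hu : u = List.replicate u.length 𝔇.a0
    · have h1 : S.act .sV (.B n u, t) =
          if S.V n = true then some (.Z 1 u.length, t) else none := by
        rw [S.C4_act (by simp)]
        have h2 : S.step .sV (.B n u) = .colrow n (.Z 1 u.length) := by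
          simp only [step]
          rw [if_pos hu]
        rw [h2]
        rfl
      have h3 : ∀ (m : NN G) (t' : ℕ → Row G 𝔇.r 𝔇.m), S.act .T (.O m, t') =
          if S.V m = true then some (t' 0, fun k => t' (k + 1)) else none := by
        intro m t'
        rw [S.C4_act (by simp)]
        rfl
      have h4 : ∀ (k : ℕ) (t' : ℕ → Row G 𝔇.r 𝔇.m), S.act .ez (.Z 1 k, t') =
          if S.V (wv S.xs (S.W k)) = true then some (t' 0, fun k => t' (k + 1)) else none := by
        intro k t'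
        rw [S.C4_act (by simp)]
        show (if S.V (1 * wv S.xs (S.W k)) = true then _ else _) = _
        rw [one_mul]
      rw [h1, S.C4_qs_pos 2 n u t hu, Option.bind_some, S.C4_run2 n u hu]
      by_cases hV : S.V (wv S.xs (S.W u.length)) = true
      · rw [if_pos hV, Option.bind_some, h3]
        by_cases hn : S.V n = true
        · rw [if_pos hn, if_pos hn, Option.bind_some, h4, if_pos hV]
        · rw [if_neg hn, if_neg hn]
          rfl
      · rw [if_neg hV]
        by_cases hn : S.V n = true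
        · rw [if_pos hn, Option.bind_some, h4, if_neg hV]
          rfl
        · rw [if_neg hn]
          rfl
    · have h1 : S.act .sV (.B n u, t) = none := by
        rw [S.C4_act (by simp)]
        have h2 : S.step .sV (.B n u) = .zero := by
          simp only [step]
          rw [if_neg hu]
        rw [h2]
        rfl
      rw [h1, S.C4_qs_neg 2 n u t hu]
      rfl
  · rw [S.C4_noB rfl R hR, S.C4_noB rfl R hR]
    rfl

end Spec

end P193.One
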