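import Mathlib
import Vale.Agent.Lib.P193.One.ModelC1
import Vale.Agent.Lib.P193.One.ModelC2
import Vale.Agent.Lib.P193.One.ModelC3
import Vale.Agent.Lib.P193.One.ModelC4

/-!
# P193, part I: the algebra `A` is nontrivial
-/

namespace P193.One

open P193.Mach

namespace Spec

variable {𝔇 : Data} {G : Type} [Group G] (S : Spec 𝔇 G)

theorem good (i : Data.RI 𝔇.c 𝔇.r 𝔇.m) : S.Good i := by
  cases i with
  | idem X Y => exact S.good_idem X Y
  | sum1 => exact S.good_sum1
  | src x => exact S.good_src x
  | tgt x => exact S.good_tgt x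
  | comm s y => exact S.good_comm s y
  | restA p j => exact S.good_restA p j
  | restK p => exact S.good_restK p
  | lftA p j => exact S.good_lftA p j
  | lftL p => exact S.good_lftL p
  | HA j => exact S.good_HA j
  | HK => exact S.good_HK
  | HD d => exact S.good_HD d
  | stA i j => exact S.good_stA i j
  | stK i => exact S.good_stK i
  | monR q => exact S.good_monR q
  | rcR q q' => exact S.good_rcR q q'
  | monL q => exact S.good_monL q
  | rcL q q' => exact S.good_rcL q q'
  | DA d => exact S.good_DA d
  | DL => exact S.good_DL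
  | EA d => exact S.good_EA d
  | EL d => exact S.good_EL d
  | EK => exact S.good_EK
  | qsA i d => exact S.good_qsA i d
  | qsR i d => exact S.good_qsR i d
  | qsL i => exact S.good_qsL i
  | rho => exact S.good_rho
  | swA d => exact S.good_swA d
  | sVA d => exact S.good_sVA d
  | swE => exact S.good_swE
  | sVE => exact S.good_sVE
  | sVL => exact S.good_sVL
  | TT => exact S.good_TT

/-- the representation of `A` -/
noncomputable def repA : 𝔇.A →ₐ[ZMod 2] Module.End (ZMod 2) (Sq G 𝔇.r 𝔇.m → ZMod 2) :=
  RingQuot.liftAlgHom (ZMod 2) ⟨S.rep, by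
    rintro x y ⟨i, hi⟩
    have := S.good i
    unfold Good at this
    rw [hi] at this
    exact this⟩

include S in
theorem nontrivial_A : Nontrivial 𝔇.A := by
  have : Nontrivial (Module.End (ZMod 2) (Sq G 𝔇.r 𝔇.m → ZMod 2)) := by
    refine ⟨0, 1, fun h => ?_⟩
    have h1 := congrArg (fun φ => φ (fun _ => 1) (.O 1, fun _ => .O 1)) h
    simp at h1
  exact S.repA.toRingHom.domain_nontrivial

end Spec

end P193.One
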