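import Mathlib
import Vale.Agent.Lib.P193.One.ModelD
import Vale.Agent.Lib.P193.One.NuApi
import Vale.Agent.Lib.P193.Two.FinPresQuot

/-!
# P193, part I: `A` is finitely presented; the embedding of `G` into the units of `A`
-/

namespace P193.One

open P193.Mach

/-- `A` is finitely presented -/
theorem finPres_A (𝔇 : Data) : FinPres 𝔇.A := by
  apply finPres_ringQuot
  have : {p : 𝔇.FA × 𝔇.FA | 𝔇.Rel p.1 p.2} = Set.range 𝔇.relOf := by
    ext p
    constructor
    · rintro ⟨i, hi⟩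
      exact ⟨i, hi⟩
    · rintro ⟨i, hi⟩
      exact ⟨i, hi⟩
  rw [this]
  exact Set.finite_range _

namespace Spec

variable {𝔇 : Data} {G : Type} [Group G] (S : Spec 𝔇 G)

/-- `g ↦ ν(g) + (1 - e_O)` -/
noncomputable def embA (g : G) : 𝔇.A := S.ν (g, 1) + (1 - 𝔇.g (.e .O))

theorem embA_one : S.embA 1 = 1 := by
  have : S.ν ((1 : G), (1 : FreeMonoid (Fin 6))) = 𝔇.g (.e .O) := S.nu_one
  rw [embA, this]
  abel

theorem embA_mul (g h : G) : S.embA (g * h) = S.embA g * S.embA h := by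
  have e1 : S.ν (g, 1) * (1 - 𝔇.g (.e .O)) = 0 := by
    rw [mul_sub, mul_one, S.nu_eO, sub_self]
  have e2 : (1 - 𝔇.g (.e .O)) * S.ν (h, 1) = 0 := by
    rw [sub_mul, one_mul, S.eO_nu, sub_self]
  have e3 : (1 - 𝔇.g (.e .O)) * (1 - 𝔇.g (.e .O)) = 1 - 𝔇.g (.e .O) := by
    rw [mul_sub, mul_one, sub_mul, one_mul, 𝔇.e_self, sub_self, sub_zero]
  have e4 : S.ν (g, 1) * S.ν (h, 1) = S.ν (g * h, 1) := by
    rw [S.nu_mul]
    congr 1
  rw [embA, embA, embA, mul_add, add_mul, add_mul, e4, e1, e2, e3, add_zero, zero_add]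

/-- the embedding of `G` into the units of `A` -/
noncomputable def emb : G →* (𝔇.A)ˣ where
  toFun g := ⟨S.embA g, S.embA g⁻¹, by rw [← embA_mul, mul_inv_cancel, embA_one],
    by rw [← embA_mul, inv_mul_cancel, embA_one]⟩
  map_one' := Units.ext S.embA_one
  map_mul' g h := Units.ext (S.embA_mul g h)

theorem emb_injective : Function.Injective S.emb := by
  rw [injective_iff_map_eq_one]
  intro g hg
  by_contra hne
  have h1 : S.embA g = 1 := congrArg Units.val hg
  have h2 : S.ν (g, 1) = 𝔇.g (.e .O) := by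
    have := h1
    rw [embA, add_sub_left_comm] at this
    have h3 : S.ν (g, 1) - 𝔇.g (.e .O) = 0 := by
      have := congrArg (fun z => z - 1) this
      simpa using this
    exact sub_eq_zero.1 h3
  have hn : ((g, 1) : NN G) ∉ ({1} : Finset (NN G)) := by
    intro h
    rw [Finset.mem_singleton] at h
    exact hne (congrArg Prod.fst h)
  obtain ⟨m', hm1, hm2⟩ := S.Vr (g, 1) {1} hn
  have hm3 := hm2 1 (Finset.mem_singleton_self _)
  rw [one_mul] at hm3
  have a1 := S.Ts_nu_T (((g, 1) : NN G) * m')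
  rw [if_pos hm1, ← S.nu_mul, h2, S.eO_nu] at a1
  have a2 := S.Ts_nu_T m'
  rw [hm3] at a2
  simp only [Bool.false_eq_true, if_false] at a2
  have := S.nontrivial_A
  exact one_ne_zero (a1.symm.trans a2)

end Spec

end P193.One
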