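import Mathlib
import Vale.Agent.Lib.P193.Defs

/-!
# P193, part I, section 8 (abstract): from separation to `HPure` and `HScal`
-/

namespace P193.One

universe u v w x

/-- Abstract separation data: a ring in which `x + x = 0`, spanned by words
`columns * element * rows`. -/
structure Sep (A : Type u) [Ring A] (P : Type v) (Q : Type w) (B : Type x) where
  col : P → A
  row : Q → A
  el : B → A
  two : ∀ z : A, z + z = 0
  span : ∀ z : A, z ∈ AddSubgroup.closure
    {y | ∃ (cs : List P) (r : B) (rs : List Q),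
      y = (cs.map col).prod * el r * (rs.map row).prod}
  zo : ∀ q p, row q * col p = 0 ∨ row q * col p = 1
  rowel : ∀ q r, row q * el r ∈ AddSubgroup.closure {y | ∃ b q', y = el b * row q'}
  detCol : ∀ S : Finset P, S.Nonempty → ∃ T : Finset Q, (∑ q ∈ T, row q) * (∑ p ∈ S, col p) = 1
  detRow : ∀ S : Finset Q, S.Nonempty → ∃ T : Finset P, (∑ q ∈ S, row q) * (∑ p ∈ T, col p) = 1
  iso : ∀ S : Finset B, S.Nonempty → ∀ (P0 : Finset P) (Q0 : Finset Q), ∃ ρ c : A,
    (∀ p ∈ P0, ρ * col p = 0) ∧ (∀ q ∈ Q0, row q * c = 0) ∧ ρ * (∑ b ∈ S, el b) * c = 1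
  scal : ∀ (P0 : Finset P) (Q0 : Finset Q), ∃ ρ c : A,
    (∀ p ∈ P0, ρ * col p = 0) ∧ (∀ q ∈ Q0, row q * c = 0) ∧ ρ * c = 1 ∧
    ∀ b, ρ * el b * c = 0 ∨ ρ * el b * c = 1

namespace Sep

variable {A : Type u} [Ring A] {P : Type v} {Q : Type w} {B : Type x} (𝔰 : Sep A P Q B)

/-- the word -/
def W (cs : List P) (r : B) (rs : List Q) : A :=
  (cs.map 𝔰.col).prod * 𝔰.el r * (rs.map 𝔰.row).prod

/-- spans of words with at least one row -/
def V : AddSubgroup A := AddSubgroup.closure {y | ∃ cs r rs q, y = 𝔰.W cs r (rs ++ [q])}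

include 𝔰 in
lemma neg_self (z : A) : -z = z := by
  rw [neg_eq_iff_add_eq_zero]; exact 𝔰.two z

include 𝔰 in
lemma zo_add {a b : A} (ha : a = 0 ∨ a = 1) (hb : b = 0 ∨ b = 1) : a + b = 0 ∨ a + b = 1 := by
  rcases ha with rfl | rfl <;> rcases hb with rfl | rfl
  · simp
  · simp
  · simp
  · exact Or.inl (𝔰.two 1)

include 𝔰 in
lemma zo_sum {ι : Type*} (s : Finset ι) (f : ι → A) (h : ∀ i ∈ s, f i = 0 ∨ f i = 1) :
    (∑ i ∈ s, f i) = 0 ∨ (∑ i ∈ s, f i) = 1 := by
  classical
  induction s using Finset.induction_on with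
  | empty => simp
  | insert a s ha ih =>
    rw [Finset.sum_insert ha]
    exact 𝔰.zo_add (h a (Finset.mem_insert_self _ _))
      (ih fun i hi => h i (Finset.mem_insert_of_mem hi))

lemma zo_row (T : Finset P) (q : Q) :
    𝔰.row q * (∑ p ∈ T, 𝔰.col p) = 0 ∨ 𝔰.row q * (∑ p ∈ T, 𝔰.col p) = 1 := by
  rw [Finset.mul_sum]; exact 𝔰.zo_sum _ _ fun p _ => 𝔰.zo q p

lemma zo_col (T : Finset Q) (p : P) :
    (∑ q ∈ T, 𝔰.row q) * 𝔰.col p = 0 ∨ (∑ q ∈ T, 𝔰.row q) * 𝔰.col p = 1 := by
  rw [Finset.sum_mul]; exact 𝔰.zo_sum _ _ fun q _ => 𝔰.zo q p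

include 𝔰 in
/-- sums over symmetric differences -/
lemma sum_symm {ι : Type*} [DecidableEq ι] (s t : Finset ι) (f : ι → A) :
    (∑ i ∈ symmDiff s t, f i) = (∑ i ∈ s, f i) + ∑ i ∈ t, f i := by
  have h1 : (∑ i ∈ symmDiff s t, f i) + ∑ i ∈ s ∩ t, f i = ∑ i ∈ s ∪ t, f i := by
    rw [← Finset.sum_union]
    · congr 1
      ext i; simp only [Finset.mem_union, Finset.mem_symmDiff, Finset.mem_inter]; tauto
    · rw [Finset.disjoint_left]
      intro i hi hj
      simp only [Finset.mem_symmDiff, Finset.mem_inter] at hi hj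
      tauto
  have h2 := Finset.sum_union_inter (s₁ := s) (s₂ := t) (f := f)
  have h3 : (∑ i ∈ symmDiff s t, f i) + (∑ i ∈ s ∩ t, f i) + (∑ i ∈ s ∩ t, f i)
      = (∑ i ∈ s, f i) + ∑ i ∈ t, f i := by
    rw [h1, h2]
  rw [← h3, add_assoc, 𝔰.two, add_zero]

/-- dual columns -/
lemma dualRow [DecidableEq P] [DecidableEq Q] (Q0 : Finset Q) :
    ∀ S : Finset Q, S.Nonempty → Disjoint S Q0 → ∃ T : Finset P,
      (∀ q ∈ Q0, 𝔰.row q * (∑ p ∈ T, 𝔰.col p) = 0) ∧
      (∑ q ∈ S, 𝔰.row q) * (∑ p ∈ T, 𝔰.col p) = 1 := by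
  induction Q0 using Finset.induction_on with
  | empty =>
    intro S hS _
    obtain ⟨T, hT⟩ := 𝔰.detRow S hS
    exact ⟨T, by simp, hT⟩
  | insert q1 Q1 hq1 ih =>
    intro S hS hd
    have hd1 : Disjoint S Q1 := by
      rw [Finset.disjoint_left] at hd ⊢
      intro a ha hb
      exact hd ha (Finset.mem_insert_of_mem hb)
    have hq1S : q1 ∉ S := by
      rw [Finset.disjoint_left] at hd
      intro h
      exact hd h (Finset.mem_insert_self _ _)
    obtain ⟨T, hT0, hT1⟩ := ih S hS hd1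
    rcases 𝔰.zo_row T q1 with h0 | h1
    · refine ⟨T, ?_, hT1⟩
      intro q hq
      rcases Finset.mem_insert.1 hq with rfl | hq
      · exact h0
      · exact hT0 q hq
    · have hd2 : Disjoint (insert q1 S) Q1 := by
        rw [Finset.disjoint_left] at hd1 ⊢
        intro a ha hb
        rcases Finset.mem_insert.1 ha with rfl | ha
        · exact hq1 hb
        · exact hd1 ha hb
      obtain ⟨T', hT0', hT1'⟩ := ih (insert q1 S) (Finset.insert_nonempty _ _) hd2
      rw [Finset.sum_insert hq1S, add_mul] at hT1'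
      rcases 𝔰.zo_row T' q1 with h0' | h1'
      · refine ⟨T', ?_, ?_⟩
        · intro q hq
          rcases Finset.mem_insert.1 hq with rfl | hq
          · exact h0'
          · exact hT0' q hq
        · rw [h0', zero_add] at hT1'; exact hT1'
      · have hS0 : (∑ q ∈ S, 𝔰.row q) * (∑ p ∈ T', 𝔰.col p) = 0 := by
          rw [h1'] at hT1'
          have := congrArg (fun z => 1 + z) hT1'
          simp only [← add_assoc, 𝔰.two 1, zero_add] at this
          exact this
        refine ⟨symmDiff T T', ?_, ?_⟩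
        · intro q hq
          rw [𝔰.sum_symm, mul_add]
          rcases Finset.mem_insert.1 hq with rfl | hq
          · rw [h1, h1', 𝔰.two]
          · rw [hT0 q hq, hT0' q hq, add_zero]
        · rw [𝔰.sum_symm, mul_add, hT1, hS0, add_zero]

/-- dual rows -/
lemma dualCol [DecidableEq P] [DecidableEq Q] (P0 : Finset P) :
    ∀ S : Finset P, S.Nonempty → Disjoint S P0 → ∃ T : Finset Q,
      (∀ p ∈ P0, (∑ q ∈ T, 𝔰.row q) * 𝔰.col p = 0) ∧
      (∑ q ∈ T, 𝔰.row q) * (∑ p ∈ S, 𝔰.col p) = 1 := by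
  induction P0 using Finset.induction_on with
  | empty =>
    intro S hS _
    obtain ⟨T, hT⟩ := 𝔰.detCol S hS
    exact ⟨T, by simp, hT⟩
  | insert q1 Q1 hq1 ih =>
    intro S hS hd
    have hd1 : Disjoint S Q1 := by
      rw [Finset.disjoint_left] at hd ⊢
      intro a ha hb
      exact hd ha (Finset.mem_insert_of_mem hb)
    have hq1S : q1 ∉ S := by
      rw [Finset.disjoint_left] at hd
      intro h
      exact hd h (Finset.mem_insert_self _ _)
    obtain ⟨T, hT0, hT1⟩ := ih S hS hd1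
    rcases 𝔰.zo_col T q1 with h0 | h1
    · refine ⟨T, ?_, hT1⟩
      intro q hq
      rcases Finset.mem_insert.1 hq with rfl | hq
      · exact h0
      · exact hT0 q hq
    · have hd2 : Disjoint (insert q1 S) Q1 := by
        rw [Finset.disjoint_left] at hd1 ⊢
        intro a ha hb
        rcases Finset.mem_insert.1 ha with rfl | ha
        · exact hq1 hb
        · exact hd1 ha hb
      obtain ⟨T', hT0', hT1'⟩ := ih (insert q1 S) (Finset.insert_nonempty _ _) hd2
      rw [Finset.sum_insert hq1S, mul_add] at hT1'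
      rcases 𝔰.zo_col T' q1 with h0' | h1'
      · refine ⟨T', ?_, ?_⟩
        · intro q hq
          rcases Finset.mem_insert.1 hq with rfl | hq
          · exact h0'
          · exact hT0' q hq
        · rw [h0', zero_add] at hT1'; exact hT1'
      · have hS0 : (∑ q ∈ T', 𝔰.row q) * (∑ p ∈ S, 𝔰.col p) = 0 := by
          rw [h1'] at hT1'
          have := congrArg (fun z => 1 + z) hT1'
          simp only [← add_assoc, 𝔰.two 1, zero_add] at this
          exact this
        refine ⟨symmDiff T T', ?_, ?_⟩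
        · intro q hq
          rw [𝔰.sum_symm, add_mul]
          rcases Finset.mem_insert.1 hq with rfl | hq
          · rw [h1, h1', 𝔰.two]
          · rw [hT0 q hq, hT0' q hq, add_zero]
        · rw [𝔰.sum_symm, add_mul, hT1, hS0, add_zero]

/-- every element is a finite sum of distinct words -/
lemma exists_sum [DecidableEq P] [DecidableEq Q] [DecidableEq B] (z : A) :
    ∃ S : Finset (List P × B × List Q), z = ∑ w ∈ S, 𝔰.W w.1 w.2.1 w.2.2 := by
  induction 𝔰.span z using AddSubgroup.closure_induction with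
  | mem y hy =>
    obtain ⟨cs, r, rs, rfl⟩ := hy
    exact ⟨{(cs, r, rs)}, by simp [W]⟩
  | zero => exact ⟨∅, by simp⟩
  | add y z _ _ hy hz =>
    obtain ⟨S, rfl⟩ := hy
    obtain ⟨T, rfl⟩ := hz
    exact ⟨symmDiff S T, (𝔰.sum_symm _ _ _).symm⟩
  | neg y _ hy =>
    obtain ⟨S, rfl⟩ := hy
    exact ⟨S, 𝔰.neg_self _⟩

lemma W_mul_last (cs : List P) (r : B) (rs : List Q) (q : Q) (c : A) :
    𝔰.W cs r (rs ++ [q]) * c = (cs.map 𝔰.col).prod * 𝔰.el r * (rs.map 𝔰.row).prod *
      (𝔰.row q * c) := by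
  simp [W, mul_assoc]

lemma mul_W_cons (p : P) (cs : List P) (r : B) (rs : List Q) (x : A) :
    x * 𝔰.W (p :: cs) r rs = (x * 𝔰.col p) * 𝔰.W cs r rs := by
  simp [W, mul_assoc]

/-- phase 1: remove the rows on the right -/
lemma phase1 [DecidableEq P] [DecidableEq Q] [DecidableEq B] (n : ℕ) :
    ∀ S : Finset (List P × B × List Q), (∃ w ∈ S, w.2.2.length = n) →
      (∀ w ∈ S, n ≤ w.2.2.length) →
      ∃ (y : A) (S' : Finset (List P × B × List Q)), (∃ w ∈ S', w.2.2 = []) ∧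
        (∑ w ∈ S, 𝔰.W w.1 w.2.1 w.2.2) * y = ∑ w ∈ S', 𝔰.W w.1 w.2.1 w.2.2 := by
  induction n with
  | zero =>
    intro S h1 _
    obtain ⟨w, hw, hl⟩ := h1
    exact ⟨1, S, ⟨w, hw, List.length_eq_zero_iff.1 hl⟩, by rw [mul_one]⟩
  | succ n ih =>
    intro S h1 h2
    obtain ⟨w0, hw0, hl0⟩ := h1
    obtain ⟨cs0, r0, rs0⟩ := w0
    simp only at hl0
    obtain ⟨rs0', q0, rfl⟩ : ∃ l a, rs0 = l ++ [a] := by
      rcases List.eq_nil_or_concat rs0 with h | ⟨l, a, h⟩
      · rw [h] at hl0; simp at hl0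
      · exact ⟨l, a, by simpa using h⟩
    -- the finite set of last rows
    classical
    let Q0 : Finset Q := (S.biUnion fun w => w.2.2.getLast?.toFinset) \ {q0}
    obtain ⟨T, hT0, hT1⟩ := 𝔰.dualRow Q0 {q0} (Finset.singleton_nonempty _) (by
      rw [Finset.disjoint_left]; intro a ha hb
      simp only [Q0, Finset.mem_sdiff] at hb
      exact hb.2 ha)
    rw [Finset.sum_singleton] at hT1
    let f : List P × B × List Q → List P × B × List Q := fun w => (w.1, w.2.1, w.2.2.dropLast)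
    let Sf : Finset (List P × B × List Q) := S.filter fun w => w.2.2.getLast? = some q0
    let S1 := Sf.image f
    have hinj : Set.InjOn f (Sf : Set (List P × B × List Q)) := by
      rintro ⟨c1, r1, l1⟩ hw ⟨c2, r2, l2⟩ hw' h
      simp only [Sf, Finset.coe_filter, Set.mem_ofPred_eq] at hw hw'
      simp only [f, Prod.mk.injEq] at h
      obtain ⟨h3, h4, h5⟩ := h
      obtain ⟨-, hw⟩ := hw
      obtain ⟨-, hw'⟩ := hw'
      have e1 := List.dropLast_append_getLast? _ hw
      have e2 := List.dropLast_append_getLast? _ hw'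
      rw [← e1, ← e2, h3, h4, h5]
    have hsum : (∑ w ∈ S, 𝔰.W w.1 w.2.1 w.2.2) * (∑ p ∈ T, 𝔰.col p)
        = ∑ w ∈ S1, 𝔰.W w.1 w.2.1 w.2.2 := by
      rw [Finset.sum_image hinj, Finset.sum_mul, Finset.sum_filter]
      apply Finset.sum_congr rfl
      rintro ⟨cs, r, rs⟩ hw
      have hlen := h2 _ hw
      simp only at hlen
      obtain ⟨rs', q, rfl⟩ : ∃ l a, rs = l ++ [a] := by
        rcases List.eq_nil_or_concat rs with h | ⟨l, a, h⟩
        · rw [h] at hlen; simp at hlen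
        · exact ⟨l, a, by simpa using h⟩
      simp only [W_mul_last, f]
      by_cases hq : q = q0
      · subst hq
        simp [hT1, W]
      · have hq0 : q ∈ Q0 := by
          simp only [Q0, Finset.mem_sdiff, Finset.mem_biUnion, Finset.mem_singleton]
          exact ⟨⟨_, hw, by simp⟩, hq⟩
        rw [hT0 q hq0]
        simp [hq]
    obtain ⟨y, S', h3, h4⟩ := ih S1 (by
      refine ⟨f (cs0, r0, rs0' ++ [q0]), Finset.mem_image_of_mem _ ?_, ?_⟩
      · simp [Sf, hw0]
      · simpa [f] using hl0) (by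
      intro w hw
      simp only [S1, Finset.mem_image] at hw
      obtain ⟨w', hw', rfl⟩ := hw
      have := h2 w' (Finset.mem_filter.1 hw').1
      simp only [f, List.length_dropLast]
      omega)
    exact ⟨(∑ p ∈ T, 𝔰.col p) * y, S', h3, by rw [← mul_assoc, hsum, h4]⟩

lemma V_last {v : A} (hv : v ∈ 𝔰.V) [DecidableEq Q] : ∃ Q0 : Finset Q, ∀ c : A,
    (∀ q ∈ Q0, 𝔰.row q * c = 0) → v * c = 0 := by
  unfold V at hv
  induction hv using AddSubgroup.closure_induction with
  | mem y hy =>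
    obtain ⟨cs, r, rs, q, rfl⟩ := hy
    exact ⟨{q}, fun c hc => by rw [W_mul_last, hc q (Finset.mem_singleton_self _), mul_zero]⟩
  | zero => exact ⟨∅, by simp⟩
  | add y z _ _ hy hz =>
    obtain ⟨S, hS⟩ := hy
    obtain ⟨T, hT⟩ := hz
    exact ⟨S ∪ T, fun c hc => by
      rw [add_mul, hS c fun q hq => hc q (Finset.mem_union_left _ hq),
        hT c fun q hq => hc q (Finset.mem_union_right _ hq), add_zero]⟩
  | neg y _ hy =>
    obtain ⟨S, hS⟩ := hy
    exact ⟨S, fun c hc => by rw [𝔰.neg_self]; exact hS c hc⟩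

lemma row_el_mul (q : Q) (r : B) (rs : List Q) (hne : rs ≠ []) :
    𝔰.row q * 𝔰.el r * (rs.map 𝔰.row).prod ∈ 𝔰.V := by
  have h := 𝔰.rowel q r
  generalize 𝔰.row q * 𝔰.el r = z at h
  induction h using AddSubgroup.closure_induction with
  | mem y hy =>
    obtain ⟨b, q', rfl⟩ := hy
    obtain ⟨l, a, rfl⟩ : ∃ l a, rs = l ++ [a] := by
      rcases List.eq_nil_or_concat rs with h | ⟨l, a, h⟩
      · exact absurd h hne
      · exact ⟨l, a, by simpa using h⟩
    refine AddSubgroup.subset_closure ⟨[], b, q' :: l, a, ?_⟩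
    simp [W, mul_assoc]
  | zero => simp [zero_mem]
  | add y z _ _ hy hz => rw [add_mul]; exact add_mem hy hz
  | neg y _ hy => rw [neg_mul]; exact neg_mem hy

lemma sum_row_mul_V (T : Finset Q) {v : A} (hv : v ∈ 𝔰.V) :
    (∑ q ∈ T, 𝔰.row q) * v ∈ 𝔰.V := by
  have hv' := hv
  unfold V at hv
  induction hv using AddSubgroup.closure_induction with
  | mem y hy =>
    obtain ⟨cs, r, rs, q, rfl⟩ := hy
    cases cs with
    | nil =>
      rw [Finset.sum_mul]
      refine sum_mem fun q' _ => ?_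
      have := 𝔰.row_el_mul q' r (rs ++ [q]) (by simp)
      simpa [W, mul_assoc] using this
    | cons p cs =>
      rw [mul_W_cons]
      rcases 𝔰.zo_col T p with h | h
      · rw [h, zero_mul]; exact zero_mem _
      · rw [h, one_mul]; exact AddSubgroup.subset_closure ⟨cs, r, rs, q, rfl⟩
  | zero => rw [mul_zero]; exact zero_mem _
  | add y z hy' hz' hy hz => rw [mul_add]; exact add_mem (hy hy') (hz hz')
  | neg y hy' hy => rw [𝔰.neg_self]; exact hy hy'

/-- phase 2: remove the columns on the left -/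
lemma phase2 [DecidableEq P] [DecidableEq Q] [DecidableEq B] (n : ℕ) :
    ∀ (S : Finset (List P × B)) (v : A), v ∈ 𝔰.V → (∃ w ∈ S, w.1.length = n) →
      (∀ w ∈ S, n ≤ w.1.length) →
      ∃ (x : A) (S' : Finset (List P × B)) (v' : A), v' ∈ 𝔰.V ∧ (∃ w ∈ S', w.1 = []) ∧
        x * ((∑ w ∈ S, 𝔰.W w.1 w.2 []) + v) = (∑ w ∈ S', 𝔰.W w.1 w.2 []) + v' := by
  induction n with
  | zero =>
    intro S v hv h1 _
    obtain ⟨w, hw, hl⟩ := h1
    exact ⟨1, S, v, hv, ⟨w, hw, List.length_eq_zero_iff.1 hl⟩, by rw [one_mul]⟩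
  | succ n ih =>
    intro S v hv h1 h2
    obtain ⟨⟨cs0, r0⟩, hw0, hl0⟩ := h1
    simp only at hl0
    obtain ⟨p0, cs0', rfl⟩ : ∃ a l, cs0 = a :: l := by
      cases cs0 with
      | nil => simp at hl0
      | cons a l => exact ⟨a, l, rfl⟩
    classical
    let P0 : Finset P := (S.biUnion fun w => w.1.head?.toFinset) \ {p0}
    obtain ⟨T, hT0, hT1⟩ := 𝔰.dualCol P0 {p0} (Finset.singleton_nonempty _) (by
      rw [Finset.disjoint_left]; intro a ha hb
      simp only [P0, Finset.mem_sdiff] at hb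
      exact hb.2 ha)
    rw [Finset.sum_singleton] at hT1
    let f : List P × B → List P × B := fun w => (w.1.tail, w.2)
    let Sf : Finset (List P × B) := S.filter fun w => w.1.head? = some p0
    let S1 := Sf.image f
    have hinj : Set.InjOn f (Sf : Set (List P × B)) := by
      rintro ⟨c1, r1⟩ hw ⟨c2, r2⟩ hw' h
      simp only [Sf, Finset.coe_filter, Set.mem_ofPred_eq] at hw hw'
      simp only [f, Prod.mk.injEq] at h
      obtain ⟨h3, h4⟩ := h
      obtain ⟨-, hw⟩ := hw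
      obtain ⟨-, hw'⟩ := hw'
      cases c1 with
      | nil => simp at hw
      | cons a1 c1 =>
        cases c2 with
        | nil => simp at hw'
        | cons a2 c2 =>
          simp only [List.head?_cons, Option.some.injEq, List.tail_cons] at hw hw' h3
          rw [hw, hw', h3, h4]
    have hsum : (∑ q ∈ T, 𝔰.row q) * (∑ w ∈ S, 𝔰.W w.1 w.2 [])
        = ∑ w ∈ S1, 𝔰.W w.1 w.2 [] := by
      rw [Finset.sum_image hinj, Finset.mul_sum, Finset.sum_filter]
      apply Finset.sum_congr rfl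
      rintro ⟨cs, r⟩ hw
      have hlen := h2 _ hw
      simp only at hlen
      obtain ⟨p, cs', rfl⟩ : ∃ a l, cs = a :: l := by
        cases cs with
        | nil => simp at hlen
        | cons a l => exact ⟨a, l, rfl⟩
      simp only [mul_W_cons, f]
      by_cases hp : p = p0
      · subst hp
        simp [hT1]
      · have hp0 : p ∈ P0 := by
          simp only [P0, Finset.mem_sdiff, Finset.mem_biUnion, Finset.mem_singleton]
          exact ⟨⟨_, hw, by simp⟩, hp⟩
        rw [hT0 p hp0]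
        simp [hp]
    obtain ⟨x, S', v', hv', h3, h4⟩ := ih S1 _ (𝔰.sum_row_mul_V T hv) (by
      refine ⟨f (p0 :: cs0', r0), Finset.mem_image_of_mem _ ?_, ?_⟩
      · simp [Sf, hw0]
      · simpa [f] using hl0) (by
      intro w hw
      simp only [S1, Finset.mem_image] at hw
      obtain ⟨w', hw', rfl⟩ := hw
      have := h2 w' (Finset.mem_filter.1 hw').1
      simp only [f, List.length_tail]
      omega)
    exact ⟨x * (∑ q ∈ T, 𝔰.row q), S', v', hv', h3, by rw [mul_assoc, mul_add, hsum, h4]⟩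

include 𝔰 in
theorem hPure : HPure A := by
  classical
  intro z hz
  obtain ⟨S, rfl⟩ := 𝔰.exists_sum z
  have hS : S.Nonempty := by
    rw [Finset.nonempty_iff_ne_empty]
    rintro rfl
    simp at hz
  -- phase 1
  obtain ⟨w0, hw0, hmin⟩ := S.exists_min_image (fun w => w.2.2.length) hS
  obtain ⟨y, S1, ⟨w1, hw1, hl1⟩, hy⟩ := 𝔰.phase1 w0.2.2.length S ⟨w0, hw0, rfl⟩ hmin
  -- split
  let S2 : Finset (List P × B) := (S1.filter fun w => w.2.2 = []).image fun w => (w.1, w.2.1)
  have hinj : Set.InjOn (fun w : List P × B × List Q => (w.1, w.2.1))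
      ((S1.filter fun w => w.2.2 = []) : Finset (List P × B × List Q)) := by
    rintro ⟨c1, r1, l1⟩ hw ⟨c2, r2, l2⟩ hw' h
    simp only [Finset.coe_filter, Set.mem_ofPred_eq] at hw hw'
    simp only [Prod.mk.injEq] at h
    obtain ⟨h3, h4⟩ := h
    rw [h3, h4, hw.2, hw'.2]
  let v : A := ∑ w ∈ S1.filter (fun w => ¬ w.2.2 = []), 𝔰.W w.1 w.2.1 w.2.2
  have hv : v ∈ 𝔰.V := by
    refine sum_mem ?_
    rintro ⟨cs, r, rs⟩ hw
    rw [Finset.mem_filter] at hw
    rcases List.eq_nil_or_concat rs with h | ⟨l, a, h⟩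
    · exact absurd h hw.2
    · refine AddSubgroup.subset_closure ⟨cs, r, l, a, ?_⟩
      simp [h]
  have hsplit : (∑ w ∈ S1, 𝔰.W w.1 w.2.1 w.2.2) = (∑ w ∈ S2, 𝔰.W w.1 w.2 []) + v := by
    rw [← Finset.sum_filter_add_sum_filter_not S1 (fun w => w.2.2 = []), Finset.sum_image hinj]
    congr 1
    refine Finset.sum_congr rfl ?_
    rintro ⟨cs, r, rs⟩ hw
    simp only [Finset.mem_filter] at hw
    simp [hw.2]
  have hS2 : S2.Nonempty := ⟨(w1.1, w1.2.1), by
    simp only [S2, Finset.mem_image, Finset.mem_filter]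
    exact ⟨w1, ⟨hw1, hl1⟩, rfl⟩⟩
  -- phase 2
  obtain ⟨w2, hw2, hmin2⟩ := S2.exists_min_image (fun w => w.1.length) hS2
  obtain ⟨x, S3, v', hv', ⟨w3, hw3, hl3⟩, hx⟩ := 𝔰.phase2 w2.1.length S2 v hv ⟨w2, hw2, rfl⟩ hmin2
  -- final
  let B0 : Finset B := (S3.filter fun w => w.1 = []).image fun w => w.2
  have hinj3 : Set.InjOn (fun w : List P × B => w.2)
      ((S3.filter fun w => w.1 = []) : Finset (List P × B)) := by
    rintro ⟨c1, r1⟩ hw ⟨c2, r2⟩ hw' h
    simp only [Finset.coe_filter, Set.mem_ofPred_eq] at hw hw'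
    simp only at h
    rw [h, hw.2, hw'.2]
  have hB0 : B0.Nonempty := ⟨w3.2, by
    simp only [B0, Finset.mem_image, Finset.mem_filter]
    exact ⟨w3, ⟨hw3, hl3⟩, rfl⟩⟩
  obtain ⟨Q0, hQ0⟩ := 𝔰.V_last hv'
  obtain ⟨ρ, c, hρ, hc, hone⟩ := 𝔰.iso B0 hB0 (S3.biUnion fun w => w.1.head?.toFinset) Q0
  refine ⟨ρ * x, y * c, ?_⟩
  have e1 : ρ * x * (∑ w ∈ S, 𝔰.W w.1 w.2.1 w.2.2) * (y * c)
      = ρ * (x * ((∑ w ∈ S, 𝔰.W w.1 w.2.1 w.2.2) * y)) * c := by
    simp only [mul_assoc]
  rw [e1, hy, hsplit, hx, mul_add, add_mul, mul_assoc ρ v' c, hQ0 c hc, mul_zero, add_zero,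
    ← Finset.sum_filter_add_sum_filter_not S3 (fun w => w.1 = []), mul_add, add_mul]
  have e2 : (∑ w ∈ S3.filter (fun w => w.1 = []), 𝔰.W w.1 w.2 []) = ∑ b ∈ B0, 𝔰.el b := by
    rw [Finset.sum_image hinj3]
    refine Finset.sum_congr rfl ?_
    rintro ⟨cs, r⟩ hw
    simp only [Finset.mem_filter] at hw
    simp [W, hw.2]
  have e3 : ρ * (∑ w ∈ S3.filter (fun w => ¬ w.1 = []), 𝔰.W w.1 w.2 []) = 0 := by
    rw [Finset.mul_sum]
    refine Finset.sum_eq_zero ?_
    rintro ⟨cs, r⟩ hw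
    rw [Finset.mem_filter] at hw
    cases cs with
    | nil => exact absurd rfl hw.2
    | cons p cs =>
      rw [mul_W_cons, hρ p, zero_mul]
      rw [Finset.mem_biUnion]
      exact ⟨_, hw.1, by simp⟩
  rw [e2, e3, hone, zero_mul, add_zero]

include 𝔰 in
theorem hScal : HScal A := by
  classical
  intro F
  choose S hS using 𝔰.exists_sum
  obtain ⟨ρ, c, hρ, hc, hone, hel⟩ := 𝔰.scal
    (F.biUnion fun f => (S f).biUnion fun w => w.1.head?.toFinset)
    (F.biUnion fun f => (S f).biUnion fun w => w.2.2.getLast?.toFinset)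
  refine ⟨⟨c, ρ, hone⟩, ?_⟩
  intro f hf
  show ρ * f * c = 0 ∨ ρ * f * c = 1
  rw [hS f, Finset.mul_sum, Finset.sum_mul]
  refine 𝔰.zo_sum _ _ ?_
  rintro ⟨cs, r, rs⟩ hw
  cases cs with
  | cons p cs =>
    left
    simp only [mul_W_cons]
    rw [hρ p, zero_mul, zero_mul]
    rw [Finset.mem_biUnion]
    exact ⟨f, hf, Finset.mem_biUnion.2 ⟨_, hw, by simp⟩⟩
  | nil =>
    rcases List.eq_nil_or_concat rs with h | ⟨l, a, h⟩
    · subst h
      simpa [W] using hel r
    · left
      simp only [List.concat_eq_append] at h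
      subst h
      rw [mul_assoc, W_mul_last, hc a, mul_zero, mul_zero]
      rw [Finset.mem_biUnion]
      exact ⟨f, hf, Finset.mem_biUnion.2 ⟨_, hw, by simp⟩⟩

end Sep

end P193.One
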