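import Mathlib


/-!
# P193, part I, section 7: combinatorial tools for separation
-/

namespace P193.One

/-- sums with odd fibres in characteristic two: if `F i = G (f i)` (or `0` if `f i` is undefined)
and some fibre of `f` is odd, then the sum of `F` is a nonempty sum of distinct values of `G`;
the set of values depends on `f` only. -/
theorem odd_fiber {ι κ : Type*} [DecidableEq κ] (S : Finset ι) (f : ι → Option κ)
    (k0 : κ) (hk : Odd (S.filter fun i => f i = some k0).card) :
    ∃ S' : Finset κ, k0 ∈ S' ∧ (∀ k ∈ S', ∃ i ∈ S, f i = some k) ∧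
      ∀ {A : Type*} [AddCommGroup A] (F : ι → A) (G : κ → A), (∀ z : A, z + z = 0) →
        (∀ i ∈ S, F i = (f i).elim 0 G) → ∑ i ∈ S, F i = ∑ k ∈ S', G k := by
  classical
  let K : Finset κ := S.biUnion fun i => (f i).toFinset
  let S' : Finset κ := K.filter fun k => Odd (S.filter fun i => f i = some k).card
  have hK : ∀ k, (∃ i ∈ S, f i = some k) → k ∈ K := by
    rintro k ⟨i, hi, hfi⟩
    exact Finset.mem_biUnion.2 ⟨i, hi, by simp [hfi]⟩
  have hKk : ∀ k ∈ K, ∃ i ∈ S, f i = some k := by
    intro k hk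
    obtain ⟨i, hi, hfi⟩ := Finset.mem_biUnion.1 hk
    exact ⟨i, hi, by simpa using hfi⟩
  refine ⟨S', ?_, ?_, ?_⟩
  · refine Finset.mem_filter.2 ⟨hK k0 ?_, hk⟩
    have : (S.filter fun i => f i = some k0).Nonempty := by
      rw [← Finset.card_pos]; exact hk.pos
    obtain ⟨i, hi⟩ := this
    exact ⟨i, (Finset.mem_filter.1 hi).1, (Finset.mem_filter.1 hi).2⟩
  · intro k hk
    exact hKk k (Finset.mem_filter.1 hk).1
  · intro A _ F G two hF
    have h1 : ∑ i ∈ S, F i = ∑ i ∈ S, ∑ k ∈ K, if f i = some k then G k else 0 := by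
      refine Finset.sum_congr rfl fun i hi => ?_
      rw [hF i hi]
      cases hfi : f i with
      | none => simp
      | some k =>
        have hkK : k ∈ K := hK k ⟨i, hi, hfi⟩
        simp [hkK]
    rw [h1, Finset.sum_comm]
    have h2 : ∀ k ∈ K, (∑ i ∈ S, if f i = some k then G k else 0)
        = if Odd (S.filter fun i => f i = some k).card then G k else 0 := by
      intro k _
      rw [← Finset.sum_filter, Finset.sum_const]
      rcases Nat.even_or_odd (S.filter fun i => f i = some k).card with he | ho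
      · rw [if_neg (by simpa using he)]
        obtain ⟨m, hm⟩ := he
        rw [hm, add_nsmul, two]
      · rw [if_pos ho]
        obtain ⟨m, hm⟩ := ho
        rw [hm, add_nsmul, mul_comm, mul_nsmul, two_nsmul, ← nsmul_add, two, nsmul_zero, zero_add,
          one_nsmul]
    rw [Finset.sum_congr rfl h2, ← Finset.sum_filter]

/-- injective version -/
theorem inj_fiber {ι κ : Type*} [DecidableEq κ] (S : Finset ι) (f : ι → Option κ)
    (i0 : ι) (hi0 : i0 ∈ S) (k0 : κ) (h0 : f i0 = some k0)
    (hinj : ∀ i ∈ S, f i = some k0 → i = i0) :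
    ∃ S' : Finset κ, k0 ∈ S' ∧ (∀ k ∈ S', ∃ i ∈ S, f i = some k) ∧
      ∀ {A : Type*} [AddCommGroup A] (F : ι → A) (G : κ → A), (∀ z : A, z + z = 0) →
        (∀ i ∈ S, F i = (f i).elim 0 G) → ∑ i ∈ S, F i = ∑ k ∈ S', G k := by
  apply odd_fiber
  have : (S.filter fun i => f i = some k0) = {i0} := by
    ext i
    simp only [Finset.mem_filter, Finset.mem_singleton]
    constructor
    · rintro ⟨h1, h2⟩; exact hinj i h1 h2
    · rintro rfl; exact ⟨hi0, h0⟩
  rw [this]; simp

end P193.One
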