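import Mathlib
import Vale.Agent.Lib.P193.One.Step

/-!
# P193, part I: right multiplication of the elements of `𝓑` by generators

See `PART_I.md`, section 6.
-/

namespace P193.One

open P193.Mach

/-- possible results: zero, an element of `𝓑`, a column, a column times a row -/
inductive BRes (G : Type) (r m : ℕ)
  | zero
  | b (b : BI G r m)
  | col (p : PI G r m)
  | colrow (p : PI G r m) (R : Row G r m)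

namespace Spec

variable {𝔇 : Data} {G : Type} [Group G] (S : Spec 𝔇 G)

/-- value in `A` -/
noncomputable def bresA : BRes G 𝔇.r 𝔇.m → 𝔇.A
  | .zero => 0
  | .b b => S.biA b
  | .col p => S.colA p
  | .colrow p R => S.colA p * S.rA R

/-- `x` is the value of one of the possible results -/
def IsB (x : 𝔇.A) : Prop := ∃ res : BRes G 𝔇.r 𝔇.m, x = S.bresA res

theorem isB_zero : S.IsB 0 := ⟨.zero, rfl⟩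

theorem biA_tgt (b : BI G 𝔇.r 𝔇.m) : S.biA b * 𝔇.g (.e b.tgt) = S.biA b := by
  cases b with
  | al α R =>
    show 𝔇.lamA α * S.rowA R * 𝔇.g (.e R.tgt) = 𝔇.lamA α * S.rowA R
    rw [mul_assoc, S.rowA_tgt]
  | u u => exact 𝔇.lw_eB u
  | v v => exact 𝔇.rw_eC v
  | zz k =>
    show 𝔇.g (.e .Z) * 𝔇.g .az ^ k * 𝔇.g (.e .Z) = 𝔇.g (.e .Z) * 𝔇.g .az ^ k
    cases k with
    | zero => rw [pow_zero, mul_one]; exact 𝔇.e_self _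
    | succ k => rw [pow_succ, mul_assoc, mul_assoc (𝔇.g .az ^ k), 𝔇.tgt_mul (x := .az) rfl]
  | sw k =>
    show 𝔇.g .sw * 𝔇.g .az ^ k * 𝔇.g (.e .Z) = 𝔇.g .sw * 𝔇.g .az ^ k
    cases k with
    | zero => rw [pow_zero, mul_one]; exact 𝔇.tgt_mul (x := .sw) rfl
    | succ k => rw [pow_succ, mul_assoc, mul_assoc (𝔇.g .az ^ k), 𝔇.tgt_mul (x := .az) rfl]
  | sV k =>
    show 𝔇.g .sV * 𝔇.g .az ^ k * 𝔇.g (.e .Z) = 𝔇.g .sV * 𝔇.g .az ^ k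
    cases k with
    | zero => rw [pow_zero, mul_one]; exact 𝔇.tgt_mul (x := .sV) rfl
    | succ k => rw [pow_succ, mul_assoc, mul_assoc (𝔇.g .az ^ k), 𝔇.tgt_mul (x := .az) rfl]
  | uq u q =>
    show 𝔇.lw u * 𝔇.g (.q q) * 𝔇.g (.e .C) = 𝔇.lw u * 𝔇.g (.q q)
    rw [mul_assoc, 𝔇.tgt_mul (x := .q q) rfl]
  | qv q v =>
    show 𝔇.g (.q q) * 𝔇.rw v * 𝔇.g (.e .C) = 𝔇.g (.q q) * 𝔇.rw v
    rw [mul_assoc, 𝔇.rw_eC]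
  | Dv v =>
    show 𝔇.g .qD * 𝔇.rw v * 𝔇.g (.e .C) = 𝔇.g .qD * 𝔇.rw v
    rw [mul_assoc, 𝔇.rw_eC]
  | Ev v =>
    show 𝔇.g .qE * 𝔇.rw v * 𝔇.g (.e .C) = 𝔇.g .qE * 𝔇.rw v
    rw [mul_assoc, 𝔇.rw_eC]
  | s i k =>
    show 𝔇.g (.qs i) * 𝔇.rw (List.replicate k 𝔇.a0) * 𝔇.g (.e .C) = _
    rw [mul_assoc, 𝔇.rw_eC]
    rfl
  | sm i k w =>
    show 𝔇.g (.qs i) * 𝔇.rw (List.replicate k 𝔇.a0 ++ .mon :: w) * 𝔇.g (.e .C) = _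
    rw [mul_assoc, 𝔇.rw_eC]
    rfl

theorem lbA_src (x : LB 𝔇.r 𝔇.m) : 𝔇.g (.e .B) * 𝔇.lbA x = 𝔇.lbA x := by
  cases x with
  | q q v =>
    show 𝔇.g (.e .B) * (𝔇.g (.q q) * 𝔇.rw v * 𝔇.g .kap) = 𝔇.g (.q q) * 𝔇.rw v * 𝔇.g .kap
    rw [← mul_assoc, ← mul_assoc, 𝔇.src_mul (x := .q q) rfl]
  | D v =>
    show 𝔇.g (.e .B) * (𝔇.g .qD * 𝔇.rw v * 𝔇.g .kap) = 𝔇.g .qD * 𝔇.rw v * 𝔇.g .kap
    rw [← mul_assoc, ← mul_assoc, 𝔇.src_mul (x := .qD) rfl]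
  | E v =>
    show 𝔇.g (.e .B) * (𝔇.g .qE * 𝔇.rw v * 𝔇.g .kap) = 𝔇.g .qE * 𝔇.rw v * 𝔇.g .kap
    rw [← mul_assoc, ← mul_assoc, 𝔇.src_mul (x := .qE) rfl]
  | s0 =>
    show 𝔇.g (.e .B) * (𝔇.g (.qs 0) * 𝔇.g .kap) = 𝔇.g (.qs 0) * 𝔇.g .kap
    rw [← mul_assoc, 𝔇.src_mul (x := .qs 0) rfl]
  | s1 k =>
    show 𝔇.g (.e .B) * (𝔇.g (.qs 1) * 𝔇.rw (List.replicate k 𝔇.a0) * 𝔇.g .kap) = _
    rw [← mul_assoc, ← mul_assoc, 𝔇.src_mul (x := .qs 1) rfl]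
    rfl
  | s2 k =>
    show 𝔇.g (.e .B) * (𝔇.g (.qs 2) * 𝔇.rw (List.replicate k 𝔇.a0) * 𝔇.g .kap) = _
    rw [← mul_assoc, ← mul_assoc, 𝔇.src_mul (x := .qs 2) rfl]
    rfl
  | sm i k w =>
    show 𝔇.g (.e .B) * (𝔇.g (.qs i) * 𝔇.rw (List.replicate k 𝔇.a0 ++ .mon :: w) * 𝔇.g .kap) = _
    rw [← mul_assoc, ← mul_assoc, 𝔇.src_mul (x := .qs i) rfl]
    rfl

theorem biA_src (b : BI G 𝔇.r 𝔇.m) : 𝔇.g (.e b.src) * S.biA b = S.biA b := by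
  cases b with
  | al α R =>
    show 𝔇.g (.e α.src) * (𝔇.lamA α * S.rowA R) = 𝔇.lamA α * S.rowA R
    rw [← mul_assoc]
    congr 1
    cases α with
    | O => exact 𝔇.e_self _
    | C v =>
      show 𝔇.g (.e .C) * (𝔇.rw v * 𝔇.g .kap) = 𝔇.rw v * 𝔇.g .kap
      rw [← mul_assoc, 𝔇.eC_rw]
    | B x => exact lbA_src x
  | u u => exact 𝔇.eB_lw u
  | v v => exact 𝔇.eC_rw v
  | zz k =>
    show 𝔇.g (.e .Z) * (𝔇.g (.e .Z) * 𝔇.g .az ^ k) = 𝔇.g (.e .Z) * 𝔇.g .az ^ k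
    rw [← mul_assoc, 𝔇.e_self]
  | sw k =>
    show 𝔇.g (.e .B) * (𝔇.g .sw * 𝔇.g .az ^ k) = 𝔇.g .sw * 𝔇.g .az ^ k
    rw [← mul_assoc, 𝔇.src_mul (x := .sw) rfl]
  | sV k =>
    show 𝔇.g (.e .B) * (𝔇.g .sV * 𝔇.g .az ^ k) = 𝔇.g .sV * 𝔇.g .az ^ k
    rw [← mul_assoc, 𝔇.src_mul (x := .sV) rfl]
  | uq u q =>
    show 𝔇.g (.e .B) * (𝔇.lw u * 𝔇.g (.q q)) = 𝔇.lw u * 𝔇.g (.q q)
    rw [← mul_assoc, 𝔇.eB_lw]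
  | qv q v =>
    show 𝔇.g (.e .B) * (𝔇.g (.q q) * 𝔇.rw v) = 𝔇.g (.q q) * 𝔇.rw v
    rw [← mul_assoc, 𝔇.src_mul (x := .q q) rfl]
  | Dv v =>
    show 𝔇.g (.e .B) * (𝔇.g .qD * 𝔇.rw v) = 𝔇.g .qD * 𝔇.rw v
    rw [← mul_assoc, 𝔇.src_mul (x := .qD) rfl]
  | Ev v =>
    show 𝔇.g (.e .B) * (𝔇.g .qE * 𝔇.rw v) = 𝔇.g .qE * 𝔇.rw v
    rw [← mul_assoc, 𝔇.src_mul (x := .qE) rfl]
  | s i k =>
    show 𝔇.g (.e .B) * (𝔇.g (.qs i) * 𝔇.rw (List.replicate k 𝔇.a0)) = _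
    rw [← mul_assoc, 𝔇.src_mul (x := .qs i) rfl]
    rfl
  | sm i k w =>
    show 𝔇.g (.e .B) * (𝔇.g (.qs i) * 𝔇.rw (List.replicate k 𝔇.a0 ++ .mon :: w)) = _
    rw [← mul_assoc, 𝔇.src_mul (x := .qs i) rfl]
    rfl

theorem biA_mismatch {x : 𝔇.Gt} {X : Obj} (hx : 𝔇.src x = some X) {b : BI G 𝔇.r 𝔇.m}
    (hb : b.tgt ≠ X) : S.biA b * 𝔇.g x = 0 := by
  rw [← S.biA_tgt b, mul_assoc, 𝔇.e_mul_ne hx hb, mul_zero]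

theorem bstep_e (X : Obj) (b : BI G 𝔇.r 𝔇.m) : S.IsB (S.biA b * 𝔇.g (.e X)) := by
  by_cases h : b.tgt = X
  · subst h
    exact ⟨.b b, S.biA_tgt b⟩
  · rw [← S.biA_tgt b, mul_assoc, 𝔇.e_ne h, mul_zero]
    exact S.isB_zero

end Spec

end P193.One
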