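import Mathlib
import Vale.Agent.Lib.P193.One.BDefs

/-!
# P193, part I: right multiplication of `𝓑` by generators (al, u, v, zz, sw, sV)
-/

namespace P193.One

open P193.Mach

namespace Spec

variable {𝔇 : Data} {G : Type} [Group G] (S : Spec 𝔇 G)

theorem bstep_al (α) (R) (x : 𝔇.Gt) (hx : x ≠ .Ts) : S.IsB (S.biA (.al α R) * 𝔇.g x) := by
  have h : S.biA (.al α R) * 𝔇.g x = 𝔇.lamA α * S.resA (S.step x R) := by
    rw [← S.step_sound x hx R, ← mul_assoc]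
    rfl
  rw [h]
  cases hs : S.step x R with
  | zero =>
    refine ⟨.zero, ?_⟩
    show 𝔇.lamA α * 0 = 0
    rw [mul_zero]
  | row R' => exact ⟨.b (.al α R'), rfl⟩
  | col n =>
    refine ⟨.col (.c α n), ?_⟩
    show 𝔇.lamA α * (S.ν n * 𝔇.g .T) = 𝔇.lamA α * S.ν n * 𝔇.g .T
    rw [mul_assoc]
  | colrow n R' =>
    refine ⟨.colrow (.c α n) R', ?_⟩
    show 𝔇.lamA α * (S.ν n * 𝔇.g .T * 𝔇.g .Ts * S.rowA R') =
      𝔇.lamA α * S.ν n * 𝔇.g .T * (𝔇.g .Ts * S.rowA R')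
    simp only [mul_assoc]

/-- outcomes with both ends open are elements of `𝓑` or zero -/
private theorem bsA_out {o : Out 𝔇.Sg 𝔇.r 𝔇.m} (ho : o.ok false false) :
    S.IsB (𝔇.outA false false o) := by
  cases o with
  | zero => exact S.isB_zero
  | stR w u q =>
    obtain ⟨-, hq, -⟩ := ho
    refine ⟨.b (.uq u ⟨q, hq⟩), ?_⟩
    show 1 * 1 * 𝔇.lw u * 𝔇.g (.q q) = 𝔇.lw u * 𝔇.g (.q q)
    rw [one_mul, one_mul]
  | stL q v =>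
    obtain ⟨-, hq⟩ := ho
    refine ⟨.b (.qv ⟨q, hq⟩ v), ?_⟩
    show 𝔇.g (.q q) * 𝔇.rw v * 1 = 𝔇.g (.q q) * 𝔇.rw v
    rw [mul_one]
  | stH w => exact absurd ho.1 (by simp)
  | fin w => exact absurd ho.1 (by simp)
  | dmpL x =>
    refine ⟨.b (.Dv x), ?_⟩
    show 𝔇.g .qD * 𝔇.rw x * 1 = 𝔇.g .qD * 𝔇.rw x
    rw [mul_one]
  | dmpC w x => exact absurd ho (by simp [Out.ok])

private theorem bsA_lwX {X Y : 𝔇.A} (hX : 𝔇.g (.e .B) * X = X)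
    (h1 : 𝔇.g (.ld 𝔇.a0) * X = X * Y) (h2 : ∀ d, d ≠ 𝔇.a0 → 𝔇.g (.ld d) * X = 0)
    (u : List 𝔇.Dt) :
    (𝔇.lw u * X = X * Y ^ u.length) ∨ 𝔇.lw u * X = 0 := by
  induction u with
  | nil =>
    left
    rw [𝔇.lw_nil, hX, List.length_nil, pow_zero, mul_one]
  | cons d u ih =>
    rw [𝔇.lw_cons, List.length_cons, mul_assoc]
    by_cases hd : d = 𝔇.a0
    · rw [hd, h1, ← mul_assoc]
      rcases ih with ih | ih
      · left
        rw [ih, mul_assoc, ← pow_succ]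
      · right
        rw [ih, zero_mul]
    · right
      rw [h2 d hd, mul_zero]

private theorem bsA_rwrep (k : ℕ) : 𝔇.rw (List.replicate k 𝔇.a0) =
    𝔇.g (.rd 𝔇.a0) ^ k * 𝔇.g (.e .C) := by
  induction k with
  | zero => rw [List.replicate_zero, 𝔇.rw_nil, pow_zero, one_mul]
  | succ k ih => rw [List.replicate_succ, 𝔇.rw_cons, ih, ← mul_assoc, ← pow_succ']

/-- `qs i` followed by letters `a0` -/
private theorem bsA_qs (i : Fin 3) (k : ℕ) :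
    𝔇.g (.qs i) * 𝔇.g (.rd 𝔇.a0) ^ k = 𝔇.g (.qs i) * 𝔇.rw (List.replicate k 𝔇.a0) := by
  rw [bsA_rwrep]
  cases k with
  | zero => rw [pow_zero, mul_one, one_mul, 𝔇.tgt_mul (x := .qs i) rfl]
  | succ k => rw [pow_succ, mul_assoc (𝔇.g (.rd 𝔇.a0) ^ k), 𝔇.tgt_mul (x := .rd 𝔇.a0) rfl]

/-- passing letters `a0` through `X` -/
private theorem bsA_pass {X Y Z : 𝔇.A} (hX : 𝔇.g (.ld 𝔇.a0) * X = X * Y) (k : ℕ)
    (hZ : Z = X) : 𝔇.g (.ld 𝔇.a0) ^ k * Z = X * Y ^ k := by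
  subst hZ
  induction k with
  | zero => rw [pow_zero, pow_zero, one_mul, mul_one]
  | succ k ih => rw [pow_succ', mul_assoc, ih, ← mul_assoc, hX, mul_assoc, ← pow_succ']

private theorem bsA_ez {x : 𝔇.Gt} {i : Fin 3} (hx : 𝔇.g (.ld 𝔇.a0) * 𝔇.g x = 𝔇.g x * 𝔇.g .az)
    (he : 𝔇.g x * 𝔇.g .ez = 𝔇.g (.qs i) * 𝔇.g .kap * 𝔇.g .T) (k : ℕ) :
    𝔇.g x * 𝔇.g .az ^ k * 𝔇.g .ez =
      𝔇.g (.qs i) * 𝔇.rw (List.replicate k 𝔇.a0) * 𝔇.g .kap * 𝔇.g .T := by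
  calc 𝔇.g x * 𝔇.g .az ^ k * 𝔇.g .ez
      = 𝔇.g (.ld 𝔇.a0) ^ k * 𝔇.g x * 𝔇.g .ez := by rw [← bsA_pass hx k rfl]
    _ = 𝔇.g (.ld 𝔇.a0) ^ k * (𝔇.g x * 𝔇.g .ez) := mul_assoc _ _ _
    _ = 𝔇.g (.ld 𝔇.a0) ^ k * 𝔇.g (.qs i) * 𝔇.g .kap * 𝔇.g .T := by
        rw [he]
        simp only [mul_assoc]
    _ = 𝔇.g (.qs i) * 𝔇.rw (List.replicate k 𝔇.a0) * 𝔇.g .kap * 𝔇.g .T := by
        rw [bsA_pass (𝔇.qsA_eq i) k rfl, bsA_qs]

theorem bstep_u (u) (x : 𝔇.Gt) (hx : x ≠ .Ts) : S.IsB (S.biA (.u u) * 𝔇.g x) := by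
  have mis : ∀ {X : Obj}, 𝔇.src x = some X → Obj.B ≠ X → S.IsB (S.biA (.u u) * 𝔇.g x) := by
    intro X h1 h2
    rw [S.biA_mismatch h1 (b := .u u) h2]
    exact S.isB_zero
  cases x with
  | e X => exact S.bstep_e X _
  | sg σ => exact mis (X := .O) rfl (by simp)
  | lt => exact mis (X := .O) rfl (by simp)
  | kap => exact mis (X := .C) rfl (by simp)
  | ld d => exact ⟨.b (.u (d :: u)), rfl⟩
  | rd d => exact mis (X := .C) rfl (by simp)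
  | q q =>
    have hev := S.ev_spec false false u q []
    have h1 := Data.sound hev
    have h2 : S.biA (.u u) * 𝔇.g (.q q) =
        𝔇.outA false false (S.ev false false u q []) := by
      rw [← h1]
      show 𝔇.lw u * 𝔇.g (.q q) = 1 * 𝔇.lw u * 𝔇.g (.q q) * 𝔇.g (.e .C) * 1
      rw [one_mul, mul_one, mul_assoc _ (𝔇.g (.q q)), 𝔇.tgt_mul (x := .q q) rfl]
    rw [h2]
    exact S.bsA_out hev.ok
  | qD => exact ⟨.b (.Dv u.reverse), 𝔇.lw_qD u⟩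
  | qE =>
    cases u with
    | nil =>
      refine ⟨.b (.Ev []), ?_⟩
      show 𝔇.g (.e .B) * 𝔇.g .qE = 𝔇.g .qE * 𝔇.g (.e .C)
      rw [𝔇.src_mul (x := .qE) rfl, 𝔇.tgt_mul (x := .qE) rfl]
    | cons d u =>
      have h : S.biA (.u (d :: u)) * 𝔇.g .qE = 0 := by
        show 𝔇.lw u * 𝔇.g (.ld d) * 𝔇.g .qE = 0
        rw [mul_assoc, 𝔇.EA, mul_zero]
      rw [h]
      exact S.isB_zero
  | qs i =>
    rcases bsA_lwX (𝔇.src_mul (x := .qs i) rfl) (𝔇.qsA_eq i) (fun d hd => 𝔇.qsA_ne i hd) u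
      with h | h
    · refine ⟨.b (.s i u.length), ?_⟩
      show 𝔇.lw u * 𝔇.g (.qs i) = 𝔇.g (.qs i) * 𝔇.rw (List.replicate u.length 𝔇.a0)
      rw [h, bsA_qs]
    · have h' : S.biA (.u u) * 𝔇.g (.qs i) = 0 := h
      rw [h']
      exact S.isB_zero
  | sw =>
    rcases bsA_lwX (𝔇.src_mul (x := .sw) rfl) 𝔇.swA_eq (fun d hd => 𝔇.swA_ne hd) u with h | h
    · exact ⟨.b (.sw u.length), h⟩
    · have h' : S.biA (.u u) * 𝔇.g .sw = 0 := h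
      rw [h']
      exact S.isB_zero
  | sV =>
    rcases bsA_lwX (𝔇.src_mul (x := .sV) rfl) 𝔇.sVA_eq (fun d hd => 𝔇.sVA_ne hd) u with h | h
    · exact ⟨.b (.sV u.length), h⟩
    · have h' : S.biA (.u u) * 𝔇.g .sV = 0 := h
      rw [h']
      exact S.isB_zero
  | az => exact mis (X := .Z) rfl (by simp)
  | ez => exact mis (X := .Z) rfl (by simp)
  | T => exact mis (X := .O) rfl (by simp)
  | Ts => exact absurd rfl hx

theorem bstep_v (v) (x : 𝔇.Gt) (hx : x ≠ .Ts) : S.IsB (S.biA (.v v) * 𝔇.g x) := by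
  have mis : ∀ {X : Obj}, 𝔇.src x = some X → Obj.C ≠ X → S.IsB (S.biA (.v v) * 𝔇.g x) := by
    intro X h1 h2
    rw [S.biA_mismatch h1 (b := .v v) h2]
    exact S.isB_zero
  cases x with
  | e X => exact S.bstep_e X _
  | sg σ => exact mis (X := .O) rfl (by simp)
  | lt => exact mis (X := .O) rfl (by simp)
  | kap =>
    refine ⟨.b (.al (.C v) (.O 1)), ?_⟩
    show 𝔇.rw v * 𝔇.g .kap = 𝔇.rw v * 𝔇.g .kap * S.ν 1
    rw [S.nu_one, mul_assoc _ (𝔇.g .kap), 𝔇.tgt_mul (x := .kap) rfl]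
  | ld d => exact mis (X := .B) rfl (by simp)
  | rd d =>
    refine ⟨.b (.v (v ++ [d])), ?_⟩
    show 𝔇.rw v * 𝔇.g (.rd d) = 𝔇.rw (v ++ [d])
    rw [𝔇.rw_append, 𝔇.rw_cons, 𝔇.rw_nil, 𝔇.tgt_mul (x := .rd d) rfl]
  | q q => exact mis (X := .B) rfl (by simp)
  | qD => exact mis (X := .B) rfl (by simp)
  | qE => exact mis (X := .B) rfl (by simp)
  | qs i => exact mis (X := .B) rfl (by simp)
  | sw => exact mis (X := .B) rfl (by simp)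
  | sV => exact mis (X := .B) rfl (by simp)
  | az => exact mis (X := .Z) rfl (by simp)
  | ez => exact mis (X := .Z) rfl (by simp)
  | T => exact mis (X := .O) rfl (by simp)
  | Ts => exact absurd rfl hx

/-- generators with source different from `Z` -/
private theorem bsA_Z {b : BI G 𝔇.r 𝔇.m} (hb : b.tgt = .Z) (x : 𝔇.Gt) (hx : x ≠ .Ts)
    (haz : S.IsB (S.biA b * 𝔇.g .az)) (hez : S.IsB (S.biA b * 𝔇.g .ez)) :
    S.IsB (S.biA b * 𝔇.g x) := by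
  have mis : ∀ {X : Obj}, 𝔇.src x = some X → Obj.Z ≠ X → S.IsB (S.biA b * 𝔇.g x) := by
    intro X h1 h2
    rw [S.biA_mismatch h1 (b := b) (by rw [hb]; exact h2)]
    exact S.isB_zero
  cases x with
  | e X => exact S.bstep_e X _
  | sg σ => exact mis (X := .O) rfl (by simp)
  | lt => exact mis (X := .O) rfl (by simp)
  | kap => exact mis (X := .C) rfl (by simp)
  | ld d => exact mis (X := .B) rfl (by simp)
  | rd d => exact mis (X := .C) rfl (by simp)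
  | q q => exact mis (X := .B) rfl (by simp)
  | qD => exact mis (X := .B) rfl (by simp)
  | qE => exact mis (X := .B) rfl (by simp)
  | qs i => exact mis (X := .B) rfl (by simp)
  | sw => exact mis (X := .B) rfl (by simp)
  | sV => exact mis (X := .B) rfl (by simp)
  | az => exact haz
  | ez => exact hez
  | T => exact mis (X := .O) rfl (by simp)
  | Ts => exact absurd rfl hx

theorem bstep_zz (k) (x : 𝔇.Gt) (hx : x ≠ .Ts) : S.IsB (S.biA (.zz k) * 𝔇.g x) := by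
  refine S.bsA_Z rfl x hx ⟨.b (.zz (k + 1)), ?_⟩ ⟨.col (.z k), rfl⟩
  show 𝔇.g (.e .Z) * 𝔇.g .az ^ k * 𝔇.g .az = 𝔇.g (.e .Z) * 𝔇.g .az ^ (k + 1)
  rw [pow_succ, mul_assoc]

theorem bstep_sw (k) (x : 𝔇.Gt) (hx : x ≠ .Ts) : S.IsB (S.biA (.sw k) * 𝔇.g x) := by
  refine S.bsA_Z rfl x hx ⟨.b (.sw (k + 1)), ?_⟩ ⟨.col (.c (.B (.s1 k)) 1), ?_⟩
  · show 𝔇.g .sw * 𝔇.g .az ^ k * 𝔇.g .az = 𝔇.g .sw * 𝔇.g .az ^ (k + 1)
    rw [pow_succ, mul_assoc]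
  · show 𝔇.g .sw * 𝔇.g .az ^ k * 𝔇.g .ez =
      𝔇.g (.qs 1) * 𝔇.rw (List.replicate k 𝔇.a0) * 𝔇.g .kap * S.ν 1 * 𝔇.g .T
    rw [bsA_ez 𝔇.swA_eq 𝔇.swE k, S.nu_one, mul_assoc _ (𝔇.g (.e .O)), 𝔇.src_mul (x := .T) rfl]

theorem bstep_sV (k) (x : 𝔇.Gt) (hx : x ≠ .Ts) : S.IsB (S.biA (.sV k) * 𝔇.g x) := by
  refine S.bsA_Z rfl x hx ⟨.b (.sV (k + 1)), ?_⟩ ⟨.col (.c (.B (.s2 k)) 1), ?_⟩
  · show 𝔇.g .sV * 𝔇.g .az ^ k * 𝔇.g .az = 𝔇.g .sV * 𝔇.g .az ^ (k + 1)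
    rw [pow_succ, mul_assoc]
  · show 𝔇.g .sV * 𝔇.g .az ^ k * 𝔇.g .ez =
      𝔇.g (.qs 2) * 𝔇.rw (List.replicate k 𝔇.a0) * 𝔇.g .kap * S.ν 1 * 𝔇.g .T
    rw [bsA_ez 𝔇.sVA_eq 𝔇.sVE k, S.nu_one, mul_assoc _ (𝔇.g (.e .O)), 𝔇.src_mul (x := .T) rfl]

end Spec

end P193.One
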