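import Mathlib
import Vale.Agent.Lib.P193.One.BDefs

/-!
# P193, part I: right multiplication of `𝓑` by generators (uq, qv, Dv, Ev, s, sm)
-/

namespace P193.One

open P193.Mach

namespace Spec

variable {𝔇 : Data} {G : Type} [Group G] (S : Spec 𝔇 G)

private theorem bsb_C {b : BI G 𝔇.r 𝔇.m} (hb : b.tgt = .C) (hk : S.IsB (S.biA b * 𝔇.g .kap))
    (hr : ∀ d, S.IsB (S.biA b * 𝔇.g (.rd d))) (x : 𝔇.Gt) (hx : x ≠ .Ts) :
    S.IsB (S.biA b * 𝔇.g x) := by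
  have hz : ∀ (y : 𝔇.Gt) (X : Obj), 𝔇.src y = some X → X ≠ .C → S.IsB (S.biA b * 𝔇.g y) := by
    intro y X hy hX
    have hne : b.tgt ≠ X := fun h => hX (h.symm.trans hb)
    rw [S.biA_mismatch hy hne]
    exact S.isB_zero
  cases x with
  | e X => exact S.bstep_e X b
  | sg σ => exact hz _ .O rfl (by decide)
  | lt => exact hz _ .O rfl (by decide)
  | kap => exact hk
  | ld d => exact hz _ .B rfl (by decide)
  | rd d => exact hr d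
  | q q => exact hz _ .B rfl (by decide)
  | qD => exact hz _ .B rfl (by decide)
  | qE => exact hz _ .B rfl (by decide)
  | qs i => exact hz _ .B rfl (by decide)
  | sw => exact hz _ .B rfl (by decide)
  | sV => exact hz _ .B rfl (by decide)
  | az => exact hz _ .Z rfl (by decide)
  | ez => exact hz _ .Z rfl (by decide)
  | T => exact hz _ .O rfl (by decide)
  | Ts => exact absurd rfl hx

private theorem bsb_rw_snoc (v : List 𝔇.Dt) (d : 𝔇.Dt) :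
    𝔇.rw (v ++ [d]) = 𝔇.rw v * 𝔇.g (.rd d) := by
  rw [𝔇.rw_append, 𝔇.rw_cons, 𝔇.rw_nil, 𝔇.tgt_mul (x := .rd d) rfl]

/-- elements `α * 1` of `𝓑`, `α` from `Λ_B` -/
private theorem bsb_lb (x : LB 𝔇.r 𝔇.m) {y : 𝔇.A} (h : 𝔇.lbA x = y * 𝔇.g .kap) :
    S.IsB (y * 𝔇.g .kap) := by
  refine ⟨.b (.al (.B x) (.O 1)), ?_⟩
  show y * 𝔇.g .kap = 𝔇.lbA x * S.ν 1
  rw [h, S.nu_one, mul_assoc, 𝔇.tgt_mul (x := .kap) rfl]

theorem bstep_uq (u q) (x : 𝔇.Gt) (hx : x ≠ .Ts) : S.IsB (S.biA (.uq u q) * 𝔇.g x) := by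
  refine S.bsb_C rfl ?_ (fun d => ?_) x hx
  · have h := S.ev_spec false true u q.1 []
    have hs := Data.sound h
    have hok := Ev.ok h
    have e1 : 𝔇.Lc false * 𝔇.lw u * 𝔇.g (.q q.1) * 𝔇.rw [] * 𝔇.Rc true
        = S.biA (.uq u q) * 𝔇.g .kap := by
      show 1 * 𝔇.lw u * 𝔇.g (.q q.1) * 𝔇.g (.e .C) * 𝔇.g .kap
        = 𝔇.lw u * 𝔇.g (.q q.1) * 𝔇.g .kap
      rw [one_mul, mul_assoc _ (𝔇.g (.e .C)), 𝔇.src_mul (x := .kap) rfl]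
    rw [e1] at hs
    rw [hs]
    revert hok
    generalize S.ev false true u q.1 [] = o
    intro hok
    cases o with
    | zero => exact S.isB_zero
    | stR w u' q' => exact absurd hok.1 (by simp)
    | stL q' v' => exact S.bsb_lb (.q ⟨q', hok.2⟩ v') rfl
    | stH w => exact absurd hok.1 (by simp)
    | fin w => exact absurd hok.1 (by simp)
    | dmpL y => exact S.bsb_lb (.D y) rfl
    | dmpC w y => exact absurd (show false = true from hok) (by simp)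
  · have h := S.ev_spec false false u q.1 [d]
    have hs := Data.sound h
    have hok := Ev.ok h
    have e1 : 𝔇.Lc false * 𝔇.lw u * 𝔇.g (.q q.1) * 𝔇.rw [d] * 𝔇.Rc false
        = S.biA (.uq u q) * 𝔇.g (.rd d) := by
      show 1 * 𝔇.lw u * 𝔇.g (.q q.1) * (𝔇.g (.rd d) * 𝔇.g (.e .C)) * 1
        = 𝔇.lw u * 𝔇.g (.q q.1) * 𝔇.g (.rd d)
      rw [one_mul, mul_one, 𝔇.tgt_mul (x := .rd d) rfl]
    rw [e1] at hs
    rw [hs]
    revert hok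
    generalize S.ev false false u q.1 [d] = o
    intro hok
    cases o with
    | zero => exact S.isB_zero
    | stR w u' q' =>
      refine ⟨.b (.uq u' ⟨q', hok.2.1⟩), ?_⟩
      show 1 * 1 * 𝔇.lw u' * 𝔇.g (.q q') = 𝔇.lw u' * 𝔇.g (.q q')
      rw [one_mul, one_mul]
    | stL q' v' =>
      refine ⟨.b (.qv ⟨q', hok.2⟩ v'), ?_⟩
      show 𝔇.g (.q q') * 𝔇.rw v' * 1 = 𝔇.g (.q q') * 𝔇.rw v'
      rw [mul_one]
    | stH w => exact absurd hok.1 (by simp)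
    | fin w => exact absurd hok.1 (by simp)
    | dmpL y =>
      refine ⟨.b (.Dv y), ?_⟩
      show 𝔇.g .qD * 𝔇.rw y * 1 = 𝔇.g .qD * 𝔇.rw y
      rw [mul_one]
    | dmpC w y => exact absurd (show false = true from hok) (by simp)

theorem bstep_qv (q v) (x : 𝔇.Gt) (hx : x ≠ .Ts) : S.IsB (S.biA (.qv q v) * 𝔇.g x) := by
  refine S.bsb_C rfl (S.bsb_lb (.q q v) rfl) (fun d => ⟨.b (.qv q (v ++ [d])), ?_⟩) x hx
  show 𝔇.g (.q q.1) * 𝔇.rw v * 𝔇.g (.rd d) = 𝔇.g (.q q.1) * 𝔇.rw (v ++ [d])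
  rw [bsb_rw_snoc, mul_assoc]

theorem bstep_Dv (v) (x : 𝔇.Gt) (hx : x ≠ .Ts) : S.IsB (S.biA (.Dv v) * 𝔇.g x) := by
  refine S.bsb_C rfl (S.bsb_lb (.D v) rfl) (fun d => ⟨.b (.Dv (v ++ [d])), ?_⟩) x hx
  show 𝔇.g .qD * 𝔇.rw v * 𝔇.g (.rd d) = 𝔇.g .qD * 𝔇.rw (v ++ [d])
  rw [bsb_rw_snoc, mul_assoc]

theorem bstep_Ev (v) (x : 𝔇.Gt) (hx : x ≠ .Ts) : S.IsB (S.biA (.Ev v) * 𝔇.g x) := by
  refine S.bsb_C rfl (S.bsb_lb (.E v) rfl) (fun d => ⟨.b (.Ev (v ++ [d])), ?_⟩) x hx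
  show 𝔇.g .qE * 𝔇.rw v * 𝔇.g (.rd d) = 𝔇.g .qE * 𝔇.rw (v ++ [d])
  rw [bsb_rw_snoc, mul_assoc]

private theorem bsb_lw_snoc (k : ℕ) : 𝔇.g (.ld 𝔇.a0) * 𝔇.lw (List.replicate k 𝔇.a0)
    = 𝔇.lw (List.replicate (k + 1) 𝔇.a0) := by
  rw [List.replicate_succ', 𝔇.lw_append, 𝔇.lw_cons, 𝔇.lw_nil, 𝔇.src_mul (x := .ld 𝔇.a0) rfl]

private theorem bsb_qs (i : Fin 3) (k : ℕ) :
    𝔇.g (.qs i) * 𝔇.rw (List.replicate k 𝔇.a0) = 𝔇.lw (List.replicate k 𝔇.a0) * 𝔇.g (.qs i) := by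
  induction k with
  | zero =>
    rw [List.replicate_zero, Data.rw_nil, Data.lw_nil, 𝔇.tgt_mul (x := .qs i) rfl,
      𝔇.src_mul (x := .qs i) rfl]
  | succ k ih =>
    rw [List.replicate_succ, Data.rw_cons, ← mul_assoc, ← 𝔇.qsA_eq, mul_assoc, ih, ← mul_assoc,
      bsb_lw_snoc, ← List.replicate_succ]

private theorem bsb_rho (k : ℕ) :
    𝔇.g (.qs 0) * 𝔇.rw (List.replicate k 𝔇.a0) * 𝔇.g .kap = 𝔇.g (.qs 0) * 𝔇.g .kap := by
  induction k with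
  | zero =>
    rw [List.replicate_zero, Data.rw_nil, mul_assoc, 𝔇.src_mul (x := .kap) rfl]
  | succ k ih =>
    rw [List.replicate_succ', bsb_rw_snoc, ← mul_assoc, bsb_qs, mul_assoc, mul_assoc,
      ← mul_assoc (𝔇.g (.qs 0)), 𝔇.rho, ← mul_assoc, ← bsb_qs]
    exact ih

theorem bstep_s (i k) (x : 𝔇.Gt) (hx : x ≠ .Ts) : S.IsB (S.biA (.s i k) * 𝔇.g x) := by
  refine S.bsb_C rfl ?_ (fun d => ?_) x hx
  · show S.IsB (𝔇.g (.qs i) * 𝔇.rw (List.replicate k 𝔇.a0) * 𝔇.g .kap)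
    fin_cases i
    · show S.IsB (𝔇.g (.qs 0) * 𝔇.rw (List.replicate k 𝔇.a0) * 𝔇.g .kap)
      rw [bsb_rho]
      exact S.bsb_lb .s0 rfl
    · exact S.bsb_lb (.s1 k) rfl
    · exact S.bsb_lb (.s2 k) rfl
  · show S.IsB (𝔇.g (.qs i) * 𝔇.rw (List.replicate k 𝔇.a0) * 𝔇.g (.rd d))
    by_cases hd : d = 𝔇.a0
    · subst hd
      refine ⟨.b (.s i (k + 1)), ?_⟩
      show _ = 𝔇.g (.qs i) * 𝔇.rw (List.replicate (k + 1) 𝔇.a0)
      rw [List.replicate_succ', bsb_rw_snoc, mul_assoc]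
    · by_cases hm : d = .mon
      · subst hm
        refine ⟨.b (.sm i k []), ?_⟩
        show _ = 𝔇.g (.qs i) * 𝔇.rw (List.replicate k 𝔇.a0 ++ [.mon])
        rw [bsb_rw_snoc, mul_assoc]
      · rw [bsb_qs, mul_assoc, 𝔇.qsR i hd hm, mul_zero]
        exact S.isB_zero

theorem bstep_sm (i k w) (x : 𝔇.Gt) (hx : x ≠ .Ts) : S.IsB (S.biA (.sm i k w) * 𝔇.g x) := by
  refine S.bsb_C rfl (S.bsb_lb (.sm i k w) rfl) (fun d => ⟨.b (.sm i k (w ++ [d])), ?_⟩) x hx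
  show 𝔇.g (.qs i) * 𝔇.rw (List.replicate k 𝔇.a0 ++ .mon :: w) * 𝔇.g (.rd d)
    = 𝔇.g (.qs i) * 𝔇.rw (List.replicate k 𝔇.a0 ++ .mon :: (w ++ [d]))
  have h : List.replicate k 𝔇.a0 ++ D.mon :: (w ++ [d])
      = (List.replicate k 𝔇.a0 ++ D.mon :: w) ++ [d] := by simp
  rw [h, bsb_rw_snoc, mul_assoc]

end Spec

end P193.One
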