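import Mathlib
import Vale.Agent.Lib.P193.One.BStepA
import Vale.Agent.Lib.P193.One.BStepB

/-!
# P193, part I: right multiplication of `𝓑` by generators
-/

namespace P193.One

open P193.Mach

namespace Spec

variable {𝔇 : Data} {G : Type} [Group G] (S : Spec 𝔇 G)

theorem bstep (b : BI G 𝔇.r 𝔇.m) (x : 𝔇.Gt) (hx : x ≠ .Ts) : S.IsB (S.biA b * 𝔇.g x) := by
  cases b with
  | al α R => exact S.bstep_al α R x hx
  | u u => exact S.bstep_u u x hx
  | v v => exact S.bstep_v v x hx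
  | zz k => exact S.bstep_zz k x hx
  | sw k => exact S.bstep_sw k x hx
  | sV k => exact S.bstep_sV k x hx
  | uq u q => exact S.bstep_uq u q x hx
  | qv q v => exact S.bstep_qv q v x hx
  | Dv v => exact S.bstep_Dv v x hx
  | Ev v => exact S.bstep_Ev v x hx
  | s i k => exact S.bstep_s i k x hx
  | sm i k w => exact S.bstep_sm i k w x hx

/-- the unit as a sum of four elements of `𝓑` -/
theorem sum_e : S.biA (.al .O (.O 1)) + S.biA (.u []) + S.biA (.v []) + S.biA (.zz 0) = 1 := by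
  have h : S.biA (.al .O (.O 1)) = 𝔇.g (.e .O) := by
    show 𝔇.g (.e .O) * S.ν 1 = _
    rw [S.eO_nu, S.nu_one]
  rw [h]
  show 𝔇.g (.e .O) + 𝔇.g (.e .B) + 𝔇.g (.e .C) + 𝔇.g (.e .Z) * 𝔇.g .az ^ 0 = 1
  rw [pow_zero, mul_one, 𝔇.e_sum]

end Spec

end P193.One
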