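import Mathlib
import Vale.Agent.Lib.P193.One.BStep

/-!
# P193, part I: the spanning theorem

See `PART_I.md`, section 6.
-/

namespace P193.One

open P193.Mach

namespace Spec

variable {𝔇 : Data} {G : Type} [Group G] (S : Spec 𝔇 G)

/-- the words `c_1 ⋯ c_k · b · ρ_1 ⋯ ρ_l` -/
noncomputable def word (t : List (PI G 𝔇.r 𝔇.m) × BI G 𝔇.r 𝔇.m × List (Row G 𝔇.r 𝔇.m)) : 𝔇.A :=
  (t.1.map S.colA).prod * S.biA t.2.1 * (t.2.2.map S.rA).prod

/-- their span -/
noncomputable def U : Submodule (ZMod 2) 𝔇.A := Submodule.span (ZMod 2) (Set.range S.word)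

private theorem Span_word_mem (γ : List (PI G 𝔇.r 𝔇.m)) (b : BI G 𝔇.r 𝔇.m)
    (β : List (Row G 𝔇.r 𝔇.m)) :
    (γ.map S.colA).prod * S.biA b * (β.map S.rA).prod ∈ S.U :=
  Submodule.subset_span ⟨(γ, b, β), rfl⟩

/-- `γ · β ∈ U` (insert `1 = Σ e_X`) -/
theorem col_row_mem (γ : List (PI G 𝔇.r 𝔇.m)) (β : List (Row G 𝔇.r 𝔇.m)) :
    (γ.map S.colA).prod * (β.map S.rA).prod ∈ S.U := by
  have h : (γ.map S.colA).prod * (β.map S.rA).prod =
      (γ.map S.colA).prod * S.biA (.al .O (.O 1)) * (β.map S.rA).prod +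
      (γ.map S.colA).prod * S.biA (.u []) * (β.map S.rA).prod +
      (γ.map S.colA).prod * S.biA (.v []) * (β.map S.rA).prod +
      (γ.map S.colA).prod * S.biA (.zz 0) * (β.map S.rA).prod := by
    rw [← add_mul, ← add_mul, ← add_mul, ← mul_add, ← mul_add, ← mul_add, S.sum_e, mul_one]
  rw [h]
  exact add_mem (add_mem (add_mem (S.Span_word_mem _ _ _) (S.Span_word_mem _ _ _))
    (S.Span_word_mem _ _ _)) (S.Span_word_mem _ _ _)

private theorem Span_rA_O : S.rA (.O 1) = 𝔇.g .Ts := by
  show 𝔇.g .Ts * S.ν 1 = 𝔇.g .Ts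
  rw [S.nu_one, 𝔇.tgt_mul (x := .Ts) rfl]

/-- words which end with `b` -/
theorem word_mul_b (γ : List (PI G 𝔇.r 𝔇.m)) (b : BI G 𝔇.r 𝔇.m) (x : 𝔇.Gt) :
    (γ.map S.colA).prod * S.biA b * 𝔇.g x ∈ S.U := by
  by_cases hx : x = .Ts
  · have h := S.Span_word_mem γ b [.O 1]
    rw [List.map_cons, List.map_nil, List.prod_cons, List.prod_nil, mul_one, S.Span_rA_O] at h
    rw [hx]
    exact h
  · obtain ⟨res, hres⟩ := S.bstep b x hx
    rw [mul_assoc, hres]
    cases res with
    | zero =>
      show (γ.map S.colA).prod * 0 ∈ S.U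
      rw [mul_zero]
      exact zero_mem _
    | b b' =>
      have h := S.Span_word_mem γ b' []
      rw [List.map_nil, List.prod_nil, mul_one] at h
      exact h
    | col p =>
      have h := S.col_row_mem (γ ++ [p]) []
      rw [List.map_append, List.prod_append, List.map_cons, List.map_nil, List.prod_cons,
        List.prod_nil, mul_one, List.map_nil, List.prod_nil, mul_one] at h
      exact h
    | colrow p R =>
      have h := S.col_row_mem (γ ++ [p]) [R]
      rw [List.map_append, List.prod_append, List.map_cons, List.map_nil, List.prod_cons,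
        List.prod_nil, mul_one, List.map_cons, List.map_nil, List.prod_cons, List.prod_nil,
        mul_one, mul_assoc] at h
      exact h

private theorem Span_Ts_col (n : NN G) : 𝔇.g .Ts * (S.ν n * 𝔇.g .T) = 0 ∨
    𝔇.g .Ts * (S.ν n * 𝔇.g .T) = 1 := by
  rw [← mul_assoc, S.Ts_nu_T]
  split_ifs
  · exact Or.inr rfl
  · exact Or.inl rfl

private theorem Span_Ts_colrow (n : NN G) (R : Row G 𝔇.r 𝔇.m) :
    𝔇.g .Ts * (S.ν n * 𝔇.g .T * 𝔇.g .Ts * S.rowA R) = 0 ∨
    𝔇.g .Ts * (S.ν n * 𝔇.g .T * 𝔇.g .Ts * S.rowA R) = S.rA R := by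
  have e : 𝔇.g .Ts * (S.ν n * 𝔇.g .T * 𝔇.g .Ts * S.rowA R) =
      𝔇.g .Ts * (S.ν n * 𝔇.g .T) * S.rA R := by
    show _ = 𝔇.g .Ts * (S.ν n * 𝔇.g .T) * (𝔇.g .Ts * S.rowA R)
    simp only [mul_assoc]
  rw [e]
  rcases S.Span_Ts_col n with h | h
  · left
    rw [h, zero_mul]
  · right
    rw [h, one_mul]

private theorem Span_rA_g_eq (R : Row G 𝔇.r 𝔇.m) (x : 𝔇.Gt) (hx : x ≠ .Ts) :
    S.rA R * 𝔇.g x = 𝔇.g .Ts * S.resA (S.step x R) := by
  show 𝔇.g .Ts * S.rowA R * 𝔇.g x = _
  rw [mul_assoc, S.step_sound x hx]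

/-- a row times a generator (not `Ts`) is zero, one, or a row -/
theorem rA_mul_g (R : Row G 𝔇.r 𝔇.m) (x : 𝔇.Gt) (hx : x ≠ .Ts) :
    S.rA R * 𝔇.g x = 0 ∨ S.rA R * 𝔇.g x = 1 ∨ ∃ R', S.rA R * 𝔇.g x = S.rA R' := by
  rw [S.Span_rA_g_eq R x hx]
  cases S.step x R with
  | zero =>
    left
    show 𝔇.g .Ts * 0 = 0
    rw [mul_zero]
  | row R' => exact Or.inr (Or.inr ⟨R', rfl⟩)
  | col n =>
    rcases S.Span_Ts_col n with h | h
    · exact Or.inl h
    · exact Or.inr (Or.inl h)
  | colrow n R' =>
    rcases S.Span_Ts_colrow n R' with h | h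
    · exact Or.inl h
    · exact Or.inr (Or.inr ⟨R', h⟩)

theorem rA_mul_Ts (R : Row G 𝔇.r 𝔇.m) : S.rA R * 𝔇.g .Ts = S.rA R * S.rA (.O 1) := by
  rw [S.Span_rA_O]

theorem word_mul (t) (x : 𝔇.Gt) : S.word t * 𝔇.g x ∈ S.U := by
  obtain ⟨γ, b, β⟩ := t
  show (γ.map S.colA).prod * S.biA b * (β.map S.rA).prod * 𝔇.g x ∈ S.U
  rcases List.eq_nil_or_concat β with rfl | ⟨β', R, rfl⟩
  · rw [List.map_nil, List.prod_nil, mul_one]
    exact S.word_mul_b γ b x
  · have e : (γ.map S.colA).prod * S.biA b * ((β' ++ [R]).map S.rA).prod * 𝔇.g x =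
        (γ.map S.colA).prod * S.biA b * (β'.map S.rA).prod * (S.rA R * 𝔇.g x) := by
      rw [List.map_append, List.prod_append, List.map_cons, List.map_nil, List.prod_cons,
        List.prod_nil, mul_one]
      simp only [mul_assoc]
    rw [List.concat_eq_append, e]
    by_cases hx : x = .Ts
    · rw [hx, S.rA_mul_Ts]
      have h := S.Span_word_mem γ b (β' ++ [R, .O 1])
      rw [List.map_append, List.prod_append, List.map_cons, List.map_cons, List.map_nil,
        List.prod_cons, List.prod_cons, List.prod_nil, mul_one, ← mul_assoc] at h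
      exact h
    · rcases S.rA_mul_g R x hx with h | h | ⟨R', h⟩
      · rw [h, mul_zero]
        exact zero_mem _
      · rw [h, mul_one]
        exact S.Span_word_mem γ b β'
      · rw [h]
        have h' := S.Span_word_mem γ b (β' ++ [R'])
        rw [List.map_append, List.prod_append, List.map_cons, List.map_nil, List.prod_cons,
          List.prod_nil, mul_one, ← mul_assoc] at h'
        exact h'

theorem U_mul (a : 𝔇.A) (ha : a ∈ S.U) (x : 𝔇.Gt) : a * 𝔇.g x ∈ S.U := by
  unfold U at ha
  induction ha using Submodule.span_induction with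
  | mem y hy =>
    obtain ⟨t, rfl⟩ := hy
    exact S.word_mul t x
  | zero =>
    rw [zero_mul]
    exact zero_mem _
  | add y z _ _ hy hz =>
    rw [add_mul]
    exact add_mem hy hz
  | smul r y _ hy =>
    rw [smul_mul_assoc]
    exact Submodule.smul_mem _ _ hy

private theorem Span_U_mul_qt (z : 𝔇.FA) : ∀ a : 𝔇.A, a ∈ S.U → a * 𝔇.qt z ∈ S.U := by
  induction z using FreeAlgebra.induction with
  | grade0 r =>
    intro a ha
    rw [AlgHom.commutes, ← Algebra.commutes, ← Algebra.smul_def]
    exact Submodule.smul_mem _ _ ha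
  | grade1 x =>
    intro a ha
    exact S.U_mul a ha x
  | mul y z hy hz =>
    intro a ha
    rw [map_mul, ← mul_assoc]
    exact hz _ (hy a ha)
  | add y z hy hz =>
    intro a ha
    rw [map_add, mul_add]
    exact add_mem (hy a ha) (hz a ha)

/-- the spanning theorem -/
theorem U_eq_top : S.U = ⊤ := by
  rw [eq_top_iff]
  intro z _
  obtain ⟨y, rfl⟩ := RingQuot.mkAlgHom_surjective (ZMod 2) 𝔇.Rel z
  have h1 : (1 : 𝔇.A) ∈ S.U := by
    have h := S.col_row_mem [] []
    rw [List.map_nil, List.prod_nil, List.map_nil, List.prod_nil, mul_one] at h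
    exact h
  have h2 := S.Span_U_mul_qt y 1 h1
  rw [one_mul] at h2
  exact h2

/-! ### action of `𝓑` on rows and pairing with columns -/

/-- `a` sends rows to rows (or zero) -/
def RowAct (a : 𝔇.A) : Prop :=
  ∀ R : Row G 𝔇.r 𝔇.m, S.rA R * a = 0 ∨ ∃ R', S.rA R * a = S.rA R'

theorem RowAct.mul {a b : 𝔇.A} (ha : S.RowAct a) (hb : S.RowAct b) : S.RowAct (a * b) := by
  intro R
  rcases ha R with h | ⟨R', h⟩
  · left
    rw [← mul_assoc, h, zero_mul]
  · rw [← mul_assoc, h]
    exact hb R'

private theorem Span_outRow_ne (n n' : NN G) (o : Out 𝔇.Sg 𝔇.r 𝔇.m) :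
    S.outRow n o ≠ .col n' := by
  cases o with
  | stR w u q =>
    simp only [outRow]
    split_ifs
    · exact fun h => by cases h
    · exact fun h => by cases h
  | zero => exact fun h => by cases h
  | stL q v => exact fun h => by cases h
  | stH w => exact fun h => by cases h
  | fin w => exact fun h => by cases h
  | dmpL x => exact fun h => by cases h
  | dmpC w x => exact fun h => by cases h

private theorem Span_outO_ne (n n' : NN G) (o : Out 𝔇.Sg 𝔇.r 𝔇.m) :
    S.outO n o ≠ .col n' := by
  cases o with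
  | stR w u q => exact fun h => by cases h
  | zero => exact fun h => by cases h
  | stL q v => exact fun h => by cases h
  | stH w => exact fun h => by cases h
  | fin w => exact fun h => by cases h
  | dmpL x => exact fun h => by cases h
  | dmpC w x => exact fun h => by cases h

omit [Group G] in
private theorem Span_ite_ne {p : Prop} [Decidable p] {a b : Res G 𝔇.r 𝔇.m} {n : NN G}
    (ha : a ≠ .col n) (hb : b ≠ .col n) : (if p then a else b) ≠ .col n := by
  split_ifs
  · exact ha
  · exact hb

private theorem Span_step_ne (x : 𝔇.Gt) (h2 : x ≠ .T) (h3 : x ≠ .ez) (R : Row G 𝔇.r 𝔇.m)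
    (n' : NN G) : S.step x R ≠ .col n' := by
  cases x with
  | e X => cases R <;> exact Span_ite_ne (fun h => by cases h) (fun h => by cases h)
  | sg σ => cases R <;> exact fun h => by cases h
  | lt => cases R <;> exact fun h => by cases h
  | kap =>
    cases R with
    | C n u q => exact S.Span_outO_ne _ _ _
    | O n => exact fun h => by cases h
    | B n u => exact fun h => by cases h
    | H n => exact fun h => by cases h
    | E n => exact fun h => by cases h
    | Z n k => exact fun h => by cases h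
  | ld d => cases R <;> exact fun h => by cases h
  | rd d =>
    cases R with
    | C n u q => exact S.Span_outRow_ne _ _ _
    | O n => exact fun h => by cases h
    | B n u => exact fun h => by cases h
    | H n => exact fun h => by cases h
    | E n => exact fun h => by cases h
    | Z n k => exact fun h => by cases h
  | q q =>
    cases R with
    | B n u => exact S.Span_outRow_ne _ _ _
    | O n => exact fun h => by cases h
    | C n u q => exact fun h => by cases h
    | H n => exact fun h => by cases h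
    | E n => exact fun h => by cases h
    | Z n k => exact fun h => by cases h
  | qD => cases R <;> exact fun h => by cases h
  | qE =>
    cases R with
    | B n u => exact Span_ite_ne (fun h => by cases h) (fun h => by cases h)
    | O n => exact fun h => by cases h
    | C n u q => exact fun h => by cases h
    | H n => exact fun h => by cases h
    | E n => exact fun h => by cases h
    | Z n k => exact fun h => by cases h
  | qs i =>
    cases R with
    | B n u => exact Span_ite_ne (fun h => by cases h) (fun h => by cases h)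
    | O n => exact fun h => by cases h
    | C n u q => exact fun h => by cases h
    | H n => exact fun h => by cases h
    | E n => exact fun h => by cases h
    | Z n k => exact fun h => by cases h
  | sw =>
    cases R with
    | B n u => exact Span_ite_ne (fun h => by cases h) (fun h => by cases h)
    | O n => exact fun h => by cases h
    | C n u q => exact fun h => by cases h
    | H n => exact fun h => by cases h
    | E n => exact fun h => by cases h
    | Z n k => exact fun h => by cases h
  | sV =>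
    cases R with
    | B n u => exact Span_ite_ne (fun h => by cases h) (fun h => by cases h)
    | O n => exact fun h => by cases h
    | C n u q => exact fun h => by cases h
    | H n => exact fun h => by cases h
    | E n => exact fun h => by cases h
    | Z n k => exact fun h => by cases h
  | az => cases R <;> exact fun h => by cases h
  | ez => exact absurd rfl h3
  | T => exact absurd rfl h2
  | Ts => cases R <;> exact fun h => by cases h

theorem rowAct_g (x : 𝔇.Gt) (h1 : x ≠ .Ts) (h2 : x ≠ .T) (h3 : x ≠ .ez) :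
    S.RowAct (𝔇.g x) := by
  intro R
  rw [S.Span_rA_g_eq R x h1]
  have hne := S.Span_step_ne x h2 h3 R
  cases hs : S.step x R with
  | zero =>
    left
    show 𝔇.g .Ts * 0 = 0
    rw [mul_zero]
  | row R' => exact Or.inr ⟨R', rfl⟩
  | col n => exact absurd hs (hne n)
  | colrow n R' =>
    rcases S.Span_Ts_colrow n R' with h | h
    · exact Or.inl h
    · exact Or.inr ⟨R', h⟩

private theorem Span_act_one : S.RowAct (1 : 𝔇.A) := fun R => Or.inr ⟨R, mul_one _⟩

private theorem Span_act_pow {a : 𝔇.A} (ha : S.RowAct a) (k : ℕ) : S.RowAct (a ^ k) := by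
  induction k with
  | zero =>
    rw [pow_zero]
    exact S.Span_act_one
  | succ k ih =>
    rw [pow_succ]
    exact ih.mul S ha

private theorem Span_act_lw (u : List 𝔇.Dt) : S.RowAct (𝔇.lw u) := by
  induction u with
  | nil => exact S.rowAct_g (.e .B) (fun h => by cases h) (fun h => by cases h) (fun h => by cases h)
  | cons d u ih =>
    exact ih.mul S
      (S.rowAct_g (.ld d) (fun h => by cases h) (fun h => by cases h) (fun h => by cases h))

private theorem Span_act_rw (v : List 𝔇.Dt) : S.RowAct (𝔇.rw v) := by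
  induction v with
  | nil => exact S.rowAct_g (.e .C) (fun h => by cases h) (fun h => by cases h) (fun h => by cases h)
  | cons d v ih =>
    exact RowAct.mul S
      (S.rowAct_g (.rd d) (fun h => by cases h) (fun h => by cases h) (fun h => by cases h)) ih

private theorem Span_act_wA (w : List 𝔇.Sg) : S.RowAct (𝔇.wA w) := by
  induction w with
  | nil => exact S.rowAct_g (.e .O) (fun h => by cases h) (fun h => by cases h) (fun h => by cases h)
  | cons d v ih =>
    exact RowAct.mul S
      (S.rowAct_g (.sg d) (fun h => by cases h) (fun h => by cases h) (fun h => by cases h)) ih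

private theorem Span_act_nu (n : NN G) : S.RowAct (S.ν n) := S.Span_act_wA _

private theorem Span_act_lt : S.RowAct (𝔇.g .lt) :=
  S.rowAct_g _ (fun h => by cases h) (fun h => by cases h) (fun h => by cases h)

private theorem Span_act_kap : S.RowAct (𝔇.g .kap) :=
  S.rowAct_g _ (fun h => by cases h) (fun h => by cases h) (fun h => by cases h)

private theorem Span_act_q (q : 𝔇.Qt) : S.RowAct (𝔇.g (.q q)) :=
  S.rowAct_g _ (fun h => by cases h) (fun h => by cases h) (fun h => by cases h)

private theorem Span_act_qs (i : Fin 3) : S.RowAct (𝔇.g (.qs i)) :=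
  S.rowAct_g _ (fun h => by cases h) (fun h => by cases h) (fun h => by cases h)

private theorem Span_act_qD : S.RowAct (𝔇.g .qD) :=
  S.rowAct_g _ (fun h => by cases h) (fun h => by cases h) (fun h => by cases h)

private theorem Span_act_qE : S.RowAct (𝔇.g .qE) :=
  S.rowAct_g _ (fun h => by cases h) (fun h => by cases h) (fun h => by cases h)

private theorem Span_act_sw : S.RowAct (𝔇.g .sw) :=
  S.rowAct_g _ (fun h => by cases h) (fun h => by cases h) (fun h => by cases h)

private theorem Span_act_sV : S.RowAct (𝔇.g .sV) :=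
  S.rowAct_g _ (fun h => by cases h) (fun h => by cases h) (fun h => by cases h)

private theorem Span_act_az : S.RowAct (𝔇.g .az) :=
  S.rowAct_g _ (fun h => by cases h) (fun h => by cases h) (fun h => by cases h)

private theorem Span_act_e (X : Obj) : S.RowAct (𝔇.g (.e X)) :=
  S.rowAct_g _ (fun h => by cases h) (fun h => by cases h) (fun h => by cases h)

private theorem Span_act_row (R : Row G 𝔇.r 𝔇.m) : S.RowAct (S.rowA R) := by
  cases R with
  | O n => exact S.Span_act_nu n
  | B n u => exact ((S.Span_act_nu n).mul S S.Span_act_lt).mul S (S.Span_act_lw u)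
  | C n u q =>
    exact (((S.Span_act_nu n).mul S S.Span_act_lt).mul S (S.Span_act_lw u)).mul S
      (S.Span_act_q q)
  | H n => exact ((S.Span_act_nu n).mul S S.Span_act_lt).mul S (S.Span_act_q _)
  | E n => exact ((S.Span_act_nu n).mul S S.Span_act_lt).mul S S.Span_act_qE
  | Z n k =>
    exact (((S.Span_act_nu n).mul S S.Span_act_lt).mul S S.Span_act_sw).mul S
      (S.Span_act_pow S.Span_act_az k)

private theorem Span_act_lam (α : Lam 𝔇.r 𝔇.m) : S.RowAct (𝔇.lamA α) := by
  cases α with
  | O => exact S.Span_act_e .O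
  | C v => exact (S.Span_act_rw v).mul S S.Span_act_kap
  | B x =>
    cases x with
    | q q v => exact ((S.Span_act_q _).mul S (S.Span_act_rw v)).mul S S.Span_act_kap
    | D v => exact (S.Span_act_qD.mul S (S.Span_act_rw v)).mul S S.Span_act_kap
    | E v => exact (S.Span_act_qE.mul S (S.Span_act_rw v)).mul S S.Span_act_kap
    | s0 => exact (S.Span_act_qs 0).mul S S.Span_act_kap
    | s1 k => exact ((S.Span_act_qs 1).mul S (S.Span_act_rw _)).mul S S.Span_act_kap
    | s2 k => exact ((S.Span_act_qs 2).mul S (S.Span_act_rw _)).mul S S.Span_act_kap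
    | sm i k w => exact ((S.Span_act_qs i).mul S (S.Span_act_rw _)).mul S S.Span_act_kap

theorem rowAct_bi (b : BI G 𝔇.r 𝔇.m) : S.RowAct (S.biA b) := by
  cases b with
  | al α R => exact (S.Span_act_lam α).mul S (S.Span_act_row R)
  | u u => exact S.Span_act_lw u
  | v v => exact S.Span_act_rw v
  | zz k => exact (S.Span_act_e .Z).mul S (S.Span_act_pow S.Span_act_az k)
  | sw k => exact S.Span_act_sw.mul S (S.Span_act_pow S.Span_act_az k)
  | sV k => exact S.Span_act_sV.mul S (S.Span_act_pow S.Span_act_az k)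
  | uq u q => exact (S.Span_act_lw u).mul S (S.Span_act_q _)
  | qv q v => exact (S.Span_act_q _).mul S (S.Span_act_rw v)
  | Dv v => exact S.Span_act_qD.mul S (S.Span_act_rw v)
  | Ev v => exact S.Span_act_qE.mul S (S.Span_act_rw v)
  | s i k => exact (S.Span_act_qs i).mul S (S.Span_act_rw _)
  | sm i k w => exact (S.Span_act_qs i).mul S (S.Span_act_rw _)

/-- `ρ · b` is zero or a row -/
theorem rA_mul_bi (R : Row G 𝔇.r 𝔇.m) (b : BI G 𝔇.r 𝔇.m) :
    S.rA R * S.biA b = 0 ∨ ∃ R', S.rA R * S.biA b = S.rA R' := S.rowAct_bi b R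

private theorem Span_rA_T (R : Row G 𝔇.r 𝔇.m) :
    S.rA R * 𝔇.g .T = 0 ∨ S.rA R * 𝔇.g .T = 1 := by
  rw [S.Span_rA_g_eq R .T (fun h => by cases h)]
  have hz : 𝔇.g .Ts * S.resA .zero = 0 := by
    show 𝔇.g .Ts * 0 = 0
    rw [mul_zero]
  cases R with
  | O n => exact S.Span_Ts_col n
  | B n u => exact Or.inl hz
  | C n u q => exact Or.inl hz
  | H n => exact Or.inl hz
  | E n => exact Or.inl hz
  | Z n k => exact Or.inl hz

private theorem Span_rA_ez (R : Row G 𝔇.r 𝔇.m) :
    S.rA R * 𝔇.g .ez = 0 ∨ S.rA R * 𝔇.g .ez = 1 := by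
  rw [S.Span_rA_g_eq R .ez (fun h => by cases h)]
  have hz : 𝔇.g .Ts * S.resA .zero = 0 := by
    show 𝔇.g .Ts * 0 = 0
    rw [mul_zero]
  cases R with
  | O n => exact Or.inl hz
  | B n u => exact Or.inl hz
  | C n u q => exact Or.inl hz
  | H n => exact Or.inl hz
  | E n => exact Or.inl hz
  | Z n k => exact S.Span_Ts_col _

/-- `ρ · c` is zero or one -/
theorem rA_mul_col (R : Row G 𝔇.r 𝔇.m) (p : PI G 𝔇.r 𝔇.m) :
    S.rA R * S.colA p = 0 ∨ S.rA R * S.colA p = 1 := by
  cases p with
  | c α n =>
    show S.rA R * (𝔇.lamA α * S.ν n * 𝔇.g .T) = 0 ∨ S.rA R * (𝔇.lamA α * S.ν n * 𝔇.g .T) = 1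
    rw [← mul_assoc]
    rcases (S.Span_act_lam α).mul S (S.Span_act_nu n) R with h | ⟨R', h⟩
    · left
      rw [h, zero_mul]
    · rw [h]
      exact S.Span_rA_T R'
  | z k =>
    show S.rA R * (𝔇.g (.e .Z) * 𝔇.g .az ^ k * 𝔇.g .ez) = 0 ∨
      S.rA R * (𝔇.g (.e .Z) * 𝔇.g .az ^ k * 𝔇.g .ez) = 1
    rw [← mul_assoc]
    rcases (S.Span_act_e .Z).mul S (S.Span_act_pow S.Span_act_az k) R with h | ⟨R', h⟩
    · left
      rw [h, zero_mul]
    · rw [h]
      exact S.Span_rA_ez R'

end Spec

end P193.One
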