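import Mathlib
import Vale.Agent.Lib.P193.One.Emb
import Vale.Agent.Lib.P193.One.Sep.Final
import Vale.Agent.Lib.P193.L.Final

/-!
# P193, part I: the main theorem

The algebra `A` of the machine is nontrivial, finitely presented, satisfies (P) and (SCAL), and its
unit group contains `G`.
-/

namespace P193.One

/-- THEOREM I -/
theorem partI {G : Type} [Group G] (𝔇 : Data) (S : Spec 𝔇 G) :
    P193.L.CHyp 𝔇.A ∧ ∃ f : G →* (𝔇.A)ˣ, Function.Injective f :=
  ⟨⟨S.nontrivial_A, S.hPure, S.hScal, finPres_A 𝔇⟩, S.emb, S.emb_injective⟩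

end P193.One
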