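import Vale.Agent.Lib.P193.One.TabW
import Vale.Agent.Lib.P193.One.Spec
import Vale.Agent.Lib.P193.Mach.Main

/-!
# P193, part I: existence of the tables and of the machine
-/

namespace P193.One

open P193.Mach

namespace TabC

section tab

variable {c : ℕ} {G : Type} [Group G] (xs : Fin c → G)

theorem wv_eq (w : List (Fin c ⊕ Fin 6)) :
    wv xs w = (val xs (wS w), FreeMonoid.ofList (wY w)) := by
  induction w with
  | nil => rfl
  | cons a w ih =>
    have h : wv xs (a :: w) = lv xs a * wv xs w := by simp [wv]
    rw [h, ih]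
    rcases a with s | y
    · have h1 : wS (Sum.inl s :: w : List (Fin c ⊕ Fin 6)) = s :: wS w := rfl
      have h2 : wY (Sum.inl s :: w : List (Fin c ⊕ Fin 6)) = wY w := rfl
      rw [h1, h2]
      refine Prod.ext ?_ ?_
      · simp [lv, val]
      · simp [lv]
    · have h1 : wS (Sum.inr y :: w : List (Fin c ⊕ Fin 6)) = wS w := rfl
      have h2 : wY (Sum.inr y :: w : List (Fin c ⊕ Fin 6)) = y :: wY w := rfl
      rw [h1, h2]
      refine Prod.ext ?_ ?_
      · simp [lv]
      · simp [lv, FreeMonoid.ofList_cons]

/-- the pair with a list as second component -/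
def pr (n : NN G) : G × List (Fin 6) := (n.1, FreeMonoid.toList n.2)

omit [Group G] in
theorem pr_inj {n n' : NN G} (h : pr n = pr n') : n = n' :=
  Prod.ext (congrArg Prod.fst h) (FreeMonoid.toList.injective (congrArg Prod.snd h))

/-- the function `V` -/
noncomputable def Vt (n : NN G) : Bool :=
  @decide (VP xs (pr n)) (Classical.propDecidable _)

theorem Vt_iff (n : NN G) : Vt xs n = true ↔ VP xs (pr n) :=
  @decide_eq_true_iff _ (Classical.propDecidable _)

theorem Vt_false_iff (n : NN G) : Vt xs n = false ↔ ¬ VP xs (pr n) := by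
  rw [← Bool.not_eq_true, Vt_iff]

theorem pr_mul_right (n : NN G) (m : List (Fin 6)) :
    pr (n * ((1, FreeMonoid.ofList m) : NN G)) = (n.1, (pr n).2 ++ m) := by
  refine Prod.ext ?_ ?_
  · simp [pr]
  · simp [pr]

theorem pr_mul_left (n : NN G) (m : List (Fin 6)) :
    pr (((1, FreeMonoid.ofList m) : NN G) * n) = (n.1, m ++ (pr n).2) := by
  refine Prod.ext ?_ ?_
  · simp [pr]
  · simp [pr]

open Classical in
theorem exists_tab (gen : ∀ g : G, ∃ w : List (Fin c), (w.map xs).prod = g)
    (hWP : ComputablePred fun w : List (Fin c) => (w.map xs).prod = 1) :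
    ∃ t : Tab c G, t.xs = xs ∧ Computable t.F0 ∧ Computable t.W ∧
      Computable (fun k => t.V (wv xs (t.W k))) := by
  have gen' : ∀ g : G, ∃ w, val xs w = g := gen
  choose inv hinv using fun s => gen' (xs s)⁻¹
  obtain ⟨F, hF, hFV⟩ := VP_computable xs hinv hWP
  refine ⟨{ xs := xs
            gen := gen
            F0 := R0 xs
            F0_zero := R0_zero xs
            F0_val := val_R0 xs
            F0_surj := fun w hw => exists_R0 xs hw
            W := Wd c
            V := Vt xs
            V_one := (Vt_iff xs _).2 (VP_one xs)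
            V_b := ?_
            Vr := ?_
            Vl := ?_
            Vm := ?_
            Wspec := ?_
            Wnon := ?_ }, rfl, R0_computable xs hWP, (Wd_primrec c).to_comp, ?_⟩
  · intro L
    rw [Vt_false_iff]
    rintro (⟨-, h⟩ | ⟨i, h, -⟩)
    · have := congrArg List.length h
      simp [pr, yv] at this
    · have h1 : (2 : Fin 6) ∈ List.replicate (L + 1) (3 : Fin 6) := by
        have h2 : List.replicate (L + 1) (3 : Fin 6)
            = (tri c i).2.1 ++ (bt i ++ (tri c i).2.2) := h
        rw [h2]
        simp [bt]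
      have := List.eq_of_mem_replicate h1
      exact absurd this (by decide)
  · intro n₁ S hn
    obtain ⟨m', h1, h2⟩ := VP_right xs gen' (pr n₁) (S.image pr)
    refine ⟨(1, FreeMonoid.ofList m'), ?_, fun n hnS => ?_⟩
    · rw [Vt_iff, pr_mul_right]
      exact h1
    · rw [Vt_false_iff, pr_mul_right]
      refine h2 (pr n) (Finset.mem_image_of_mem _ hnS) fun h => ?_
      rw [pr_inj h] at hnS
      exact hn hnS
  · intro n₁ S hn
    obtain ⟨m', h1, h2⟩ := VP_left xs gen' (pr n₁) (S.image pr)
    refine ⟨(1, FreeMonoid.ofList m'), ?_, fun n hnS => ?_⟩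
    · rw [Vt_iff, pr_mul_left]
      exact h1
    · rw [Vt_false_iff, pr_mul_left]
      refine h2 (pr n) (Finset.mem_image_of_mem _ hnS) fun h => ?_
      rw [pr_inj h] at hnS
      exact hn hnS
  · intro S
    refine ⟨S.sup (fun n => mx c (pr n).2.length) + 1, fun L hL n hn => ?_⟩
    have h1 := Finset.le_sup (f := fun n : NN G => mx c (pr n).2.length) hn
    rw [Vt_false_iff]
    have h2 : pr (yv (List.replicate L 3) * n) = (n.1, List.replicate L 3 ++ (pr n).2) :=
      pr_mul_left n _
    rw [h2]
    exact not_VP_b xs n.1 (by omega)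
  · intro K k₁ hk₁ w B
    obtain ⟨k, h1, h2, h3⟩ := exists_Wd w (B + k₁ + K.sup id)
    refine ⟨k - k₁, by omega, ?_, fun k' hk' => ?_⟩
    · rw [← h2]
      congr 1
      omega
    · have h4 : k' ≤ K.sup id := Finset.le_sup (f := id) hk'
      have h5 : k' ≠ k₁ := fun h => hk₁ (h ▸ hk')
      exact h3 _ (by omega) (by omega) (by omega)
  · intro K B
    obtain ⟨j, h1, h2⟩ := exists_Wd_nil c (B + K.sup id)
    refine ⟨j, by omega, fun k hk => ?_⟩
    have h4 : k ≤ K.sup id := Finset.le_sup (f := id) hk
    rw [Nat.add_comm]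
    exact h2 k (by omega)
  · refine (hF.comp (Wd_primrec c).to_comp).of_eq fun k => ?_
    rw [Bool.eq_iff_iff, hFV, Vt_iff, wv_eq]
    rfl

theorem exists_spec (gen : ∀ g : G, ∃ w : List (Fin c), (w.map xs).prod = g)
    (hWP : ComputablePred fun w : List (Fin c) => (w.map xs).prod = 1) :
    ∃ (𝔇 : Data) (_ : Spec 𝔇 G), True := by
  obtain ⟨t, ht, h0, hW, hV⟩ := exists_tab xs gen hWP
  have hV' : Computable (fun k => t.V (wv t.xs (t.W k))) := by
    rw [ht]
    exact hV
  obtain ⟨r, m, hr, M, start, hM, hrun⟩ := mach (c + 6)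
    ![fun k => some ((t.F0 k).map fun s => finSumFinEquiv (.inl s)),
      fun k => some ((t.W k).map finSumFinEquiv),
      fun k => bif t.V (wv t.xs (t.W k)) then some [] else none] (by
    intro i
    fin_cases i
    · have h1 : Primrec fun w : List (Fin c) =>
          w.map fun s => (finSumFinEquiv (.inl s : Fin c ⊕ Fin 6) : Fin (c + 6)) :=
        Primrec.list_map Primrec.id ((Primrec.dom_finite
          (fun s : Fin c => (finSumFinEquiv (.inl s : Fin c ⊕ Fin 6) : Fin (c + 6)))).comp
            Primrec.snd)
      exact Primrec.option_some.to_comp.comp (h1.to_comp.comp h0)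
    · have h1 : Primrec fun w : List (Fin c ⊕ Fin 6) =>
          w.map fun s => (finSumFinEquiv s : Fin (c + 6)) :=
        Primrec.list_map Primrec.id ((Primrec.dom_finite _).comp Primrec.snd)
      exact Primrec.option_some.to_comp.comp (h1.to_comp.comp hW)
    · exact Computable.cond hV' (Computable.const (some [])) (Computable.const none))
  refine ⟨⟨c, r, m, hr, M, start⟩, { t with
    mortal := hM
    run0 := fun k => hrun 0 k
    run1 := fun k => hrun 1 k
    run2 := fun k => ?_ }, trivial⟩
  have h := hrun 2 k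
  have e : (bif t.V (wv t.xs (t.W k)) then some ([] : List (Fin (c + 6))) else none)
      = if t.V (wv t.xs (t.W k)) = true then some [] else none := by
    cases t.V (wv t.xs (t.W k)) <;> rfl
  rw [← e]
  exact h

end tab

end TabC

end P193.One
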