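import Mathlib

/-!
# P193, part I, section 2: the functions `tri`, `V` and their generic properties

`t = 2`, `b = 3`. `bt i = t b^i t`. `VP xs (g, ω)` : `g = 1` and `ω` is empty, or
`ω = ω1 t b^i t ω2` with `tri i = (h, ω1, ω2)` and `h` a word of value `g`.
-/

namespace P193.One.TabC

open Encodable

section dec

variable (α : Type) [Primcodable α] [Inhabited α]

/-- enumeration of `α` in which every element occurs infinitely often -/
def dec (i : ℕ) : α := (decode (Nat.unpair i).1 : Option α).getD default

theorem exists_dec (a : α) (n : ℕ) : ∃ i, n ≤ i ∧ dec α i = a :=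
  ⟨Nat.pair (encode a) n, Nat.right_le_pair _ _, by simp [dec]⟩

theorem dec_primrec : Primrec (dec α) := by
  unfold dec
  exact Primrec.option_getD.comp
    (Primrec.decode.comp (Primrec.fst.comp Primrec.unpair)) (Primrec.const default)

end dec

/-- the triples -/
abbrev Tr (c : ℕ) : Type := List (Fin c) × List (Fin 6) × List (Fin 6)

/-- enumeration of the triples -/
def tri (c : ℕ) : ℕ → Tr c := dec (Tr c)

theorem exists_tri (c : ℕ) (a : Tr c) (n : ℕ) : ∃ i, n ≤ i ∧ tri c i = a := exists_dec _ a n

/-- the word `t b^i t` -/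
def bt (i : ℕ) : List (Fin 6) := 2 :: (List.replicate i 3 ++ [2])

theorem length_bt (i : ℕ) : (bt i).length = i + 2 := by simp [bt]

/-- occurrences of `t b^i t` in `A t b^I t B` -/
theorem occ {A B ω1 ω2 : List (Fin 6)} {I i : ℕ} (h : A ++ (bt I ++ B) = ω1 ++ (bt i ++ ω2)) :
    (i = I ∧ ω1 = A ∧ ω2 = B) ∨ (i < A.length ∧ I < ω2.length) ∨
      (i ≤ B.length ∧ I < ω1.length) := by
  have hlen := congrArg List.length h
  simp only [List.length_append, length_bt] at hlen
  -- the letters
  have hg : ∀ k : ℕ, (A ++ (bt I ++ B))[k]? = (ω1 ++ (bt i ++ ω2))[k]? := fun k => by rw [h]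
  have hbt : ∀ (X Y : List (Fin 6)) (j k : ℕ), (X ++ (bt j ++ Y))[X.length + k]?
      = (bt j ++ Y)[k]? := by
    intro X Y j k
    rw [List.getElem?_append_right (by omega)]
    congr 1
    omega
  have h0 : ∀ (Y : List (Fin 6)) (j : ℕ), (bt j ++ Y)[0]? = some 2 := by
    intro Y j
    simp [bt]
  have h1 : ∀ (Y : List (Fin 6)) (j : ℕ), (bt j ++ Y)[j + 1]? = some 2 := by
    intro Y j
    simp [bt]
  have h2 : ∀ (Y : List (Fin 6)) (j k : ℕ), 1 ≤ k → k ≤ j → (bt j ++ Y)[k]? = some 3 := by
    intro Y j k hk hj
    obtain ⟨k, rfl⟩ : ∃ k', k = k' + 1 := ⟨k - 1, by omega⟩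
    simp only [bt, List.cons_append, List.getElem?_cons_succ]
    rw [List.append_assoc, List.getElem?_append_left (by simp; omega)]
    rw [List.getElem?_replicate, if_pos (by omega)]
  rcases Nat.lt_trichotomy ω1.length A.length with hlt | heq | hgt
  · -- the occurrence begins inside A
    right; left
    by_cases hi : ω1.length + (i + 1) ≤ A.length
    · omega
    · exfalso
      have e1 := hg (ω1.length + (A.length - ω1.length))
      rw [hbt ω1 ω2 i, h2 ω2 i _ (by omega) (by omega)] at e1
      have e2 : ω1.length + (A.length - ω1.length) = A.length + 0 := by omega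
      rw [e2, hbt A B I, h0] at e1
      exact absurd e1 (by decide)
  · left
    have hA : A = ω1 := by
      have := congrArg (List.take A.length) h
      rwa [List.take_left', ← heq, List.take_left'] at this
      · rfl
      · rfl
    subst hA
    have h' := List.append_cancel_left h
    have hiI : i = I := by
      rcases Nat.lt_trichotomy i I with h3 | h3 | h3
      · exfalso
        have e1 : (bt I ++ B)[i + 1]? = (bt i ++ ω2)[i + 1]? := by rw [h']
        rw [h1, h2 B I _ (by omega) (by omega)] at e1
        exact absurd e1 (by decide)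
      · exact h3
      · exfalso
        have e1 : (bt I ++ B)[I + 1]? = (bt i ++ ω2)[I + 1]? := by rw [h']
        rw [h1, h2 ω2 i _ (by omega) (by omega)] at e1
        exact absurd e1 (by decide)
    subst hiI
    exact ⟨rfl, rfl, (List.append_cancel_left h').symm⟩
  · right; right
    by_cases hi : A.length + (I + 1) ≤ ω1.length
    · omega
    · exfalso
      have e1 := hg (A.length + (ω1.length - A.length))
      rw [hbt A B I, h2 B I _ (by omega) (by omega)] at e1
      have e2 : A.length + (ω1.length - A.length) = ω1.length + 0 := by omega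
      rw [e2, hbt ω1 ω2 i, h0] at e1
      exact absurd e1 (by decide)

/-- bound for the lengths of the words in the first triples -/
def mx (c : ℕ) : ℕ → ℕ
  | 0 => (tri c 0).2.1.length + (tri c 0).2.2.length
  | (n + 1) => mx c n + ((tri c (n + 1)).2.1.length + (tri c (n + 1)).2.2.length)

theorem mx_mono (c : ℕ) {a b : ℕ} (h : a ≤ b) : mx c a ≤ mx c b := by
  induction b, h using Nat.le_induction with
  | base => exact le_rfl
  | succ n _ ih => exact ih.trans (Nat.le_add_right _ _)

theorem le_mx (c : ℕ) {i n : ℕ} (h : i ≤ n) :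
    (tri c i).2.1.length + (tri c i).2.2.length ≤ mx c n := by
  refine le_trans ?_ (mx_mono c h)
  cases i with
  | zero => exact le_rfl
  | succ i => exact Nat.le_add_left _ _

variable {c : ℕ} {G : Type*} [Group G] (xs : Fin c → G)

/-- value of a word -/
def val (w : List (Fin c)) : G := (w.map xs).prod

/-- the function `V` as a proposition -/
def VP (n : G × List (Fin 6)) : Prop :=
  (n.1 = 1 ∧ n.2 = []) ∨
    ∃ i, n.2 = (tri c i).2.1 ++ (bt i ++ (tri c i).2.2) ∧ val xs (tri c i).1 = n.1

theorem VP_one : VP xs (1, []) := Or.inl ⟨rfl, rfl⟩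

/-- `V` on `A t b^I t B` for large `I` -/
theorem VP_bt {A B : List (Fin 6)} {I : ℕ} (g : G) (h : mx c (A.length + B.length) < I) :
    VP xs (g, A ++ (bt I ++ B)) ↔ (tri c I).2 = (A, B) ∧ val xs (tri c I).1 = g := by
  constructor
  · rintro (⟨-, h1⟩ | ⟨i, h1, h2⟩)
    · exfalso
      have := congrArg List.length h1
      simp [length_bt] at this
    · rcases occ h1 with ⟨rfl, h3, h4⟩ | ⟨h3, h4⟩ | ⟨h3, h4⟩
      · exact ⟨Prod.ext h3 h4, h2⟩
      · exfalso
        have := le_mx c (i := i) (n := A.length + B.length) (by omega)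
        omega
      · exfalso
        have := le_mx c (i := i) (n := A.length + B.length) (by omega)
        omega
  · rintro ⟨h1, h2⟩
    exact Or.inr ⟨I, by rw [h1], h2⟩

/-- `V` on `b^L ω` for large `L` -/
theorem not_VP_b {ω : List (Fin 6)} {L : ℕ} (g : G) (h : mx c ω.length < L) :
    ¬ VP xs (g, List.replicate L 3 ++ ω) := by
  rintro (⟨-, h1⟩ | ⟨i, h1, h2⟩)
  · have := congrArg List.length h1
    simp at this
    omega
  · have h1 : List.replicate L 3 ++ ω = (tri c i).2.1 ++ (bt i ++ (tri c i).2.2) := h1
    have hlen := congrArg List.length h1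
    simp only [List.length_append, length_bt, List.length_replicate] at hlen
    have h3 : L ≤ (tri c i).2.1.length := by
      by_contra h4
      push Not at h4
      have e1 : (List.replicate L 3 ++ ω)[(tri c i).2.1.length]?
          = ((tri c i).2.1 ++ (bt i ++ (tri c i).2.2))[(tri c i).2.1.length]? := by rw [h1]
      rw [List.getElem?_append_left (by simpa using h4), List.getElem?_replicate, if_pos h4,
        List.getElem?_append_right le_rfl] at e1
      simp [bt] at e1
    have := le_mx c (i := i) (n := ω.length) (by omega)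
    omega

/-- two-sided generic separation -/
theorem VP_mid (hgen : ∀ g : G, ∃ w, val xs w = g) (n1 : G × List (Fin 6))
    (F F1 F2 : Finset (G × List (Fin 6))) : ∃ m m' : List (Fin 6),
      VP xs (n1.1, m ++ n1.2 ++ m') ∧ (∀ n ∈ F, n ≠ n1 → ¬ VP xs (n.1, m ++ n.2 ++ m')) ∧
      (∀ n ∈ F1, ¬ VP xs (n.1, m ++ n.2)) ∧ ∀ n ∈ F2, ¬ VP xs (n.1, n.2 ++ m') := by
  obtain ⟨w, hw⟩ := hgen n1.1
  obtain ⟨L, hL⟩ : ∃ L, (∀ n ∈ F1, mx c n.2.length < L) ∧ (∀ n ∈ F2, n.2.length < L) := by
    refine ⟨F1.sup (fun n => mx c n.2.length) + F2.sup (fun n => n.2.length) + 1,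
      fun n hn => ?_, fun n hn => ?_⟩
    · have := Finset.le_sup (f := fun n : G × List (Fin 6) => mx c n.2.length) hn
      omega
    · have := Finset.le_sup (f := fun n : G × List (Fin 6) => n.2.length) hn
      omega
  obtain ⟨I, hI, htri⟩ := exists_tri c (w, List.replicate L 3 ++ n1.2, [])
    (mx c (L + n1.2.length) + F.sup (fun n => mx c (L + n.2.length))
      + F2.sup (fun n => mx c n.2.length) + 1)
  refine ⟨List.replicate L 3, bt I, ?_, fun n hn hne => ?_, fun n hn => ?_, fun n hn => ?_⟩
  · have := VP_bt xs (A := List.replicate L 3 ++ n1.2) (B := []) (I := I) n1.1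
      (by simp only [List.length_append, List.length_replicate, List.length_nil, add_zero]; omega)
    rw [List.append_nil] at this
    rw [this, htri]
    exact ⟨rfl, hw⟩
  · have h1 := Finset.le_sup (f := fun n : G × List (Fin 6) => mx c (L + n.2.length)) hn
    have := VP_bt xs (A := List.replicate L 3 ++ n.2) (B := []) (I := I) n.1
      (by simp only [List.length_append, List.length_replicate, List.length_nil, add_zero]; omega)
    rw [List.append_nil] at this
    rw [this, htri]
    rintro ⟨h2, h3⟩
    apply hne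
    have h4 : List.replicate L 3 ++ n1.2 = List.replicate L 3 ++ n.2 := congrArg Prod.fst h2
    exact Prod.ext (by rw [← h3, ← hw]) (List.append_cancel_left h4).symm
  · exact not_VP_b xs n.1 (hL.1 n hn)
  · have h1 := Finset.le_sup (f := fun n : G × List (Fin 6) => mx c n.2.length) hn
    have := VP_bt xs (A := n.2) (B := []) (I := I) n.1
      (by simp only [List.length_nil, Nat.add_zero, Nat.zero_add]; omega)
    rw [List.append_nil] at this
    rw [this, htri]
    rintro ⟨h2, h3⟩
    have h4 : List.replicate L 3 ++ n1.2 = n.2 := congrArg Prod.fst h2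
    have h5 := congrArg List.length h4
    simp only [List.length_append, List.length_replicate] at h5
    have := hL.2 n hn
    omega

/-- right separation -/
theorem VP_right (hgen : ∀ g : G, ∃ w, val xs w = g) (n1 : G × List (Fin 6))
    (F : Finset (G × List (Fin 6))) : ∃ m' : List (Fin 6),
      VP xs (n1.1, n1.2 ++ m') ∧ ∀ n ∈ F, n ≠ n1 → ¬ VP xs (n.1, n.2 ++ m') := by
  obtain ⟨w, hw⟩ := hgen n1.1
  obtain ⟨I, hI, htri⟩ := exists_tri c (w, n1.2, [])
    (mx c n1.2.length + F.sup (fun n => mx c n.2.length) + 1)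
  refine ⟨bt I, ?_, fun n hn hne => ?_⟩
  · have := VP_bt xs (A := n1.2) (B := []) (I := I) n1.1
      (by simp only [List.length_nil, Nat.add_zero, Nat.zero_add]; omega)
    rw [List.append_nil] at this
    rw [this, htri]
    exact ⟨rfl, hw⟩
  · have h1 := Finset.le_sup (f := fun n : G × List (Fin 6) => mx c n.2.length) hn
    have := VP_bt xs (A := n.2) (B := []) (I := I) n.1
      (by simp only [List.length_nil, Nat.add_zero, Nat.zero_add]; omega)
    rw [List.append_nil] at this
    rw [this, htri]
    rintro ⟨h2, h3⟩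
    exact hne (Prod.ext (by rw [← h3, ← hw]) (congrArg Prod.fst h2).symm)

/-- left separation -/
theorem VP_left (hgen : ∀ g : G, ∃ w, val xs w = g) (n1 : G × List (Fin 6))
    (F : Finset (G × List (Fin 6))) : ∃ m : List (Fin 6),
      VP xs (n1.1, m ++ n1.2) ∧ ∀ n ∈ F, n ≠ n1 → ¬ VP xs (n.1, m ++ n.2) := by
  obtain ⟨w, hw⟩ := hgen n1.1
  obtain ⟨I, hI, htri⟩ := exists_tri c (w, [], n1.2)
    (mx c n1.2.length + F.sup (fun n => mx c n.2.length) + 1)
  refine ⟨bt I, ?_, fun n hn hne => ?_⟩
  · have := VP_bt xs (A := []) (B := n1.2) (I := I) n1.1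
      (by simp only [List.length_nil, Nat.add_zero, Nat.zero_add]; omega)
    rw [List.nil_append] at this
    rw [this, htri]
    exact ⟨rfl, hw⟩
  · have h1 := Finset.le_sup (f := fun n : G × List (Fin 6) => mx c n.2.length) hn
    have := VP_bt xs (A := []) (B := n.2) (I := I) n.1
      (by simp only [List.length_nil, Nat.add_zero, Nat.zero_add]; omega)
    rw [List.nil_append] at this
    rw [this, htri]
    rintro ⟨h2, h3⟩
    exact hne (Prod.ext (by rw [← h3, ← hw]) (congrArg Prod.snd h2).symm)

/-- garbage: a word `t b^I t` with `V(n t b^I t) = 0` for all `n ∈ F` -/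
theorem VP_garbage (F : Finset (G × List (Fin 6))) : ∃ m' : List (Fin 6),
    ∀ n ∈ F, ¬ VP xs (n.1, n.2 ++ m') := by
  obtain ⟨I, hI, htri⟩ := exists_tri c ([], List.replicate (F.sup (fun n => n.2.length) + 1) 3, [])
    (F.sup (fun n => mx c n.2.length) + 1)
  refine ⟨bt I, fun n hn => ?_⟩
  have h1 := Finset.le_sup (f := fun n : G × List (Fin 6) => mx c n.2.length) hn
  have h2 := Finset.le_sup (f := fun n : G × List (Fin 6) => n.2.length) hn
  have := VP_bt xs (A := n.2) (B := []) (I := I) n.1 (by simp only [List.length_nil, Nat.add_zero, Nat.zero_add]; omega)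
  rw [List.append_nil] at this
  rw [this, htri]
  rintro ⟨h3, -⟩
  have h4 := congrArg List.length (congrArg Prod.fst h3)
  simp only [List.length_replicate] at h4
  omega

end P193.One.TabC
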