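import Vale.Agent.Lib.P193.One.TabV

/-!
# P193, part I, section 2: the words `W k`, the relators, computability
-/

namespace P193.One.TabC

open Encodable

variable {c : ℕ}

/-- the words `w_k`: `W k` is empty unless `k = l ^ 2` -/
def Wd (c : ℕ) (k : ℕ) : List (Fin c ⊕ Fin 6) :=
  if Nat.sqrt k * Nat.sqrt k = k then dec (List (Fin c ⊕ Fin 6)) (Nat.sqrt k) else []

theorem Wd_sq (c l : ℕ) : Wd c (l * l) = dec _ l := by
  unfold Wd
  rw [Nat.sqrt_eq, if_pos rfl]

theorem Wd_between (c : ℕ) {l j : ℕ} (h1 : l * l < j) (h2 : j < (l + 1) * (l + 1)) :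
    Wd c j = [] := by
  unfold Wd
  rw [if_neg]
  intro h
  have h3 : l < Nat.sqrt j := by
    by_contra h4
    push Not at h4
    have := Nat.mul_le_mul h4 h4
    omega
  have h5 : Nat.sqrt j < l + 1 := Nat.sqrt_lt.2 h2
  omega

/-- isolated special indices with a prescribed word -/
theorem exists_Wd (w : List (Fin c ⊕ Fin 6)) (N : ℕ) : ∃ k, N ≤ k ∧ Wd c k = w ∧
    ∀ j, j ≠ k → j ≤ k + N → k ≤ j + N → Wd c j = [] := by
  obtain ⟨l, hl, hw⟩ := exists_dec (List (Fin c ⊕ Fin 6)) w (N + 1)
  refine ⟨l * l, by nlinarith, by rw [Wd_sq, hw], fun j h1 h2 h3 => ?_⟩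
  rcases Nat.lt_or_gt_of_ne h1 with h4 | h4
  · obtain ⟨l, rfl⟩ : ∃ l', l = l' + 1 := ⟨l - 1, by omega⟩
    exact Wd_between c (l := l) (by nlinarith) h4
  · exact Wd_between c (l := l) h4 (by nlinarith)

/-- long intervals without special indices -/
theorem exists_Wd_nil (c N : ℕ) : ∃ j, N ≤ j ∧ ∀ k, k ≤ N → Wd c (j + k) = [] := by
  refine ⟨(N + 1) * (N + 1) + 1, by nlinarith, fun k hk => ?_⟩
  exact Wd_between c (l := N + 1) (by omega) (by nlinarith)

theorem Wd_primrec (c : ℕ) : Primrec (Wd c) := by
  unfold Wd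
  refine Primrec.ite ?_ ((dec_primrec _).comp Primrec.nat_sqrt) (Primrec.const [])
  exact Primrec.eq.comp (Primrec.nat_mul.comp Primrec.nat_sqrt Primrec.nat_sqrt) Primrec.id

section comp

variable {G : Type*} [Group G] (xs : Fin c → G)

/-- group part of a word -/
def wS (w : List (Fin c ⊕ Fin 6)) : List (Fin c) := w.filterMap Sum.getLeft?

/-- free part of a word -/
def wY (w : List (Fin c ⊕ Fin 6)) : List (Fin 6) := w.filterMap Sum.getRight?

theorem wS_primrec : Primrec (wS : List (Fin c ⊕ Fin 6) → _) :=
  Primrec.listFilterMap Primrec.id ((Primrec.dom_finite _).comp Primrec.snd)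

theorem wY_primrec : Primrec (wY : List (Fin c ⊕ Fin 6) → _) :=
  Primrec.listFilterMap Primrec.id ((Primrec.dom_finite _).comp Primrec.snd)

theorem bt_primrec : Primrec bt := by
  have h1 : Primrec fun i : ℕ => (List.range i).map (fun _ => (3 : Fin 6)) :=
    Primrec.list_map Primrec.list_range (Primrec.const 3).to₂
  have h2 : Primrec fun i : ℕ =>
      (2 : Fin 6) :: ((List.range i).map (fun _ => (3 : Fin 6)) ++ [2]) :=
    Primrec.list_cons.comp (Primrec.const 2) (Primrec.list_append.comp h1 (Primrec.const [2]))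
  refine h2.of_eq fun i => ?_
  simp [bt]

theorem val_append (a b : List (Fin c)) : val xs (a ++ b) = val xs a * val xs b := by
  simp [val]

/-- the test for one index -/
noncomputable def chk (inv : Fin c → List (Fin c)) (w : List (Fin c ⊕ Fin 6)) (i : ℕ) : Bool :=
  decide (wY w = (tri c i).2.1 ++ (bt i ++ (tri c i).2.2)) &&
    @decide (val xs ((tri c i).1 ++ (wS w).reverse.flatMap inv) = 1) (Classical.propDecidable _)

theorem val_inv {inv : Fin c → List (Fin c)} (hinv : ∀ s, val xs (inv s) = (xs s)⁻¹)
    (w : List (Fin c)) : val xs (w.reverse.flatMap inv) = (val xs w)⁻¹ := by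
  induction w with
  | nil => simp [val]
  | cons s w ih =>
    rw [List.reverse_cons, List.flatMap_append, val_append, ih]
    simp only [List.flatMap_cons, List.flatMap_nil, List.append_nil, hinv]
    simp [val]

theorem chk_iff {inv : Fin c → List (Fin c)} (hinv : ∀ s, val xs (inv s) = (xs s)⁻¹)
    (w : List (Fin c ⊕ Fin 6)) (i : ℕ) : chk xs inv w i = true ↔
      wY w = (tri c i).2.1 ++ (bt i ++ (tri c i).2.2) ∧ val xs (tri c i).1 = val xs (wS w) := by
  unfold chk
  simp only [Bool.and_eq_true, decide_eq_true_eq]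
  rw [val_append, val_inv xs hinv, mul_inv_eq_one]

/-- bounded search -/
noncomputable def srch (inv : Fin c → List (Fin c)) (w : List (Fin c ⊕ Fin 6)) (n : ℕ) : Bool :=
  Nat.rec false (fun i r => r || chk xs inv w i) n

theorem srch_iff (inv : Fin c → List (Fin c)) (w : List (Fin c ⊕ Fin 6)) (n : ℕ) :
    srch xs inv w n = true ↔ ∃ i < n, chk xs inv w i = true := by
  induction n with
  | zero => simp [srch]
  | succ n ih =>
    change (srch xs inv w n || chk xs inv w n) = true ↔ _
    rw [Bool.or_eq_true, ih]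
    constructor
    · rintro (⟨i, h1, h2⟩ | h)
      · exact ⟨i, by omega, h2⟩
      · exact ⟨n, by omega, h⟩
    · rintro ⟨i, h1, h2⟩
      rcases Nat.lt_or_ge i n with h3 | h3
      · exact Or.inl ⟨i, h3, h2⟩
      · obtain rfl : i = n := by omega
        exact Or.inr h2

/-- value of a word in `G × Y*` -/
def val2 (w : List (Fin c ⊕ Fin 6)) : G × List (Fin 6) := (val xs (wS w), wY w)

theorem VP_val2_iff {inv : Fin c → List (Fin c)} (hinv : ∀ s, val xs (inv s) = (xs s)⁻¹)
    (w : List (Fin c ⊕ Fin 6)) : VP xs (val2 xs w) ↔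
      (val xs (wS w) = 1 ∧ wY w = []) ∨ srch xs inv w (wY w).length = true := by
  rw [srch_iff]
  unfold VP val2
  refine or_congr Iff.rfl ?_
  constructor
  · rintro ⟨i, h1, h2⟩
    refine ⟨i, ?_, (chk_iff xs hinv w i).2 ⟨h1, h2⟩⟩
    have := congrArg List.length h1
    simp only [List.length_append, length_bt] at this
    omega
  · rintro ⟨i, -, h2⟩
    exact ⟨i, (chk_iff xs hinv w i).1 h2⟩

theorem or_comp {α : Type*} [Primcodable α] {f g : α → Bool} (hf : Computable f)
    (hg : Computable g) : Computable fun a => (f a || g a) :=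
  Computable₂.comp (f := or) Primrec.or.to_comp hf hg

theorem and_comp {α : Type*} [Primcodable α] {f g : α → Bool} (hf : Computable f)
    (hg : Computable g) : Computable fun a => (f a && g a) :=
  Computable₂.comp (f := and) Primrec.and.to_comp hf hg

theorem beq_primrec {α β : Type*} [Primcodable α] [Primcodable β] [DecidableEq β] {f g : α → β}
    (hf : Primrec f) (hg : Primrec g) : Primrec fun a => decide (f a = g a) :=
  (Primrec.beq.comp hf hg).of_eq fun a => by
    rw [Bool.eq_iff_iff, beq_iff_eq, decide_eq_true_eq]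

theorem wp_computable (hwp : ComputablePred fun v : List (Fin c) => val xs v = 1) :
    ∃ f : List (Fin c) → Bool, Computable f ∧ ∀ v, f v = true ↔ val xs v = 1 := by
  obtain ⟨hd, h⟩ := hwp
  exact ⟨_, h, fun v => decide_eq_true_iff⟩

/-- auxiliary: the test with a given decision function -/
def chk' (inv : Fin c → List (Fin c)) (f : List (Fin c) → Bool) (w : List (Fin c ⊕ Fin 6))
    (i : ℕ) : Bool :=
  decide (wY w = (tri c i).2.1 ++ (bt i ++ (tri c i).2.2)) &&
    f ((tri c i).1 ++ (wS w).reverse.flatMap inv)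

theorem chk'_computable (inv : Fin c → List (Fin c)) {f : List (Fin c) → Bool}
    (hf : Computable f) :
    Computable fun p : List (Fin c ⊕ Fin 6) × ℕ => chk' inv f p.1 p.2 := by
  have htri : Primrec fun p : List (Fin c ⊕ Fin 6) × ℕ => tri c p.2 :=
    (dec_primrec _).comp Primrec.snd
  have e1 : Primrec fun p : List (Fin c ⊕ Fin 6) × ℕ =>
      decide (wY p.1 = (tri c p.2).2.1 ++ (bt p.2 ++ (tri c p.2).2.2)) :=
    beq_primrec (wY_primrec.comp Primrec.fst)
      (Primrec.list_append.comp (Primrec.fst.comp (Primrec.snd.comp htri))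
        (Primrec.list_append.comp (bt_primrec.comp Primrec.snd)
          (Primrec.snd.comp (Primrec.snd.comp htri))))
  have e2 : Primrec fun p : List (Fin c ⊕ Fin 6) × ℕ =>
      (tri c p.2).1 ++ (wS p.1).reverse.flatMap inv :=
    Primrec.list_append.comp (Primrec.fst.comp htri)
      (Primrec.list_flatMap (Primrec.list_reverse.comp (wS_primrec.comp Primrec.fst))
        ((Primrec.dom_finite inv).comp Primrec.snd))
  exact and_comp e1.to_comp (hf.comp e2.to_comp)

theorem chk_computable (inv : Fin c → List (Fin c))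
    (hwp : ComputablePred fun v : List (Fin c) => val xs v = 1) :
    Computable fun p : List (Fin c ⊕ Fin 6) × ℕ => chk xs inv p.1 p.2 := by
  obtain ⟨f, hf, hfv⟩ := wp_computable xs hwp
  refine (chk'_computable inv hf).of_eq fun p => ?_
  unfold chk' chk
  congr 1
  rw [Bool.eq_iff_iff, hfv]
  exact (@decide_eq_true_iff _ (Classical.propDecidable _)).symm

theorem rec_or_computable {α : Type*} [Primcodable α] {f : α → ℕ → Bool} {len : α → ℕ}
    (hf : Computable fun p : α × ℕ => f p.1 p.2) (hl : Computable len) :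
    Computable fun a => (Nat.rec false (fun i r => r || f a i) (len a) : Bool) := by
  have e7 : Computable fun a : α × (ℕ × Bool) => (a.1, a.2.1) :=
    Computable.fst.pair (Computable.fst.comp Computable.snd)
  have e8 : Computable fun a : α × (ℕ × Bool) => f a.1 a.2.1 :=
    Computable.comp (f := fun p : α × ℕ => f p.1 p.2) hf e7
  have e9 : Computable fun a : α × (ℕ × Bool) => a.2.2 := Computable.snd.comp Computable.snd
  have e10 : Computable fun a : α × (ℕ × Bool) => (a.2.2 || f a.1 a.2.1) := or_comp e9 e8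
  have e11 : Computable₂ fun (a : α) (p : ℕ × Bool) => (p.2 || f a p.1) := e10
  exact Computable.nat_rec hl (Computable.const false) e11

theorem srch_computable (inv : Fin c → List (Fin c))
    (hwp : ComputablePred fun v : List (Fin c) => val xs v = 1) :
    Computable fun w : List (Fin c ⊕ Fin 6) => srch xs inv w (wY w).length :=
  rec_or_computable (chk_computable xs inv hwp) (Primrec.list_length.comp wY_primrec).to_comp

theorem VP_computable {inv : Fin c → List (Fin c)} (hinv : ∀ s, val xs (inv s) = (xs s)⁻¹)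
    (hwp : ComputablePred fun v : List (Fin c) => val xs v = 1) :
    ∃ F : List (Fin c ⊕ Fin 6) → Bool, Computable F ∧
      ∀ w, F w = true ↔ VP xs (val2 xs w) := by
  have e4 := srch_computable xs inv hwp
  obtain ⟨f, hf, hfv⟩ := wp_computable xs hwp
  have e0 : Computable fun w : List (Fin c ⊕ Fin 6) => decide ((wY w).length = 0) :=
    (beq_primrec (Primrec.list_length.comp wY_primrec) (Primrec.const 0)).to_comp
  have e1 : Computable fun w : List (Fin c ⊕ Fin 6) => f (wS w) := hf.comp wS_primrec.to_comp
  have e6 : Computable fun w : List (Fin c ⊕ Fin 6) =>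
      (f (wS w) && decide ((wY w).length = 0)) := and_comp e1 e0
  refine ⟨_, or_comp e6 e4, fun w => ?_⟩
  rw [VP_val2_iff xs hinv, Bool.or_eq_true, Bool.and_eq_true, hfv, decide_eq_true_eq,
    List.length_eq_zero_iff]

/-- the relators: `R0 0 = []`, every word of value `1` occurs, all have value `1` -/
noncomputable def R0 (k : ℕ) : List (Fin c) :=
  open Classical in
  if val xs (dec (List (Fin c)) k) = 1 then dec (List (Fin c)) k else []

theorem val_R0 (k : ℕ) : val xs (R0 xs k) = 1 := by
  unfold R0
  split_ifs with h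
  · exact h
  · simp [val]

theorem exists_R0 {w : List (Fin c)} (h : val xs w = 1) : ∃ k, R0 xs k = w := by
  obtain ⟨k, -, hk⟩ := exists_dec (List (Fin c)) w 0
  refine ⟨k, ?_⟩
  unfold R0
  rw [hk, if_pos h]

theorem R0_computable (hwp : ComputablePred fun v : List (Fin c) => val xs v = 1) :
    Computable (R0 xs) := by
  obtain ⟨f, hf, hfv⟩ := wp_computable xs hwp
  have e := Computable.cond (hf.comp (dec_primrec (List (Fin c))).to_comp)
    (dec_primrec (List (Fin c))).to_comp (Computable.const [])
  refine e.of_eq fun k => ?_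
  unfold R0
  by_cases h : val xs (dec (List (Fin c)) k) = 1
  · rw [if_pos h, (hfv _).2 h]
    rfl
  · have : f (dec (List (Fin c)) k) = false := by
      rw [← Bool.not_eq_true, hfv]
      exact h
    rw [if_neg h, this]
    rfl

theorem R0_zero : R0 xs 0 = [] := by
  have h : dec (List (Fin c)) 0 = [] := by
    unfold dec
    simp
  unfold R0
  rw [h]
  simp

end comp

end P193.One.TabC
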